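import Mathlib

/-! Extension of scalars for polynomial rings over fields, coordinate by coordinate. -/

namespace Vale.Agent.P200

open MvPolynomial

section bc
variable {K L : Type*} [Field K] [Field L] [Algebra K L] {σ : Type*}

/-- apply a linear functional to all coefficients -/
noncomputable def bcc (φ : L →ₗ[K] K) (p : MvPolynomial σ L) : MvPolynomial σ K :=
  ∑ m ∈ p.support, monomial m (φ (coeff m p))

lemma coeff_bcc (φ : L →ₗ[K] K) (p : MvPolynomial σ L) (m : σ →₀ ℕ) :
    coeff m (bcc φ p) = φ (coeff m p) := by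
  classical
  unfold bcc
  rw [coeff_sum]
  simp only [coeff_monomial]
  rw [Finset.sum_ite_eq']
  split_ifs with h
  · rfl
  · rw [MvPolynomial.notMem_support_iff.1 h, map_zero]

lemma bcc_add (φ : L →ₗ[K] K) (p q : MvPolynomial σ L) : bcc φ (p + q) = bcc φ p + bcc φ q := by
  ext m
  rw [coeff_add, coeff_bcc, coeff_bcc, coeff_bcc, coeff_add, map_add]

lemma bcc_zero (φ : L →ₗ[K] K) : bcc φ (0 : MvPolynomial σ L) = 0 := by
  ext m
  rw [coeff_bcc, coeff_zero, coeff_zero, map_zero]

lemma bcc_sum {ι : Type*} (s : Finset ι) (φ : L →ₗ[K] K) (p : ι → MvPolynomial σ L) :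
    bcc φ (∑ i ∈ s, p i) = ∑ i ∈ s, bcc φ (p i) := by
  classical
  induction s using Finset.induction_on with
  | empty => rw [Finset.sum_empty, Finset.sum_empty, bcc_zero]
  | insert a s ha ih => rw [Finset.sum_insert ha, Finset.sum_insert ha, bcc_add, ih]

lemma bcc_smul_map (φ : L →ₗ[K] K) (c : L) (u : MvPolynomial σ K) :
    bcc φ (c • MvPolynomial.map (algebraMap K L) u) = φ c • u := by
  ext m
  rw [coeff_bcc, coeff_smul, coeff_smul, coeff_map, smul_eq_mul, smul_eq_mul, mul_comm c,
    ← Algebra.smul_def, map_smul, smul_eq_mul, mul_comm]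

lemma bcc_map_mul (φ : L →ₗ[K] K) (r : MvPolynomial σ K) (p : MvPolynomial σ L) :
    bcc φ (MvPolynomial.map (algebraMap K L) r * p) = r * bcc φ p := by
  classical
  ext m
  rw [coeff_bcc, coeff_mul, coeff_mul, map_sum]
  refine Finset.sum_congr rfl fun x _ => ?_
  rw [coeff_map, coeff_bcc, ← Algebra.smul_def, map_smul, smul_eq_mul]

lemma bcc_C_mul (φ : L →ₗ[K] K) (c : L) (p : MvPolynomial σ L) :
    bcc φ (C c * p) = bcc (φ ∘ₗ LinearMap.mulLeft K c) p := by
  ext m
  rw [coeff_bcc, coeff_bcc, coeff_C_mul]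
  rfl

lemma bcc_X_mul (φ : L →ₗ[K] K) (i : σ) (p : MvPolynomial σ L) :
    bcc φ (X i * p) = X i * bcc φ p := by
  rw [← bcc_map_mul, map_X]

/-- `p ∈ I L[x]` implies that all coordinates are in `I` -/
lemma bcc_mem {I : Ideal (MvPolynomial σ K)} {p : MvPolynomial σ L}
    (hp : p ∈ I.map (MvPolynomial.map (algebraMap K L))) : ∀ φ : L →ₗ[K] K, bcc φ p ∈ I := by
  unfold Ideal.map at hp
  induction hp using Submodule.span_induction with
  | mem x hx =>
    obtain ⟨i, hi, rfl⟩ := hx
    intro φ
    rw [← mul_one (MvPolynomial.map (algebraMap K L) i), bcc_map_mul]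
    exact I.mul_mem_right _ hi
  | zero => intro φ; rw [bcc_zero]; exact I.zero_mem
  | add x y _ _ hx hy => intro φ; rw [bcc_add]; exact I.add_mem (hx φ) (hy φ)
  | smul q x hm hx =>
    induction q using MvPolynomial.induction_on generalizing x with
    | C a =>
      intro φ
      rw [smul_eq_mul, bcc_C_mul]
      exact hx _
    | add q r hq hr =>
      intro φ
      rw [add_smul, bcc_add]
      exact I.add_mem (hq x hm hx φ) (hr x hm hx φ)
    | mul_X q i hq =>
      intro φ
      rw [smul_eq_mul, mul_right_comm, mul_comm, bcc_X_mul]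
      exact I.mul_mem_left _ (hq x hm hx φ)

/-- expansion in a basis -/
lemma bcc_expand {ι : Type*} (B : Module.Basis ι K L) (p : MvPolynomial σ L) :
    ∃ T : Finset ι, p = ∑ α ∈ T, B α • MvPolynomial.map (algebraMap K L) (bcc (B.coord α) p) := by
  classical
  refine ⟨p.support.biUnion fun m => (B.repr (coeff m p)).support, ?_⟩
  ext m
  rw [coeff_sum]
  have h1 : ∀ α, coeff m (B α • MvPolynomial.map (algebraMap K L) (bcc (B.coord α) p)) =
      (B.repr (coeff m p) α) • B α := by
    intro α
    rw [coeff_smul, coeff_map, coeff_bcc, smul_eq_mul, mul_comm, ← Algebra.smul_def,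
      Module.Basis.coord_apply]
  rw [Finset.sum_congr rfl fun α _ => h1 α]
  by_cases hm : m ∈ p.support
  · conv_lhs => rw [← B.linearCombination_repr (coeff m p), Finsupp.linearCombination_apply,
      Finsupp.sum]
    refine Finset.sum_subset (Finset.subset_biUnion_of_mem
      (fun m => (B.repr (coeff m p)).support) hm) fun α _ hα => ?_
    rw [Finsupp.notMem_support_iff.1 hα, zero_smul]
  · rw [MvPolynomial.notMem_support_iff.1 hm, map_zero]
    simp

lemma mem_map_of_bcc {ι : Type*} (B : Module.Basis ι K L) {I : Ideal (MvPolynomial σ K)}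
    {p : MvPolynomial σ L} (h : ∀ α, bcc (B.coord α) p ∈ I) :
    p ∈ I.map (MvPolynomial.map (algebraMap K L)) := by
  obtain ⟨T, hT⟩ := bcc_expand B p
  rw [hT]
  refine Ideal.sum_mem _ fun α _ => ?_
  rw [← C_mul']
  exact Ideal.mul_mem_left _ _ (Ideal.mem_map_of_mem _ (h α))

lemma mem_map_iff_bcc {I : Ideal (MvPolynomial σ K)} {p : MvPolynomial σ L} :
    p ∈ I.map (MvPolynomial.map (algebraMap K L)) ↔ ∀ φ : L →ₗ[K] K, bcc φ p ∈ I :=
  ⟨bcc_mem, fun h => mem_map_of_bcc (Module.Basis.ofVectorSpace K L) fun _ => h _⟩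

lemma homogeneousComponent_bcc (φ : L →ₗ[K] K) (d : ℕ) (p : MvPolynomial σ L) :
    homogeneousComponent d (bcc φ p) = bcc φ (homogeneousComponent d p) := by
  classical
  ext m
  rw [coeff_homogeneousComponent, coeff_bcc, coeff_bcc, coeff_homogeneousComponent]
  split_ifs
  · rfl
  · rw [map_zero]

lemma bcc_isHomogeneous (φ : L →ₗ[K] K) {d : ℕ} {p : MvPolynomial σ L} (hp : p.IsHomogeneous d) :
    (bcc φ p).IsHomogeneous d := by
  rw [← homogeneousComponent_eq_self hp, ← homogeneousComponent_bcc]
  exact homogeneousComponent_isHomogeneous _ _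

/-- extension of scalars preserves the dimension of graded pieces of an ideal -/
theorem finrank_deg_map (I : Ideal (MvPolynomial σ K)) (d : ℕ)
    [Module.Finite K (I.restrictScalars K ⊓ homogeneousSubmodule σ K d :
      Submodule K (MvPolynomial σ K))] :
    Module.finrank L ((I.map (MvPolynomial.map (algebraMap K L))).restrictScalars L ⊓
      homogeneousSubmodule σ L d : Submodule L (MvPolynomial σ L)) =
    Module.finrank K (I.restrictScalars K ⊓ homogeneousSubmodule σ K d :
      Submodule K (MvPolynomial σ K)) := by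
  classical
  set V : Submodule K (MvPolynomial σ K) := I.restrictScalars K ⊓ homogeneousSubmodule σ K d
    with hV
  let u := Module.finBasis K V
  let w : Fin (Module.finrank K V) → MvPolynomial σ L := fun i =>
    MvPolynomial.map (algebraMap K L) (u i : MvPolynomial σ K)
  have hind : LinearIndependent L w := by
    rw [Fintype.linearIndependent_iff]
    intro c hc i
    have h1 : ∀ φ : L →ₗ[K] K, φ (c i) = 0 := by
      intro φ
      have h2 := congrArg (bcc φ) hc
      rw [bcc_sum, bcc_zero] at h2
      have h3 : ∑ i, φ (c i) • u i = 0 := by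
        apply V.injective_subtype
        rw [map_sum, map_zero, ← h2]
        refine Finset.sum_congr rfl fun i _ => ?_
        rw [bcc_smul_map]
        rfl
      exact Fintype.linearIndependent_iff.1 u.linearIndependent _ h3 i
    have B := Module.Basis.ofVectorSpace K L
    apply B.ext_elem
    intro α
    rw [map_zero, Finsupp.zero_apply]
    exact h1 (B.coord α)
  have hspan : ((I.map (MvPolynomial.map (algebraMap K L))).restrictScalars L ⊓
      homogeneousSubmodule σ L d : Submodule L (MvPolynomial σ L)) =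
      Submodule.span L (Set.range w) := by
    apply le_antisymm
    · rintro p ⟨hp, hpd⟩
      obtain ⟨T, hT⟩ := bcc_expand (Module.Basis.ofVectorSpace K L) p
      rw [hT]
      refine Submodule.sum_mem _ fun α _ => Submodule.smul_mem _ _ ?_
      have h1 : bcc ((Module.Basis.ofVectorSpace K L).coord α) p ∈ V :=
        ⟨bcc_mem hp _, bcc_isHomogeneous _ hpd⟩
      have h2 := congrArg V.subtype (u.sum_repr ⟨_, h1⟩)
      rw [map_sum] at h2
      rw [← (show V.subtype ⟨_, h1⟩ = bcc ((Module.Basis.ofVectorSpace K L).coord α) p from rfl),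
        ← h2, map_sum]
      refine Submodule.sum_mem _ fun i _ => ?_
      rw [map_smul, smul_eq_C_mul, map_mul, map_C, C_mul']
      exact Submodule.smul_mem _ _ (Submodule.subset_span ⟨i, rfl⟩)
    · rw [Submodule.span_le]
      rintro _ ⟨i, rfl⟩
      exact ⟨Ideal.mem_map_of_mem _ (u i).2.1, IsHomogeneous.map (u i).2.2 _⟩
  rw [hspan, finrank_span_eq_card hind, Fintype.card_fin]

lemma map_span_image {s : Set (MvPolynomial σ K)} :
    (Ideal.span s).map (MvPolynomial.map (algebraMap K L)) =
      Ideal.span ((MvPolynomial.map (algebraMap K L)) '' s) := Ideal.map_span _ _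

end bc

end Vale.Agent.P200
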