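import Mathlib

namespace Vale.Agent.P200

open MvPolynomial Module

variable {K : Type*} [Field K] {n c : ℕ}

/-- `f 0, …, f (c-1)` is a regular sequence: multiplication by `f i` is injective modulo the
previous forms. -/
def IsRegularSeq (f : Fin c → MvPolynomial (Fin n) K) : Prop :=
  ∀ (i : Fin c) (g : MvPolynomial (Fin n) K),
    f i * g ∈ Ideal.span (f '' {j | j < i}) → g ∈ Ideal.span (f '' {j | j < i})

/-- degree `d` part of an ideal -/
noncomputable def degPart (I : Ideal (MvPolynomial (Fin n) K)) (d : ℕ) :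
    Submodule K (MvPolynomial (Fin n) K) :=
  I.restrictScalars K ⊓ homogeneousSubmodule (Fin n) K d

/-- the ideal `P = (x_0 ^ a 0, …, x_(c-1) ^ a (c-1))` -/
noncomputable def powerIdeal (K : Type*) [Field K] {n c : ℕ} (h : c ≤ n) (a : Fin c → ℕ) :
    Ideal (MvPolynomial (Fin n) K) :=
  Ideal.span (Set.range fun i => X (Fin.castLE h i) ^ a i)

/-- exponents of the monomials of degree `d` outside `P` -/
def outside (h : c ≤ n) (a : Fin c → ℕ) (d : ℕ) : Set (Fin n →₀ ℕ) :=
  {e | (∀ i, e (Fin.castLE h i) < a i) ∧ ∑ i, e i = d}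

/-- `e` is strictly larger than `e'` in the lexicographic order with `x_0 > x_1 > …` -/
def lexGT (e e' : Fin n →₀ ℕ) : Prop :=
  ∃ i, e' i < e i ∧ ∀ j < i, e j = e' j

/-- `q_d = dim I_d - dim P_d` -/
noncomputable def qdim (h : c ≤ n) (a : Fin c → ℕ) (I : Ideal (MvPolynomial (Fin n) K)) (d : ℕ) :
    ℕ :=
  finrank K (degPart I d) - finrank K (degPart (powerIdeal K h a) d)

/-- `J_d`: the span of `P_d` and of the `q_d` lexicographically greatest monomials of degree `d`
outside `P` (those which have fewer than `q_d` larger ones). -/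
noncomputable def lexPart (h : c ≤ n) (a : Fin c → ℕ) (I : Ideal (MvPolynomial (Fin n) K))
    (d : ℕ) : Submodule K (MvPolynomial (Fin n) K) :=
  degPart (powerIdeal K h a) d ⊔
    Submodule.span K ((fun e => monomial e (1 : K)) ''
      {e | e ∈ outside h a d ∧ {e' | e' ∈ outside h a d ∧ lexGT e' e}.ncard < qdim h a I d})

/-- `J = ⨁ J_d` -/
noncomputable def lexPlusPowers (h : c ≤ n) (a : Fin c → ℕ) (I : Ideal (MvPolynomial (Fin n) K)) :
    Submodule K (MvPolynomial (Fin n) K) :=
  ⨆ d, lexPart h a I d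

end Vale.Agent.P200
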