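import Vale.Agent.P200.Basic
import Vale.Agent.P200.FDefs
import Vale.Agent.P200.BCAux

namespace Vale.Agent.P200

open MvPolynomial Module

variable {K L : Type*} [Field K] [Field L] [Algebra K L]

/-- extension of scalars preserves the dimension of graded pieces of an ideal -/
theorem finrank_degPart_map (I : Ideal (S3 K)) (d : ℕ) :
    finrank L (degPart (I.map (MvPolynomial.map (algebraMap K L))) d) =
      finrank K (degPart I d) := by
  have h1 : Module.Finite K (homogeneousSubmodule (Fin 3) K d) :=
    Module.Finite.iff_fg.2 (homogeneousSubmodule_fg (Fin 3) K d)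
  have h2 : Module.Finite K (I.restrictScalars K ⊓ homogeneousSubmodule (Fin 3) K d :
      Submodule K (MvPolynomial (Fin 3) K)) :=
    Submodule.finiteDimensional_of_le (S₂ := homogeneousSubmodule (Fin 3) K d) inf_le_right
  exact finrank_deg_map I d

/-- extension of scalars preserves regular sequences -/
theorem RegSeq3.map {a b c : ℕ} {f g h : S3 K} (H : RegSeq3 a b c f g h) :
    RegSeq3 a b c (MvPolynomial.map (algebraMap K L) f) (MvPolynomial.map (algebraMap K L) g)
      (MvPolynomial.map (algebraMap K L) h) where
  hf := H.hf.map _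
  hg := H.hg.map _
  hh := H.hh.map _
  nf := by
    intro h0
    apply H.nf
    apply MvPolynomial.map_injective _ (algebraMap K L).injective
    rw [h0, map_zero]
  rg := by
    intro u v huv
    have h1 : u ∈ (Ideal.span {f}).map (MvPolynomial.map (algebraMap K L)) := by
      rw [mem_map_iff_bcc]
      intro φ
      have h2 := congrArg (bcc φ) huv
      rw [bcc_map_mul, bcc_map_mul] at h2
      obtain ⟨w, hw⟩ := H.rg _ _ h2
      rw [hw]
      exact Ideal.mul_mem_right _ _ (Ideal.mem_span_singleton_self f)
    rw [map_span_image, Set.image_singleton, Ideal.mem_span_singleton'] at h1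
    obtain ⟨w, hw⟩ := h1
    exact ⟨w, by rw [← hw, mul_comm]⟩
  rh := by
    intro u v w huvw
    have h1 : u ∈ (Ideal.span {f, g}).map (MvPolynomial.map (algebraMap K L)) := by
      rw [mem_map_iff_bcc]
      intro φ
      have h2 := congrArg (bcc φ) huvw
      rw [bcc_map_mul, bcc_add, bcc_map_mul, bcc_map_mul] at h2
      obtain ⟨v', w', hw⟩ := H.rh _ _ _ h2
      rw [hw, Ideal.mem_span_pair]
      exact ⟨v', w', by ring⟩
    rw [map_span_image, Set.image_pair, Ideal.mem_span_pair] at h1
    obtain ⟨v', w', hw⟩ := h1
    exact ⟨v', w', by rw [← hw]; ring⟩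

end Vale.Agent.P200
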