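import Mathlib

/-!
Basic definitions for P200 (Eisenbud-Green-Harris): degree pieces, Hilbert function,
boxes of monomials, shadows, lexicographic segments.
-/

namespace Vale.Agent.P200

open MvPolynomial

/-- The degree `d` piece of an ideal, as a `K`-subspace. -/
noncomputable def piece {K : Type*} [Field K] {n : ℕ} (I : Ideal (MvPolynomial (Fin n) K))
    (d : ℕ) : Submodule K (MvPolynomial (Fin n) K) :=
  I.restrictScalars K ⊓ homogeneousSubmodule (Fin n) K d

/-- The Hilbert function of `S / I`. -/
noncomputable def hilb {K : Type*} [Field K] {n : ℕ} (I : Ideal (MvPolynomial (Fin n) K))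
    (d : ℕ) : ℕ :=
  Module.finrank K (homogeneousSubmodule (Fin n) K d) - Module.finrank K (piece I d)

/-- `lexLT m m'` : the monomial `m'` is lexicographically greater than `m`
(first variable greatest). -/
def lexLT {n : ℕ} (m m' : Fin n → ℕ) : Prop := ∃ i, (∀ k, k < i → m k = m' k) ∧ m i < m' i

instance {n : ℕ} (m m' : Fin n → ℕ) : Decidable (lexLT m m') := by
  unfold lexLT; infer_instance

/-- Exponents of total degree `d` in the box `m i < a i`. -/
def boxD {n : ℕ} (a : Fin n → ℕ) (d : ℕ) : Finset (Fin n → ℕ) :=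
  (Fintype.piFinset fun i => Finset.range (a i)).filter fun m => ∑ i, m i = d

/-- The upper shadow inside the box. -/
def upShadow {n : ℕ} (a : Fin n → ℕ) (M : Finset (Fin n → ℕ)) : Finset (Fin n → ℕ) :=
  (M.biUnion fun m => Finset.univ.image fun i => Function.update m i (m i + 1)).filter
    fun y => ∀ i, y i < a i

/-- The `q` lexicographically greatest exponents of degree `d` in the box. -/
def lexSeg {n : ℕ} (a : Fin n → ℕ) (d q : ℕ) : Finset (Fin n → ℕ) :=
  (boxD a d).filter fun m => ((boxD a d).filter fun m' => lexLT m m').card < q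

/-- Growth of lexicographic segments. -/
def up {n : ℕ} (a : Fin n → ℕ) (d q : ℕ) : ℕ := (upShadow a (lexSeg a d q)).card

/-- Homogeneous ideals. -/
def HomIdeal {K : Type*} [Field K] {n : ℕ} (I : Ideal (MvPolynomial (Fin n) K)) : Prop :=
  ∀ f ∈ I, ∀ d, homogeneousComponent d f ∈ I

/-- The growth inequality of Eisenbud-Green-Harris for `I` with respect to degrees `a`. -/
def EGH {K : Type*} [Field K] {n : ℕ} (a : Fin n → ℕ) (I : Ideal (MvPolynomial (Fin n) K)) :
    Prop :=
  ∀ d, up a d ((boxD a d).card - hilb I d) + hilb I (d + 1) ≤ (boxD a (d + 1)).card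

/-- `f` is a regular sequence: multiplication by `f i` is injective modulo the earlier ones. -/
def IsRegSeq {R : Type*} [CommRing R] {c : ℕ} (f : Fin c → R) : Prop :=
  ∀ i : Fin c, ∀ g : R, f i * g ∈ Ideal.span (f '' {j | j < i}) →
    g ∈ Ideal.span (f '' {j | j < i})

/-- The ideal contains all forms of degree `≥ N` for some `N`. -/
def IsMPrimary {K : Type*} [Field K] {n : ℕ} (I : Ideal (MvPolynomial (Fin n) K)) : Prop :=
  ∃ N : ℕ, ∀ d, N ≤ d → ∀ g : MvPolynomial (Fin n) K, g.IsHomogeneous d → g ∈ I

/-- `f` is a product of `d` linear forms. -/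
def SplitsLinear {K : Type*} [Field K] {n : ℕ} (d : ℕ) (f : MvPolynomial (Fin n) K) : Prop :=
  ∃ l : Fin d → MvPolynomial (Fin n) K, (∀ i, (l i).IsHomogeneous 1) ∧ f = ∏ i, l i

end Vale.Agent.P200
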