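import Vale.Agent.P200.LexBase

namespace Vale.Agent.P200

theorem lxd_layer {a b c e i j l : ℕ} (h : InBox a b c e i j l) :
    min (b - 1) (e - i) - j + 1 ≤ H2 b c (e - i) := by
  obtain ⟨h1, h2, h3, h4⟩ := h
  rw [H2_eq]
  omega

theorem lxd_Lam_layer {a b c e i : ℕ} (h : i < a) (hi : i ≤ e) :
    Lam a b c e (a - 1 - i) + H2 b c (e - i) = Lam a b c e (a - i) := by
  have h1 := Lam_succ (a := a) (b := b) (c := c) (e := e) (q := a - 1 - i) (by omega)
  rw [show a - 1 - (a - 1 - i) = i by omega, if_pos hi,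
    show a - 1 - i + 1 = a - i by omega] at h1
  exact h1.symm

/-- every rank is at most the number of monomials -/
theorem rk_le_box {a b c e i j l : ℕ} (h : InBox a b c e i j l) :
    rk a b c e i j ≤ box a b c e := by
  have h1 := lxd_layer h
  obtain ⟨h2, h3, h4, h5⟩ := h
  have h6 := lxd_Lam_layer (a := a) (b := b) (c := c) (e := e) h2 (by omega)
  have h7 := Lam_mono a b c e (show a - i ≤ a by omega)
  rw [Lam_self] at h7
  unfold rk
  omega

theorem lxd_Lam_compl {a b c e e' : ℕ} (ha : 1 ≤ a) (hb : 1 ≤ b) (hc : 1 ≤ c)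
    (he : e + e' + 3 = a + b + c) (q : ℕ) (hq : q ≤ a) :
    Lam a b c e (a - q) + Lam a b c e' q = box a b c e := by
  induction q with
  | zero => rw [Nat.sub_zero, Lam_self, Lam_zero, add_zero]
  | succ q ih =>
    rw [← ih (by omega)]
    rw [Lam_succ (q := q) (by omega)]
    have h1 := Lam_succ (a := a) (b := b) (c := c) (e := e) (q := a - (q + 1)) (by omega)
    rw [show a - (q + 1) + 1 = a - q by omega] at h1
    rw [h1, H2_eq, H2_eq]
    split_ifs <;> omega

/-- complement reverses the ranks -/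
theorem rk_compl {a b c e e' i j l : ℕ} (h : InBox a b c e i j l) (he : e + e' + 3 = a + b + c) :
    rk a b c e i j + rk a b c e' (a - 1 - i) (b - 1 - j) = box a b c e + 1 := by
  obtain ⟨h2, h3, h4, h5⟩ := h
  have h6 := lxd_Lam_layer (a := a) (b := b) (c := c) (e := e) h2 (by omega)
  have h7 := lxd_Lam_compl (a := a) (b := b) (c := c) (e := e) (e' := e') (by omega) (by omega)
    (by omega) he i (by omega)
  unfold rk
  rw [show a - 1 - (a - 1 - i) = i by omega]
  rw [H2_eq] at h6
  omega

/-- duality -/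
theorem shadow_dual {a b c e e' m M : ℕ} (ha : 1 ≤ a) (hb : 1 ≤ b) (hc : 1 ≤ c)
    (he : e + e' + 4 = a + b + c) (hm : m ≤ box a b c e) (hM : M ≤ box a b c (e + 1))
    (h : Shadow a b c e' (box a b c (e + 1) - M) (box a b c e - m)) :
    Shadow a b c e m M := by
  intro i j l hbx hr
  have hu := rk_compl (e' := e' + 1) hbx (by omega)
  obtain ⟨h2, h3, h4, h5⟩ := hbx
  refine ⟨fun hy => ?_, fun hy => ?_, fun hy => ?_⟩
  · by_contra hcon
    have hy2 := rk_compl (e' := e') hy (by omega)
    obtain ⟨h2', h3', h4', h5'⟩ := hy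
    have h8 := (h (a - 1 - (i+1)) (b - 1 - j) (c - 1 - l)
      ⟨by omega, by omega, by omega, by omega⟩ (by omega)).1
      ⟨by omega, by omega, by omega, by omega⟩
    rw [show a - 1 - (i + 1) + 1 = a - 1 - i by omega] at h8
    omega
  · by_contra hcon
    have hy2 := rk_compl (e' := e') hy (by omega)
    obtain ⟨h2', h3', h4', h5'⟩ := hy
    have h8 := (h (a - 1 - i) (b - 1 - (j+1)) (c - 1 - l)
      ⟨by omega, by omega, by omega, by omega⟩ (by omega)).2.1
      ⟨by omega, by omega, by omega, by omega⟩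
    rw [show b - 1 - (j + 1) + 1 = b - 1 - j by omega] at h8
    omega
  · by_contra hcon
    have hy2 := rk_compl (e' := e') hy (by omega)
    obtain ⟨h2', h3', h4', h5'⟩ := hy
    have h8 := (h (a - 1 - i) (b - 1 - j) (c - 1 - (l+1))
      ⟨by omega, by omega, by omega, by omega⟩ (by omega)).2.2
      ⟨by omega, by omega, by omega, by omega⟩
    omega

end Vale.Agent.P200
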