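import Vale.Agent.P200.LexBase

namespace Vale.Agent.P200

theorem lxl_layer {a b c e i j l : ℕ} (h : InBox a b c e i j l) :
    min (b - 1) (e - i) - j + 1 ≤ H2 b c (e - i) := by
  obtain ⟨h1, h2, h3, h4⟩ := h
  rw [H2_eq]
  omega

/-- all multiples of a monomial have rank at most the rank of its `z`-multiple (computed
formally) -/
theorem lxl_shadow {a b c e m M : ℕ}
    (h : ∀ i j l, InBox a b c e i j l → rk a b c e i j ≤ m →
      Lam a b c (e+1) (a - 1 - i) + (min (b - 1) (e + 1 - i) - j + 1) ≤ M) :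
    Shadow a b c e m M := by
  intro i j l hb hr
  have h1 := h i j l hb hr
  obtain ⟨h2, h3, h4, h5⟩ := hb
  refine ⟨fun hy => ?_, fun hy => ?_, fun _ => h1⟩
  · have h6 := lxl_layer hy
    obtain ⟨h2', h3', h4', h5'⟩ := hy
    have h7 := Lam_succ (a := a) (b := b) (c := c) (e := e+1) (q := a - 1 - (i+1)) (by omega)
    rw [show a - 1 - (a - 1 - (i+1)) = i + 1 by omega, if_pos (by omega),
      show a - 1 - (i+1) + 1 = a - 1 - i by omega] at h7
    unfold rk
    omega
  · unfold rk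
    omega

/-- growth of the layers in the low range -/
theorem lxl_growth {a b c e : ℕ} (hb : 1 ≤ b) (h1 : e + 2 ≤ c) (q : ℕ) (hq : q ≤ a) :
    Lam a b c (e+1) q = Lam a b c e q + (min a (e+2) - max (a - q) (e + 2 - b)) := by
  induction q with
  | zero => rw [Lam_zero, Lam_zero]; omega
  | succ q ih =>
    rw [Lam_succ (by omega), Lam_succ (by omega), ih (by omega), H2_eq, H2_eq]
    split_ifs <;> omega

/-- low range `e ≤ c - 2` -/
theorem shadow_low_top {a b c e m M : ℕ} (ha : 1 ≤ a) (hab : a ≤ b) (hbc : b ≤ c)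
    (h1 : e + 2 ≤ c) (h : m + H2 a b (e + 1) ≤ M) :
    Shadow a b c e m M := by
  refine lxl_shadow fun i j l hb hr => ?_
  obtain ⟨h2, h3, h4, h5⟩ := hb
  rw [lxl_growth (by omega) h1 _ (by omega)]
  unfold rk at hr
  rw [H2_eq] at h
  omega

theorem lxl_first {a b c e : ℕ} (hb : 1 ≤ b) (h1 : e + 2 ≤ c) (k : ℕ) (hk : k ≤ H2 a b (e + 1)) :
    Lam a b c e (a - min a (e + 2) + k) = k * (e + 2 - a) + k.choose 2 := by
  induction k with
  | zero =>
    rw [add_zero, zero_mul, Nat.choose_zero_succ, zero_add]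
    by_cases hae : a ≤ e + 2
    · rw [min_eq_left hae, Nat.sub_self, Lam_zero]
    · rw [min_eq_right (by omega)]
      have : ∀ q ≤ a - (e + 2), Lam a b c e q = 0 := by
        intro q
        induction q with
        | zero => intro _; rw [Lam_zero]
        | succ q ih =>
          intro hq
          rw [Lam_succ (by omega), ih (by omega), if_neg (by omega)]
      exact this _ le_rfl
  | succ k ih =>
    rw [← add_assoc]
    have hk2 := hk
    rw [H2_eq] at hk2
    have h3 : (k + 1).choose 2 = k.choose 2 + k := by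
      rw [Nat.choose_succ_succ' k 1, Nat.choose_one_right, add_comm]
    have h2 : (k + 1) * (e + 2 - a) = k * (e + 2 - a) + (e + 2 - a) := by ring
    rw [Lam_succ (by omega), ih (by omega), H2_eq, h2, h3]
    split_ifs <;> omega

theorem shadow_low_I {a b c e m M k : ℕ} (ha : 1 ≤ a) (hab : a ≤ b) (hbc : b ≤ c)
    (h1 : e + 2 ≤ c) (hk : k ≤ H2 a b (e + 1))
    (hm : m ≤ k * (e + 2 - a) + k.choose 2) (h : m + k ≤ M) :
    Shadow a b c e m M := by
  refine lxl_shadow fun i j l hb hr => ?_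
  obtain ⟨h2, h3, h4, h5⟩ := hb
  rw [lxl_growth (by omega) h1 _ (by omega)]
  rw [← lxl_first (by omega) h1 k hk (c := c)] at hm
  unfold rk at hr
  by_cases hc : a - min a (e + 2) + k ≤ a - 1 - i
  · have := Lam_mono a b c e hc
    omega
  · omega

theorem lxl_Lam_change {a b c c' e : ℕ} (h1 : e < c) (hc : c ≤ c') (q : ℕ) :
    Lam a b c e q = Lam a b c' e q := by
  unfold Lam
  refine Finset.sum_congr rfl fun i _ => ?_
  rw [H2_eq, H2_eq]
  omega

/-- independence of `c` in low degrees -/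
theorem shadow_change_c {a b c c' e m M : ℕ} (h1 : e + 2 ≤ c) (hc : c ≤ c')
    (h : Shadow a b c' e m M) : Shadow a b c e m M := by
  intro i j l hb hr
  unfold rk at hr ⊢
  rw [lxl_Lam_change (by omega) hc] at hr
  rw [lxl_Lam_change (by omega) hc, lxl_Lam_change (by omega) hc]
  have hbox : ∀ e i j l, InBox a b c e i j l → InBox a b c' e i j l := by
    rintro e i j l ⟨h2, h3, h4, h5⟩
    exact ⟨h2, h3, by omega, h5⟩
  obtain ⟨h2, h3, h4⟩ := h i j l (hbox _ _ _ _ hb) hr
  unfold rk at h2 h3 h4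
  exact ⟨fun hy => h2 (hbox _ _ _ _ hy), fun hy => h3 (hbox _ _ _ _ hy),
    fun hy => h4 (hbox _ _ _ _ hy)⟩

theorem box_change_c {a b c c' e : ℕ} (h1 : e < c) (hc : c ≤ c') :
    box a b c' e = box a b c e := by
  rw [← Lam_self, ← Lam_self]
  exact (lxl_Lam_change h1 hc a).symm

theorem H2_le_succ (a b t : ℕ) : H2 a b t ≤ H2 a b (t + 1) + 1 := by
  rw [H2_eq, H2_eq]
  omega

theorem H2_le (a b t : ℕ) (h : 1 ≤ H2 a b t) : H2 a b t + t + 1 ≤ a + b := by
  rw [H2_eq] at h ⊢
  omega

end Vale.Agent.P200
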