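import Vale.Agent.P200.LexBase

namespace Vale.Agent.P200

theorem mid_delta {a b c e : ℕ} (hab : a ≤ b) (hbc : b ≤ c)
    (h1 : c ≤ e + 1) (h2 : e + 2 ≤ a + b) (r : ℕ) (hr : r ≤ a) :
    Lam a b c (e+1) r + (r - (a + c - 2 - e)) = Lam a b c e r + min r (a + b - 2 - e) := by
  induction r with
  | zero => rw [Lam_zero, Lam_zero]; omega
  | succ r ih =>
    have := ih (by omega)
    rw [Lam_succ (by omega), Lam_succ (by omega), if_pos (by omega), if_pos (by omega), H2_eq,
      H2_eq]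
    omega

theorem Lam_I {a b c e : ℕ} (hab : a ≤ b) (hbc : b ≤ c)
    (h1 : c ≤ e + 1) (h2 : e + 2 ≤ a + b) (k : ℕ) (hk : k ≤ a + b - 2 - e) :
    Lam a b c e k = k * (e + 2 - a) + k.choose 2 := by
  induction k with
  | zero => simp [Lam_zero]
  | succ k ih =>
    rw [Lam_succ (by omega), if_pos (by omega), H2_eq, ih (by omega), choose_two_succ, add_mul]
    omega

theorem Lam_II0 {a b c e : ℕ} (hab : a ≤ b) (hbc : b ≤ c)
    (h1 : c ≤ e + 1) (h2 : e + 2 ≤ a + b) (r : ℕ) (hr : r ≤ a + c - 2 - e) :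
    Lam a b c e r + (a + b - 1 - e).choose 2 = b * r + (a + b - 1 - e - r).choose 2 := by
  induction r with
  | zero => simp [Lam_zero]
  | succ r ih =>
    have := ih (by omega)
    rw [Lam_succ (by omega), if_pos (by omega), H2_eq, mul_add]
    rcases Nat.lt_or_ge r (a + b - 1 - e) with h | h
    · have h3 := choose_two_succ (a + b - 1 - e - (r + 1))
      rw [show a + b - 1 - e - (r + 1) + 1 = a + b - 1 - e - r by omega] at h3
      omega
    · rw [show a + b - 1 - e - (r+1) = 0 by omega]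
      rw [show a + b - 1 - e - r = 0 by omega] at this
      omega

theorem Lam_II {a b c e : ℕ} (hab : a ≤ b) (hbc : b ≤ c)
    (h1 : c ≤ e + 1) (h2 : e + 2 ≤ a + b) (d : ℕ) (hd : d ≤ e + 2 - c) :
    Lam a b c e (a + c - 2 - e + d) + (a + b - 1 - e).choose 2 + d.choose 2 =
      b * (a + c - 2 - e + d) := by
  induction d with
  | zero =>
    have := Lam_II0 hab hbc h1 h2 (a + c - 2 - e) le_rfl
    have h3 : (a + b - 1 - e - (a + c - 2 - e)).choose 2 = 0 :=
      Nat.choose_eq_zero_of_lt (by omega)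
    rw [h3] at this
    simpa using this
  | succ d ih =>
    have := ih (by omega)
    rw [← add_assoc, Lam_succ (by omega), if_pos (by omega), H2_eq, choose_two_succ, mul_add]
    omega

/-- `h_e = a b - C(w+1,2) - C(w',2)` in the middle range -/
theorem box_mid {a b c e : ℕ} (ha : 1 ≤ a) (hab : a ≤ b) (hbc : b ≤ c)
    (h1 : c ≤ e + 1) (h2 : e + 2 ≤ a + b) :
    box a b c e + (a + b - 1 - e).choose 2 + (e + 2 - c).choose 2 = a * b := by
  have := Lam_II hab hbc h1 h2 (e + 2 - c) le_rfl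
  rw [show a + c - 2 - e + (e + 2 - c) = a by omega, Lam_self] at this
  rw [this, mul_comm]

/-- middle range `c - 1 ≤ e ≤ a + b - 3`; growth at least `w = a + b - 2 - e` -/
theorem shadow_mid_top {a b c e m M : ℕ} (ha : 1 ≤ a) (hab : a ≤ b) (hbc : b ≤ c)
    (h1 : c ≤ e + 1) (h2 : e + 3 ≤ a + b) (h : m + (a + b - 2 - e) ≤ M) :
    Shadow a b c e m M := by
  intro i j l hb hr
  obtain ⟨hi, hj, hl, hs⟩ := hb
  have hd := mid_delta hab hbc h1 (by omega) (a - 1 - i) (by omega)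
  rw [rk] at hr
  refine ⟨?_, ?_, ?_⟩
  · rintro ⟨hi', -, -, -⟩
    have hd' := mid_delta hab hbc h1 (by omega) (a - 1 - (i+1)) (by omega)
    have hmono := Lam_mono a b c e (show a - 1 - (i+1) ≤ a - 1 - i by omega)
    rw [rk]
    omega
  · rintro ⟨-, hj', -, -⟩
    rw [rk]; omega
  · rintro ⟨-, -, hl', -⟩
    rw [rk]; omega

/-- type I -/
theorem shadow_mid_I {a b c e m M k : ℕ} (ha : 1 ≤ a) (hab : a ≤ b) (hbc : b ≤ c)
    (h1 : c ≤ e + 1) (h2 : e + 3 ≤ a + b) (hk : k ≤ a + b - 2 - e)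
    (hm : m ≤ k * (e + 2 - a) + k.choose 2) (h : m + k ≤ M) :
    Shadow a b c e m M := by
  intro i j l hb hr
  obtain ⟨hi, hj, hl, hs⟩ := hb
  have hd := mid_delta hab hbc h1 (by omega) (a - 1 - i) (by omega)
  rw [← Lam_I hab hbc h1 (by omega) k hk] at hm
  have hlt : a - 1 - i < k := by
    by_contra hcon
    have h3 := Lam_mono a b c e (not_lt.1 hcon)
    have h4 := Lam_lt_rk a b c e i j
    omega
  rw [rk] at hr
  refine ⟨?_, ?_, ?_⟩
  · rintro ⟨hi', -, -, -⟩
    have hd' := mid_delta hab hbc h1 (by omega) (a - 1 - (i+1)) (by omega)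
    have hmono := Lam_mono a b c e (show a - 1 - (i+1) ≤ a - 1 - i by omega)
    rw [rk]
    omega
  · rintro ⟨-, hj', -, -⟩
    rw [rk]; omega
  · rintro ⟨-, -, hl', -⟩
    rw [rk]; omega

/-- type II -/
theorem shadow_mid_II {a b c e m M d : ℕ} (ha : 1 ≤ a) (hab : a ≤ b) (hbc : b ≤ c)
    (h1 : c ≤ e + 1) (h2 : e + 3 ≤ a + b) (hd : d ≤ e + 2 - c)
    (hm : b * (a + c - 2 - e + d) ≤ m + (a + b - 1 - e).choose 2 + d.choose 2)
    (h : m + (a + b - 2 - e) ≤ M + d) :
    Shadow a b c e m M := by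
  intro i j l hb hr
  obtain ⟨hi, hj, hl, hs⟩ := hb
  rw [← Lam_II hab hbc h1 (by omega) d hd] at hm
  have hdel := mid_delta hab hbc h1 (by omega) (a - 1 - i) (by omega)
  by_cases hlt : a - 1 - i < a + c - 2 - e + d
  · have hdel2 := mid_delta hab hbc h1 (by omega) (a + c - 2 - e + d) (by omega)
    have hmono : ∀ q, q ≤ a + c - 2 - e + d →
        Lam a b c (e+1) q ≤ M := fun q hq => by
      have := Lam_mono a b c (e+1) hq
      omega
    exact ⟨fun hb' => (rk_le_Lam hb').trans (hmono _ (by omega)),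
      fun hb' => (rk_le_Lam hb').trans (hmono _ (by omega)),
      fun hb' => (rk_le_Lam hb').trans (hmono _ (by omega))⟩
  · rw [rk] at hr
    refine ⟨?_, ?_, ?_⟩
    · rintro ⟨hi', -, -, -⟩
      have hd' := mid_delta hab hbc h1 (by omega) (a - 1 - (i+1)) (by omega)
      have h3 := Lam_succ (a := a) (b := b) (c := c) (e := e) (q := a - 1 - (i + 1)) (by omega)
      rw [show a - 1 - (i+1) + 1 = a - 1 - i by omega,
        show a - 1 - (a - 1 - (i+1)) = i + 1 by omega, if_pos (by omega), H2_eq] at h3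
      rw [rk]
      omega
    · rintro ⟨-, hj', -, -⟩
      rw [rk]; omega
    · rintro ⟨-, -, hl', -⟩
      rw [rk]; omega

end Vale.Agent.P200
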