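import Vale.Agent.P200.Basic
import Vale.Agent.P200.Lex
import Vale.Agent.P200.FDefs
import Vale.Agent.P200.Defs

namespace Vale.Agent.P200

open MvPolynomial Module

/-- counting the larger exponents, as triples -/
theorem lxi_count {a b c d i j l : ℕ} (h : InBox a b c d i j l) :
    ((Finset.range a ×ˢ Finset.range b ×ˢ Finset.range c).filter
      (fun p => p.1 + p.2.1 + p.2.2 = d ∧ (i < p.1 ∨ (p.1 = i ∧ j < p.2.1)))).card + 1 =
      rk a b c d i j := by
  obtain ⟨hi, hj, hl, hs⟩ := h
  have hdis : ((Finset.range a ×ˢ Finset.range b ×ˢ Finset.range c).filter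
      (fun p => p.1 + p.2.1 + p.2.2 = d ∧ (i < p.1 ∨ (p.1 = i ∧ j < p.2.1)))).card =
      ((Finset.range a ×ˢ Finset.range b ×ˢ Finset.range c).filter
      (fun p => p.1 + p.2.1 + p.2.2 = d ∧ i < p.1)).card +
      ((Finset.range a ×ˢ Finset.range b ×ˢ Finset.range c).filter
      (fun p => p.1 + p.2.1 + p.2.2 = d ∧ (p.1 = i ∧ j < p.2.1))).card := by
    rw [← Finset.card_union_of_disjoint]
    · congr 1
      ext p
      simp only [Finset.mem_filter, Finset.mem_union]
      tauto
    · rw [Finset.disjoint_left]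
      intro p hp hp'
      simp only [Finset.mem_filter] at hp hp'
      omega
  have h1 : ((Finset.range a ×ˢ Finset.range b ×ˢ Finset.range c).filter
      (fun p => p.1 + p.2.1 + p.2.2 = d ∧ i < p.1)).card = Lam a b c d (a - 1 - i) := by
    rw [Finset.card_filter, Finset.sum_product, Lam, Finset.sum_filter]
    refine Finset.sum_congr rfl fun p hp => ?_
    rw [Finset.mem_range] at hp
    split_ifs with hc
    · rw [H2, Finset.card_filter]
      refine Finset.sum_congr rfl fun q _ => if_congr ?_ rfl rfl
      show p + q.1 + q.2 = d ∧ i < p ↔ q.1 + q.2 = d - p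
      omega
    · refine Finset.sum_eq_zero fun q _ => if_neg ?_
      simp only
      omega
  have h2 : ((Finset.range a ×ˢ Finset.range b ×ˢ Finset.range c).filter
      (fun p => p.1 + p.2.1 + p.2.2 = d ∧ (p.1 = i ∧ j < p.2.1))).card =
      min (b - 1) (d - i) - j := by
    rw [← Nat.card_Ioc]
    refine Finset.card_nbij' (fun p => p.2.1) (fun j' => (i, j', d - i - j')) ?_ ?_ ?_ ?_
    · rintro ⟨p, q, r⟩ h
      simp only [Finset.coe_filter, Finset.mem_product, Finset.mem_range, Set.mem_ofPred_eq,
        Finset.coe_Ioc, Set.mem_Ioc] at h ⊢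
      omega
    · intro q h
      simp only [Finset.coe_filter, Finset.mem_product, Finset.mem_range, Set.mem_ofPred_eq,
        Finset.coe_Ioc, Set.mem_Ioc] at h ⊢
      refine ⟨⟨hi, ?_, ?_⟩, ?_, trivial, ?_⟩ <;> omega
    · rintro ⟨p, q, r⟩ h
      simp only [Finset.coe_filter, Finset.mem_product, Finset.mem_range, Set.mem_ofPred_eq] at h
      simp only [Prod.mk.injEq, true_and]
      omega
    · intro q _
      rfl
  rw [hdis, h1, h2, rk]
  omega

/-- the rank in lex order is one plus the number of larger monomials -/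
theorem rk_eq_ncard (a : Fin 3 → ℕ) (d : ℕ)
    (e : Fin 3 →₀ ℕ) (he : e ∈ outside (le_refl 3) a d) :
    {e' | e' ∈ outside (le_refl 3) a d ∧ lexGT e' e}.ncard + 1 =
      rk (a 0) (a 1) (a 2) d (e 0) (e 1) := by
  obtain ⟨h1, h2⟩ := he
  have h10 : e 0 < a 0 := h1 0
  have h11 : e 1 < a 1 := h1 1
  have h12 : e 2 < a 2 := h1 2
  rw [Fin.sum_univ_three] at h2
  rw [← lxi_count (l := e 2) ⟨h10, h11, h12, h2⟩, ← Set.ncard_coe_finset]
  congr 1
  let φ : (Fin 3 →₀ ℕ) → ℕ × ℕ × ℕ := fun e' => (e' 0, e' 1, e' 2)
  have hφ : Function.Injective φ := by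
    intro u v huv
    simp only [φ, Prod.mk.injEq] at huv
    ext t
    fin_cases t
    · exact huv.1
    · exact huv.2.1
    · exact huv.2.2
  rw [← Set.ncard_image_of_injective _ hφ]
  congr 1
  ext ⟨p, q, r⟩
  simp only [Set.mem_image, Set.mem_ofPred_eq, Finset.coe_filter, Finset.mem_product,
    Finset.mem_range]
  constructor
  · rintro ⟨e', ⟨⟨h3, h4⟩, t, ht, ht'⟩, heq⟩
    have h30 : e' 0 < a 0 := h3 0
    have h31 : e' 1 < a 1 := h3 1
    have h32 : e' 2 < a 2 := h3 2
    rw [Fin.sum_univ_three] at h4
    simp only [φ, Prod.mk.injEq] at heq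
    obtain ⟨rfl, rfl, rfl⟩ := heq
    refine ⟨⟨h30, h31, h32⟩, h4, ?_⟩
    fin_cases t
    · left; exact ht
    · right
      exact ⟨ht' 0 (by decide), ht⟩
    · have e0 := ht' 0 (by decide)
      have e1 := ht' 1 (by decide)
      have : e 2 < e' 2 := ht
      omega
  · rintro ⟨⟨h30, h31, h32⟩, h4, h5⟩
    refine ⟨Finsupp.equivFunOnFinite.symm ![p, q, r], ⟨⟨?_, ?_⟩, ?_⟩, ?_⟩
    · intro t
      fin_cases t
      · exact h30
      · exact h31
      · exact h32
    · rw [Fin.sum_univ_three]; exact h4
    · rcases h5 with h5 | ⟨h5, h6⟩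
      · exact ⟨0, h5, fun t ht => absurd ht (Fin.not_lt_zero t)⟩
      · refine ⟨1, h6, fun t ht => ?_⟩
        have : t = 0 := by omega
        subst this
        exact h5
    · rfl

/-- multiplication by a variable: membership in the ideal of powers -/
theorem lxi_mul_X_mem {K : Type*} [Field K] (a : Fin 3 → ℕ) (i : Fin 3) (e : Fin 3 →₀ ℕ)
    (h : a i ≤ e i) : (monomial e (1:K)) ∈ powerIdeal K (le_refl 3) a := by
  have h1 : (X i : MvPolynomial (Fin 3) K) ^ a i ∈ powerIdeal K (le_refl 3) a :=
    Ideal.subset_span ⟨i, rfl⟩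
  have h2 : (monomial e (1:K)) = monomial (e - Finsupp.single i (a i)) 1 * X i ^ a i := by
    rw [X_pow_eq_monomial, monomial_mul, one_mul, tsub_add_cancel_of_le]
    rw [Finsupp.single_le_iff]; exact h
  rw [h2]
  exact Ideal.mul_mem_left _ _ h1

/-- if the lex segments grow correctly then `J` is an ideal -/
theorem lexPlusPowers_isIdeal {K : Type*} [Field K] (a : Fin 3 → ℕ)
    (I : Ideal (MvPolynomial (Fin 3) K))
    (h : ∀ e, Shadow (a 0) (a 1) (a 2) e (qdim (le_refl 3) a I e) (qdim (le_refl 3) a I (e+1))) :
    ∃ J : Ideal (MvPolynomial (Fin 3) K),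
      J.restrictScalars K = lexPlusPowers (le_refl 3) a I := by
  classical
  -- multiplication by a variable
  have hX : ∀ (t : Fin 3) (d : ℕ) (q : MvPolynomial (Fin 3) K), q ∈ lexPart (le_refl 3) a I d →
      X t * q ∈ lexPart (le_refl 3) a I (d+1) := by
    intro t d q hq
    unfold lexPart at hq
    obtain ⟨q1, hq1, q2, hq2, rfl⟩ := Submodule.mem_sup.mp hq
    rw [mul_add]
    refine Submodule.add_mem _ (Submodule.mem_sup_left ?_) ?_
    · refine ⟨Ideal.mul_mem_left _ _ hq1.1, ?_⟩
      have h1 := (isHomogeneous_X K t).mul ((mem_homogeneousSubmodule d q1).mp hq1.2)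
      rw [add_comm] at h1
      exact (mem_homogeneousSubmodule _ _).mpr h1
    · refine Submodule.span_induction (p := fun q _ => X t * q ∈ lexPart (le_refl 3) a I (d+1))
        ?_ ?_ ?_ ?_ hq2
      · rintro _ ⟨e, ⟨he, hlt⟩, rfl⟩
        show X t * monomial e (1:K) ∈ _
        obtain ⟨e', he'⟩ : ∃ e' : Fin 3 →₀ ℕ, e' = e + Finsupp.single t 1 := ⟨_, rfl⟩
        have hm : X t * monomial e (1:K) = monomial e' (1:K) := by
          rw [X, monomial_mul, one_mul, add_comm, he']
        have hv : ∀ i : Fin 3, e' i = e i + if t = i then 1 else 0 := by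
          intro i
          rw [he', Finsupp.add_apply, Finsupp.single_apply]
        have hdeg : ∑ i : Fin 3, e' i = d + 1 := by
          simp only [hv, Finset.sum_add_distrib, he.2]
          rw [Finset.sum_ite_eq, if_pos (Finset.mem_univ t)]
        rw [hm]
        by_cases hb : a t ≤ e' t
        · refine Submodule.mem_sup_left ⟨lxi_mul_X_mem a t _ hb, ?_⟩
          refine (mem_homogeneousSubmodule _ _).mpr (isHomogeneous_monomial _ ?_)
          rw [Finsupp.degree_eq_sum]; exact hdeg
        · push Not at hb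
          have hout : e' ∈ outside (le_refl 3) a (d+1) := by
            refine ⟨fun i => ?_, hdeg⟩
            show e' i < a i
            by_cases hti : t = i
            · subst hti; exact hb
            · rw [hv, if_neg hti, add_zero]
              exact he.1 i
          refine Submodule.mem_sup_right (Submodule.subset_span ⟨_, ⟨hout, ?_⟩, rfl⟩)
          have hr := rk_eq_ncard a d e he
          have hr' := rk_eq_ncard a (d+1) e' hout
          have hbox : InBox (a 0) (a 1) (a 2) d (e 0) (e 1) (e 2) := by
            refine ⟨he.1 0, he.1 1, he.1 2, ?_⟩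
            have := he.2
            rwa [Fin.sum_univ_three] at this
          have hbox' : InBox (a 0) (a 1) (a 2) (d+1) (e' 0) (e' 1) (e' 2) := by
            refine ⟨hout.1 0, hout.1 1, hout.1 2, ?_⟩
            have := hout.2
            rwa [Fin.sum_univ_three] at this
          obtain ⟨s0, s1, s2⟩ := h d _ _ _ hbox (by omega)
          have key : rk (a 0) (a 1) (a 2) (d+1) (e' 0) (e' 1) ≤ qdim (le_refl 3) a I (d+1) := by
            have v0 := hv 0
            have v1 := hv 1
            have v2 := hv 2
            have ht : t = 0 ∨ t = 1 ∨ t = 2 := by omega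
            rcases ht with rfl | rfl | rfl
            · rw [if_pos rfl] at v0
              rw [if_neg (by decide), add_zero] at v1 v2
              rw [v0, v1, v2] at hbox'
              rw [v0, v1]
              exact s0 hbox'
            · rw [if_pos rfl] at v1
              rw [if_neg (by decide), add_zero] at v0 v2
              rw [v0, v1, v2] at hbox'
              rw [v0, v1]
              exact s1 hbox'
            · rw [if_pos rfl] at v2
              rw [if_neg (by decide), add_zero] at v0 v1
              rw [v0, v1, v2] at hbox'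
              rw [v0, v1]
              exact s2 hbox'
          omega
      · rw [mul_zero]; exact Submodule.zero_mem _
      · intro p q _ _ hp hq
        rw [mul_add]; exact Submodule.add_mem _ hp hq
      · intro r p _ hp
        rw [mul_smul_comm]; exact Submodule.smul_mem _ _ hp
  have hX' : ∀ (t : Fin 3) (q : MvPolynomial (Fin 3) K), q ∈ lexPlusPowers (le_refl 3) a I →
      X t * q ∈ lexPlusPowers (le_refl 3) a I := by
    intro t q hq
    unfold lexPlusPowers at hq
    refine Submodule.iSup_induction (fun d => lexPart (le_refl 3) a I d)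
      (motive := fun q => X t * q ∈ lexPlusPowers (le_refl 3) a I) hq ?_ ?_ ?_
    · intro d q hq
      exact Submodule.mem_iSup_of_mem (d+1) (hX t d q hq)
    · rw [mul_zero]; exact Submodule.zero_mem _
    · intro p q hp hq
      rw [mul_add]; exact Submodule.add_mem _ hp hq
  have hmul : ∀ (p q : MvPolynomial (Fin 3) K), q ∈ lexPlusPowers (le_refl 3) a I →
      p * q ∈ lexPlusPowers (le_refl 3) a I := by
    intro p
    induction p using MvPolynomial.induction_on with
    | C r =>
      intro q hq
      rw [← smul_eq_C_mul]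
      exact Submodule.smul_mem _ _ hq
    | add p1 p2 h1 h2 =>
      intro q hq
      rw [add_mul]
      exact Submodule.add_mem _ (h1 q hq) (h2 q hq)
    | mul_X p t hp =>
      intro q hq
      rw [mul_assoc]
      exact hp _ (hX' t q hq)
  refine ⟨{ carrier := lexPlusPowers (le_refl 3) a I
            add_mem' := fun hp hq => Submodule.add_mem _ hp hq
            zero_mem' := Submodule.zero_mem _
            smul_mem' := fun p q hq => hmul p q hq }, ?_⟩
  ext q
  rfl

/-! ### relation with the growth inequality for lex segments -/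

theorem lxi_card_larger (a : Fin 3 → ℕ) (d : ℕ) (m : Fin 3 → ℕ) (hm : m ∈ boxD a d) :
    ((boxD a d).filter (fun m' => lexLT m m')).card + 1 =
      rk (a 0) (a 1) (a 2) d (m 0) (m 1) := by
  unfold boxD at hm
  rw [Finset.mem_filter, Fintype.mem_piFinset] at hm
  obtain ⟨h1, h2⟩ := hm
  have h10 : m 0 < a 0 := Finset.mem_range.mp (h1 0)
  have h11 : m 1 < a 1 := Finset.mem_range.mp (h1 1)
  have h12 : m 2 < a 2 := Finset.mem_range.mp (h1 2)
  rw [Fin.sum_univ_three] at h2
  rw [← lxi_count (l := m 2) ⟨h10, h11, h12, h2⟩]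
  congr 1
  refine Finset.card_nbij' (fun e' => (e' 0, e' 1, e' 2)) (fun p => ![p.1, p.2.1, p.2.2]) ?_ ?_ ?_ ?_
  · intro e' he'
    simp only [Finset.coe_filter, Set.mem_ofPred_eq, boxD, Finset.mem_filter,
      Fintype.mem_piFinset, Finset.mem_range, Fin.sum_univ_three] at he'
    obtain ⟨⟨h3, h4⟩, t, ht', ht⟩ := he'
    simp only [Finset.coe_filter, Set.mem_ofPred_eq, Finset.mem_product, Finset.mem_range]
    refine ⟨⟨h3 0, h3 1, h3 2⟩, h4, ?_⟩
    fin_cases t
    · left; exact ht
    · right
      exact ⟨(ht' 0 (by decide)).symm, ht⟩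
    · have e0 := ht' 0 (by decide)
      have e1 := ht' 1 (by decide)
      have : m 2 < e' 2 := ht
      omega
  · rintro ⟨p, q, r⟩ hp
    simp only [Finset.coe_filter, Set.mem_ofPred_eq, Finset.mem_product, Finset.mem_range] at hp
    obtain ⟨⟨h30, h31, h32⟩, h4, h5⟩ := hp
    simp only [Finset.coe_filter, Set.mem_ofPred_eq, boxD, Finset.mem_filter,
      Fintype.mem_piFinset, Finset.mem_range, Fin.sum_univ_three]
    refine ⟨⟨?_, h4⟩, ?_⟩
    · intro t
      fin_cases t
      · exact h30
      · exact h31
      · exact h32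
    · rcases h5 with h5 | ⟨h5, h6⟩
      · exact ⟨0, fun t ht => absurd ht (Fin.not_lt_zero t), h5⟩
      · refine ⟨1, fun t ht => ?_, h6⟩
        have : t = 0 := by omega
        subst this
        exact h5.symm
  · intro e' _
    ext t
    fin_cases t <;> rfl
  · intro p _
    rfl

theorem lxi_trichotomy {m m' : Fin 3 → ℕ} (h : m ≠ m') : lexLT m m' ∨ lexLT m' m := by
  by_cases h0 : m 0 = m' 0
  · by_cases h1 : m 1 = m' 1
    · by_cases h2 : m 2 = m' 2
      · exfalso
        apply h
        ext t
        fin_cases t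
        · exact h0
        · exact h1
        · exact h2
      · rcases Nat.lt_or_gt_of_ne h2 with h2 | h2
        · left
          refine ⟨2, fun t ht => ?_, h2⟩
          have : t = 0 ∨ t = 1 := by omega
          rcases this with rfl | rfl
          · exact h0
          · exact h1
        · right
          refine ⟨2, fun t ht => ?_, h2⟩
          have : t = 0 ∨ t = 1 := by omega
          rcases this with rfl | rfl
          · exact h0.symm
          · exact h1.symm
    · rcases Nat.lt_or_gt_of_ne h1 with h1 | h1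
      · left
        refine ⟨1, fun t ht => ?_, h1⟩
        have : t = 0 := by omega
        subst this; exact h0
      · right
        refine ⟨1, fun t ht => ?_, h1⟩
        have : t = 0 := by omega
        subst this; exact h0.symm
  · rcases Nat.lt_or_gt_of_ne h0 with h0 | h0
    · left; exact ⟨0, fun t ht => absurd ht (Fin.not_lt_zero t), h0⟩
    · right; exact ⟨0, fun t ht => absurd ht (Fin.not_lt_zero t), h0⟩

theorem lxi_trans {m m' m'' : Fin 3 → ℕ} (h : lexLT m m') (h' : lexLT m' m'') : lexLT m m'' := by
  obtain ⟨i, hi, hi'⟩ := h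
  obtain ⟨j, hj, hj'⟩ := h'
  rcases lt_trichotomy i j with hij | hij | hij
  · exact ⟨i, fun k hk => (hi k hk).trans (hj k (hk.trans hij)), by rw [← hj i hij]; exact hi'⟩
  · subst hij
    exact ⟨i, fun k hk => (hi k hk).trans (hj k hk), hi'.trans hj'⟩
  · exact ⟨j, fun k hk => (hi k (hk.trans hij)).trans (hj k hk), by rw [hi j hij]; exact hj'⟩

theorem lxi_irrefl {m : Fin 3 → ℕ} : ¬ lexLT m m := by
  rintro ⟨i, -, hi⟩
  exact lt_irrefl _ hi

/-- the lex segment has at most `q` elements -/
theorem lxi_lexSeg_card_le (a : Fin 3 → ℕ) (d q : ℕ) : (lexSeg a d q).card ≤ q := by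
  classical
  by_contra hcon
  push Not at hcon
  have hne : (lexSeg a d q).Nonempty := Finset.card_pos.mp (by omega)
  -- an element with the largest number of greater elements is smallest
  obtain ⟨y, hy, hmax⟩ := Finset.exists_max_image (lexSeg a d q)
    (fun m => ((boxD a d).filter fun m' => lexLT m m').card) hne
  have hy' := Finset.mem_filter.mp hy
  have hsub : (lexSeg a d q).erase y ⊆ (boxD a d).filter fun m' => lexLT y m' := by
    intro z hz
    obtain ⟨hzy, hz⟩ := Finset.mem_erase.mp hz
    have hz' := Finset.mem_filter.mp hz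
    refine Finset.mem_filter.mpr ⟨hz'.1, ?_⟩
    rcases lxi_trichotomy hzy with h | h
    · exfalso
      have h1 := hmax z hz
      have h2 : ((boxD a d).filter fun m' => lexLT y m') ⊂ ((boxD a d).filter fun m' => lexLT z m') := by
        refine Finset.ssubset_iff_of_subset ?_ |>.mpr ⟨y, ?_, ?_⟩
        · intro w hw
          rw [Finset.mem_filter] at hw ⊢
          exact ⟨hw.1, lxi_trans h hw.2⟩
        · exact Finset.mem_filter.mpr ⟨hy'.1, h⟩
        · rw [Finset.mem_filter]
          exact fun h => lxi_irrefl h.2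
      have := Finset.card_lt_card h2
      omega
    · exact h
  have h1 := Finset.card_le_card hsub
  rw [Finset.card_erase_of_mem hy] at h1
  have h2 := hy'.2
  omega

/-- the numerical shadow condition gives the growth inequality for lex segments -/
theorem up_le_of_shadow (a : Fin 3 → ℕ) (d m M : ℕ) (h : Shadow (a 0) (a 1) (a 2) d m M) :
    up a d m ≤ M := by
  classical
  refine (Finset.card_le_card ?_).trans (lxi_lexSeg_card_le a (d+1) M)
  intro y hy
  unfold upShadow at hy
  rw [Finset.mem_filter, Finset.mem_biUnion] at hy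
  obtain ⟨⟨e, he, hey⟩, hyb⟩ := hy
  obtain ⟨t, -, rfl⟩ := Finset.mem_image.mp hey
  have he' := Finset.mem_filter.mp he
  have hr := lxi_card_larger a d e he'.1
  have hb := he'.1
  unfold boxD at hb
  rw [Finset.mem_filter, Fintype.mem_piFinset, Fin.sum_univ_three] at hb
  obtain ⟨hb1, hb2⟩ := hb
  have hbox : InBox (a 0) (a 1) (a 2) d (e 0) (e 1) (e 2) :=
    ⟨Finset.mem_range.mp (hb1 0), Finset.mem_range.mp (hb1 1), Finset.mem_range.mp (hb1 2), hb2⟩
  have hlt := he'.2
  obtain ⟨s0, s1, s2⟩ := h _ _ _ hbox (by omega)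
  have hsum : ∑ i, Function.update e t (e t + 1) i = d + 1 := by
    rw [Fin.sum_univ_three]
    fin_cases t
    · show (e 0 + 1) + e 1 + e 2 = d + 1
      omega
    · show e 0 + (e 1 + 1) + e 2 = d + 1
      omega
    · show e 0 + e 1 + (e 2 + 1) = d + 1
      omega
  have hyB : Function.update e t (e t + 1) ∈ boxD a (d+1) := by
    unfold boxD
    rw [Finset.mem_filter, Fintype.mem_piFinset]
    exact ⟨fun i => Finset.mem_range.mpr (hyb i), hsum⟩
  have hr' := lxi_card_larger a (d+1) _ hyB
  refine Finset.mem_filter.mpr ⟨hyB, ?_⟩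
  rw [Fin.sum_univ_three] at hsum
  have hbox' : InBox (a 0) (a 1) (a 2) (d+1) (Function.update e t (e t + 1) 0)
      (Function.update e t (e t + 1) 1) (Function.update e t (e t + 1) 2) :=
    ⟨hyb 0, hyb 1, hyb 2, hsum⟩
  have key : rk (a 0) (a 1) (a 2) (d+1) (Function.update e t (e t + 1) 0)
      (Function.update e t (e t + 1) 1) ≤ M := by
    fin_cases t
    · exact s0 hbox'
    · exact s1 hbox'
    · exact s2 hbox'
  omega

end Vale.Agent.P200
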