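import Vale.Agent.P200.GrowthPoly
import Vale.Agent.P200.BaseChange
import Vale.Agent.P200.LexIdeal

namespace Vale.Agent.P200

open MvPolynomial Module

theorem regSeq3_of_isRegularSeq {K : Type*} [Field K] (a : Fin 3 → ℕ)
    (f : Fin 3 → MvPolynomial (Fin 3) K) (hf : ∀ i, (f i).IsHomogeneous (a i))
    (hreg : IsRegularSeq f) : RegSeq3 (a 0) (a 1) (a 2) (f 0) (f 1) (f 2) where
  hf := hf 0
  hg := hf 1
  hh := hf 2
  nf := by
    intro h0
    have h1 := hreg 0 1 (by rw [h0, zero_mul]; exact Ideal.zero_mem _)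
    have h2 : (f '' {j : Fin 3 | j < 0}) = ∅ := by
      rw [Set.image_eq_empty]
      ext j; simp
    rw [h2, Ideal.span_empty, Ideal.mem_bot] at h1
    exact one_ne_zero h1
  rg := by
    intro u v huv
    have h2 : (f '' {j : Fin 3 | j < 1}) = {f 0} := by
      ext p
      simp only [Set.mem_image, Set.mem_ofPred_eq, Set.mem_singleton_iff]
      constructor
      · rintro ⟨j, hj, rfl⟩
        congr 1
        omega
      · rintro rfl
        exact ⟨0, by decide, rfl⟩
    have h1 := hreg 1 u (by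
      rw [h2, huv]
      exact Ideal.mul_mem_right _ _ (Ideal.mem_span_singleton_self _))
    rw [h2, Ideal.mem_span_singleton] at h1
    exact h1
  rh := by
    intro u v w huvw
    have h2 : (f '' {j : Fin 3 | j < 2}) = {f 0, f 1} := by
      ext p
      simp only [Set.mem_image, Set.mem_ofPred_eq, Set.mem_insert_iff, Set.mem_singleton_iff]
      constructor
      · rintro ⟨j, hj, rfl⟩
        have : j = 0 ∨ j = 1 := by omega
        rcases this with rfl | rfl
        · exact Or.inl rfl
        · exact Or.inr rfl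
      · rintro (rfl | rfl)
        · exact ⟨0, by decide, rfl⟩
        · exact ⟨1, by decide, rfl⟩
    have h1 := hreg 2 u (by
      rw [h2, huvw, Ideal.mem_span_pair]
      exact ⟨v, w, by ring⟩)
    rw [h2, Ideal.mem_span_pair] at h1
    obtain ⟨p, q, h⟩ := h1
    exact ⟨p, q, by rw [← h]; ring⟩

theorem powerIdeal_eq_I3 {K : Type*} [Field K] (a : Fin 3 → ℕ) :
    powerIdeal K (le_refl 3) a = I3 (X 0 ^ a 0 : S3 K) (X 1 ^ a 1) (X 2 ^ a 2) := by
  rw [powerIdeal, I3]
  congr 1
  ext p
  simp only [Set.mem_range, Set.mem_insert_iff, Set.mem_singleton_iff]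
  constructor
  · rintro ⟨i, rfl⟩
    fin_cases i
    · exact Or.inl rfl
    · exact Or.inr (Or.inl rfl)
    · exact Or.inr (Or.inr rfl)
  · rintro (rfl | rfl | rfl)
    · exact ⟨0, rfl⟩
    · exact ⟨1, rfl⟩
    · exact ⟨2, rfl⟩

/-- **The Eisenbud–Green–Harris conjecture in three variables.** -/
theorem egh3 (K : Type*) [Field K] (a : Fin 3 → ℕ) (h0 : 1 ≤ a 0) (h01 : a 0 ≤ a 1)
    (h12 : a 1 ≤ a 2) (hchar : ∀ n : ℕ, 0 < n → n + 3 ≤ a 0 + a 1 → (n : K) ≠ 0)
    (f : Fin 3 → MvPolynomial (Fin 3) K) (hf : ∀ i, (f i).IsHomogeneous (a i))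
    (hreg : IsRegularSeq f) (I : Ideal (MvPolynomial (Fin 3) K)) (hfI : ∀ i, f i ∈ I) :
    ∃ J : Ideal (MvPolynomial (Fin 3) K),
      J.restrictScalars K = lexPlusPowers (le_refl 3) a I := by
  refine lexPlusPowers_isIdeal a I fun e => ?_
  have H := regSeq3_of_isRegularSeq a f hf hreg
  have HX := regSeq3_X K a
  have hP := powerIdeal_eq_I3 (K := K) a
  have hq : ∀ d, qdim (le_refl 3) a I d = finrank K (degPart I d) -
      finrank K (degPart (I3 (f 0) (f 1) (f 2)) d) := by
    intro d
    have h1 := finrank_degPart_I3 H d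
    have h2 := finrank_degPart_I3 HX d
    rw [qdim, hP]
    omega
  rw [hq, hq]
  let L := AlgebraicClosure K
  have HL := H.map (L := L)
  have hle : I3 (f 0) (f 1) (f 2) ≤ I := by
    rw [I3, Ideal.span_le]
    rintro p (rfl | rfl | rfl)
    · exact hfI 0
    · exact hfI 1
    · exact hfI 2
  have hmapI3 : I3 (MvPolynomial.map (algebraMap K L) (f 0)) (MvPolynomial.map (algebraMap K L) (f 1))
      (MvPolynomial.map (algebraMap K L) (f 2)) =
      (I3 (f 0) (f 1) (f 2)).map (MvPolynomial.map (algebraMap K L)) := by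
    rw [I3, I3, Ideal.map_span]
    congr 1
    simp only [Set.image_insert_eq, Set.image_singleton]
  have hcharL : ∀ n : ℕ, 0 < n → n + 3 ≤ a 0 + a 1 → (n : L) ≠ 0 := by
    intro n hn hn' h
    apply hchar n hn hn'
    have : algebraMap K L (n : K) = algebraMap K L 0 := by rw [map_natCast, h, map_zero]
    exact (algebraMap K L).injective this
  have key := growth_poly_closed (K := L) h0 h01 h12 hcharL HL
    (I.map (MvPolynomial.map (algebraMap K L))) (by rw [hmapI3]; exact Ideal.map_mono hle) e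
  rw [hmapI3] at key
  simp only [finrank_degPart_map] at key
  exact key

end Vale.Agent.P200
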