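import Mathlib

namespace Vale.Agent.P200

open MvPolynomial Module

/-- polynomial ring in three variables -/
abbrev S3 (K : Type*) [Field K] := MvPolynomial (Fin 3) K

section alg
variable {K A : Type*} [Field K] [CommRing A] [Algebra K A]

/-- `S_1 V` : the span of all `x i * v`. -/
def sh (x : Fin 3 → A) (V : Submodule K A) : Submodule K A :=
  ⨆ i, V.map (LinearMap.mulLeft K (x i))

/-- the linear form with coefficient vector `t` -/
def lin (x : Fin 3 → A) (t : Fin 3 → K) : A := ∑ i, t i • x i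

/-- orthogonal of `W` in a graded piece `G` -/
def perp (G W : Submodule K A) : Submodule K A where
  carrier := {w | w ∈ G ∧ ∀ u ∈ W, w * u = 0}
  add_mem' := by
    rintro p q ⟨hp, hp'⟩ ⟨hq, hq'⟩
    exact ⟨G.add_mem hp hq, fun u hu => by rw [add_mul, hp' u hu, hq' u hu, add_zero]⟩
  zero_mem' := ⟨G.zero_mem, fun u _ => zero_mul u⟩
  smul_mem' := by
    rintro k p ⟨hp, hp'⟩
    exact ⟨G.smul_mem k hp, fun u hu => by rw [smul_mul_assoc, hp' u hu, smul_zero]⟩

end alg

/-- number of monomials of degree `j` in the box `a × b × c` -/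
def box (a b c j : ℕ) : ℕ :=
  ((Finset.range a ×ˢ Finset.range b ×ˢ Finset.range c).filter
    (fun p => p.1 + p.2.1 + p.2.2 = j)).card

/-- Hilbert function of the two-variable complete intersection of type `(b,c)` -/
def H2 (b c t : ℕ) : ℕ :=
  ((Finset.range b ×ˢ Finset.range c).filter (fun p => p.1 + p.2 = t)).card

/-- number of monomials in the first `q` layers (x-exponents `a-1, …, a-q`) in degree `e` -/
def Lam (a b c e q : ℕ) : ℕ :=
  ∑ i ∈ (Finset.range a).filter (fun i => a ≤ i + q ∧ i ≤ e), H2 b c (e - i)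

/-- rank (starting at 1) in lex order of a monomial `x^i y^j z^l`, `i+j+l=e`, in the box -/
def rk (a b c e i j : ℕ) : ℕ :=
  Lam a b c e (a - 1 - i) + (min (b - 1) (e - i) - j + 1)

/-- `(i,j,l)` is a monomial of degree `e` in the box -/
def InBox (a b c e i j l : ℕ) : Prop := i < a ∧ j < b ∧ l < c ∧ i + j + l = e

/-- the shadow of the first `m` monomials in degree `e` is contained in the first `M`
monomials of degree `e+1`. -/
def Shadow (a b c e m M : ℕ) : Prop :=
  ∀ i j l, InBox a b c e i j l → rk a b c e i j ≤ m →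
    (InBox a b c (e+1) (i+1) j l → rk a b c (e+1) (i+1) j ≤ M) ∧
    (InBox a b c (e+1) i (j+1) l → rk a b c (e+1) i (j+1) ≤ M) ∧
    (InBox a b c (e+1) i j (l+1) → rk a b c (e+1) i j ≤ M)

/-- The properties of the graded complete intersection algebra of type `(a,b,c)` that are used
in the induction. -/
structure IsCI0 {K A : Type*} [Field K] [CommRing A] [Algebra K A] (x : Fin 3 → A)
    (gr : ℕ → Submodule K A) (a b c : ℕ) : Prop where
  fin : ∀ j, Module.Finite K (gr j)
  gen : ∀ j, gr (j+1) = sh x (gr j)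
  gr0 : gr 0 = Submodule.span K {1}
  dim : ∀ j, finrank K (gr j) = box a b c j
  soc : ∀ j, j + 3 < a + b + c → ∀ u ∈ gr j, (∀ i, x i * u = 0) → u = 0
  pts : ∀ T : Finset (Fin 3 → K), (∀ p ∈ T, p ≠ 0) →
    ∃ G : S3 K, G.IsHomogeneous c ∧ aeval x G = 0 ∧ ∀ p ∈ T, eval p G ≠ 0
  ann : ∀ (k : ℕ) (F : S3 K), F.IsHomogeneous k → F ≠ 0 → ∀ e, e + k + 3 ≤ a + b →
    ∀ V : Submodule K A, V ≤ gr e → (∀ v ∈ V, aeval x F * v = 0) →
      finrank K V ≤ k * (e + 2 - a) + k.choose 2
  nzd : ∃ t : Fin 3 → K, ∀ j, j + 1 < c → ∀ u ∈ gr j, lin x t * u = 0 → u = 0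

/-- Green type bound (needs characteristic zero or large) -/
def Green {K A : Type*} [Field K] [CommRing A] [Algebra K A] (x : Fin 3 → A)
    (gr : ℕ → Submodule K A) (a b c : ℕ) : Prop :=
  ∀ j, c ≤ j → j + 2 ≤ a + b → ∀ X : Submodule K A, X ≤ gr j →
    (∀ t : Fin 3 → K, ∃ v ∈ X, v ≠ 0 ∧ lin x t * v = 0) → b * (a + c - 1 - j) ≤ finrank K X

/-- homogeneous regular sequence of three forms of degrees `a,b,c` in three variables -/
structure RegSeq3 {K : Type*} [Field K] (a b c : ℕ) (f g h : S3 K) : Prop where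
  hf : f.IsHomogeneous a
  hg : g.IsHomogeneous b
  hh : h.IsHomogeneous c
  nf : f ≠ 0
  rg : ∀ u v, g * u = f * v → ∃ w, u = f * w
  rh : ∀ u v w, h * u = f * v + g * w → ∃ v' w', u = f * v' + g * w'

end Vale.Agent.P200
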