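import Vale.Agent.P200.Basic

namespace Vale.Agent.P200

open MvPolynomial Module

/-- `K[X 0, X 1] → K[X 0, X 1, X 2]` -/
noncomputable abbrev iP {K : Type*} [Field K] (q : MvPolynomial (Fin 2) K) : S3 K :=
  rename (Fin.castSucc : Fin 2 → Fin 3) q

section KLTorsAux

variable {K M : Type*} [Field K] [AddCommGroup M] [Module K M] [Module (S3 K) M]
    [IsScalarTower K (S3 K) M] (gr : ℕ → Submodule K M)

theorem klf_pow_mem
    (hX : ∀ j i, ∀ u ∈ gr j, (X i : S3 K) • u ∈ gr (j+1)) (i : Fin 3) (n j : ℕ) (u : M)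
    (hu : u ∈ gr j) : ((X i : S3 K)^n) • u ∈ gr (j+n) := by
  induction n with
  | zero => simpa using hu
  | succ n ih =>
    rw [pow_succ', mul_smul]
    exact hX _ i _ ih

theorem klf_monomial_mem
    (hX : ∀ j i, ∀ u ∈ gr j, (X i : S3 K) • u ∈ gr (j+1)) (m : Fin 3 →₀ ℕ) (c : K) (j : ℕ)
    (u : M) (hu : u ∈ gr j) : (monomial m c : S3 K) • u ∈ gr (j + m.degree) := by
  have h1 : (monomial m c : S3 K) = c • (X 2 ^ (m 2) * (X 1 ^ (m 1) * X 0 ^ (m 0))) := by
    rw [monomial_eq, Finsupp.prod_fintype _ _ (by simp), Fin.prod_univ_three, smul_eq_C_mul]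
    ring
  have h2 : j + m.degree = j + m 0 + m 1 + m 2 := by
    rw [Finsupp.degree_eq_sum, Fin.sum_univ_three]; omega
  rw [h1, h2, smul_assoc, mul_smul, mul_smul]
  refine Submodule.smul_mem _ _ ?_
  exact klf_pow_mem gr hX 2 _ _ _ (klf_pow_mem gr hX 1 _ _ _ (klf_pow_mem gr hX 0 _ _ _ hu))

theorem klf_hom_mem
    (hX : ∀ j i, ∀ u ∈ gr j, (X i : S3 K) • u ∈ gr (j+1)) (F : S3 K) (d : ℕ)
    (hF : F.IsHomogeneous d) (j : ℕ) (u : M) (hu : u ∈ gr j) : F • u ∈ gr (j + d) := by
  rw [F.as_sum, Finset.sum_smul]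
  refine Submodule.sum_mem _ fun m hm => ?_
  have h1 := klf_monomial_mem gr hX m (coeff m F) j u hu
  have hd : m.degree = d := by
    have := hF (mem_support_iff.mp hm)
    rwa [Finsupp.degree_eq_weight_one] 
  rwa [hd] at h1

/-- torsion over `K[X 0, X 1]` -/
def klfT (K M : Type*) [Field K] [AddCommGroup M] [Module (S3 K) M] :
    Submodule (S3 K) M where
  carrier := {u | ∃ p : MvPolynomial (Fin 2) K, p ≠ 0 ∧ iP p • u = 0}
  add_mem' := by
    rintro u v ⟨p, hp, hpu⟩ ⟨q, hq, hqv⟩
    refine ⟨p * q, mul_ne_zero hp hq, ?_⟩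
    have h1 : iP (p * q) = iP p * iP q := map_mul _ _ _
    rw [h1, smul_add, mul_smul, mul_smul, hqv, smul_zero, add_zero, smul_comm, hpu, smul_zero]
  zero_mem' := ⟨1, one_ne_zero, smul_zero _⟩
  smul_mem' := by
    rintro c u ⟨p, hp, hpu⟩
    exact ⟨p, hp, by rw [smul_comm, hpu, smul_zero]⟩

theorem klf_mem_T (u : M) :
    u ∈ klfT K M ↔ ∃ p : MvPolynomial (Fin 2) K, p ≠ 0 ∧ iP p • u = 0 := Iff.rfl

theorem klf_iP_hom (p : MvPolynomial (Fin 2) K) (d : ℕ) (hp : p.IsHomogeneous d) :
    (iP p).IsHomogeneous d := hp.rename_isHomogeneous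

theorem klf_top_ne_zero {σ : Type*} (p : MvPolynomial σ K) (hp : p ≠ 0) :
    homogeneousComponent p.totalDegree p ≠ 0 := by
  have hne : p.support.Nonempty := by
    rw [Finset.nonempty_iff_ne_empty]
    exact fun h => hp (support_eq_empty.mp h)
  obtain ⟨m, hm, hm2⟩ := Finset.exists_mem_eq_sup p.support hne (fun s => s.degree)
  intro h0
  have h1 : coeff m (homogeneousComponent p.totalDegree p) = 0 := by rw [h0, coeff_zero]
  rw [coeff_homogeneousComponent, if_pos] at h1
  · exact mem_support_iff.mp hm h1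
  · exact hm2.symm

/-- The top component of a polynomial killing a homogeneous element kills it. -/
theorem klf_top_kills (hind : iSupIndep gr)
    (hX : ∀ j i, ∀ u ∈ gr j, (X i : S3 K) • u ∈ gr (j+1)) (n : ℕ) (u : M)
    (hu : u ∈ gr n) (p : MvPolynomial (Fin 2) K) (hpu : iP p • u = 0) :
    iP (homogeneousComponent p.totalDegree p) • u = 0 := by
  set D := p.totalDegree with hD
  have hz1 : iP (homogeneousComponent D p) • u ∈ gr (n + D) :=
    klf_hom_mem gr hX _ D (klf_iP_hom _ D (homogeneousComponent_isHomogeneous D p)) n _ hu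
  have hpsum : iP p = ∑ e ∈ Finset.range D, iP (homogeneousComponent e p)
      + iP (homogeneousComponent D p) := by
    conv_lhs => rw [← sum_homogeneousComponent p, ← hD]
    rw [Finset.sum_range_succ]
    simp only [iP, map_add, map_sum]
  have hexp : iP (homogeneousComponent D p) • u
      = -(∑ e ∈ Finset.range D, iP (homogeneousComponent e p) • u) := by
    rw [hpsum, add_smul, Finset.sum_smul] at hpu
    exact eq_neg_of_add_eq_zero_right hpu
  have hz2 : iP (homogeneousComponent D p) • u ∈ ⨆ i, ⨆ (_ : i ≠ n + D), gr i := by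
    rw [hexp]
    refine Submodule.neg_mem _ (Submodule.sum_mem _ fun e he => ?_)
    rw [Finset.mem_range] at he
    have h1 := klf_hom_mem gr hX _ e
      (klf_iP_hom _ e (homogeneousComponent_isHomogeneous e p)) n _ hu
    exact Submodule.mem_iSup_of_mem (n + e) (Submodule.mem_iSup_of_mem (by omega) h1)
  exact Submodule.disjoint_def.mp (hind (n + D)) _ hz1 hz2

theorem klf_T_graded (hind : iSupIndep gr)
    (hX : ∀ j i, ∀ u ∈ gr j, (X i : S3 K) • u ∈ gr (j+1)) (n : ℕ) (w : ℕ → M)
    (hw : ∀ j, w j ∈ gr j) (hT : ∑ j ∈ Finset.range n, w j ∈ klfT K M) :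
    ∀ j < n, w j ∈ klfT K M := by
  induction n with
  | zero => intro j hj; omega
  | succ n ih =>
    have hwn : w n ∈ klfT K M := by
      obtain ⟨p, hp, hpT⟩ := hT
      set D := p.totalDegree with hD
      have hpD : homogeneousComponent D p ≠ 0 := klf_top_ne_zero p hp
      refine ⟨homogeneousComponent D p, hpD, ?_⟩
      have hz1 : iP (homogeneousComponent D p) • w n ∈ gr (n + D) :=
        klf_hom_mem gr hX _ D (klf_iP_hom _ D (homogeneousComponent_isHomogeneous D p)) n _ (hw n)
      have hlow : ∀ e j, e + j < n + D → ∀ u ∈ gr j,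
          iP (homogeneousComponent e p) • u ∈ ⨆ i, ⨆ (_ : i ≠ n + D), gr i := by
        intro e j hej u hu
        have h1 := klf_hom_mem gr hX _ e
          (klf_iP_hom _ e (homogeneousComponent_isHomogeneous e p)) j _ hu
        exact Submodule.mem_iSup_of_mem (j + e) (Submodule.mem_iSup_of_mem (by omega) h1)
      have hpsum : iP p = ∑ e ∈ Finset.range D, iP (homogeneousComponent e p)
          + iP (homogeneousComponent D p) := by
        conv_lhs => rw [← sum_homogeneousComponent p, ← hD]
        rw [Finset.sum_range_succ]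
        simp only [iP, map_add, map_sum]
      have hexp : iP (homogeneousComponent D p) • w n
          = -(∑ j ∈ Finset.range n, iP p • w j
            + ∑ e ∈ Finset.range D, iP (homogeneousComponent e p) • w n) := by
        rw [Finset.sum_range_succ, smul_add, Finset.smul_sum] at hpT
        have h2 : iP p • w n = ∑ e ∈ Finset.range D, iP (homogeneousComponent e p) • w n
            + iP (homogeneousComponent D p) • w n := by
          rw [hpsum, add_smul, Finset.sum_smul]
        rw [h2, ← add_assoc] at hpT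
        exact eq_neg_of_add_eq_zero_right hpT
      have hz2 : iP (homogeneousComponent D p) • w n ∈ ⨆ i, ⨆ (_ : i ≠ n + D), gr i := by
        rw [hexp]
        refine Submodule.neg_mem _ (Submodule.add_mem _ ?_ ?_)
        · refine Submodule.sum_mem _ fun j hj => ?_
          rw [Finset.mem_range] at hj
          rw [hpsum, add_smul, Finset.sum_smul]
          refine Submodule.add_mem _ (Submodule.sum_mem _ fun e he => ?_) ?_
          · rw [Finset.mem_range] at he
            exact hlow e j (by omega) _ (hw j)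
          · exact hlow D j (by omega) _ (hw j)
        · refine Submodule.sum_mem _ fun e he => ?_
          rw [Finset.mem_range] at he
          exact hlow e n (by omega) _ (hw n)
      exact Submodule.disjoint_def.mp (hind (n + D)) _ hz1 hz2
    have hs : ∑ j ∈ Finset.range n, w j ∈ klfT K M := by
      rw [Finset.sum_range_succ] at hT
      exact (Submodule.add_mem_iff_left _ hwn).mp hT
    intro j hj
    rcases Nat.lt_succ_iff_lt_or_eq.mp hj with h | h
    · exact ih hs j h
    · rw [h]; exact hwn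

theorem klt_finset (s : Finset M)
    (hs : ∀ m ∈ s, ∃ (d : ℕ) (q : MvPolynomial (Fin 2) K),
      q.IsHomogeneous d ∧ q ≠ 0 ∧ iP q • m = 0) :
    ∃ (d : ℕ) (q : MvPolynomial (Fin 2) K), q.IsHomogeneous d ∧ q ≠ 0 ∧
      ∀ m ∈ s, iP q • m = 0 := by
  classical
  induction s using Finset.induction_on with
  | empty => exact ⟨0, 1, isHomogeneous_one _ _, one_ne_zero, by simp⟩
  | insert a s ha ih =>
    obtain ⟨d, q, hq, hq0, hqs⟩ := ih fun m hm => hs m (Finset.mem_insert_of_mem hm)
    obtain ⟨d', q', hq', hq0', hqa⟩ := hs a (Finset.mem_insert_self a s)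
    refine ⟨d + d', q * q', hq.mul hq', mul_ne_zero hq0 hq0', ?_⟩
    intro m hm
    have h1 : iP (q * q') = iP q * iP q' := map_mul _ _ _
    rw [h1]
    rcases Finset.mem_insert.mp hm with rfl | h
    · rw [mul_smul, hqa, smul_zero]
    · rw [mul_comm, mul_smul, hqs m h, smul_zero]

end KLTorsAux

/-- All torsion elements of degree at most `N` are killed by one homogeneous `q`. -/
theorem kl_tors {K M : Type*} [Field K] [AddCommGroup M] [Module K M] [Module (S3 K) M]
    [IsScalarTower K (S3 K) M] (gr : ℕ → Submodule K M) (hfin : ∀ j, Module.Finite K (gr j))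
    (hind : iSupIndep gr)
    (hX : ∀ j i, ∀ u ∈ gr j, (X i : S3 K) • u ∈ gr (j+1)) (N : ℕ) :
    ∃ (d : ℕ) (q : MvPolynomial (Fin 2) K), q.IsHomogeneous d ∧ q ≠ 0 ∧
      ∀ j ≤ N, ∀ u ∈ gr j, (∃ p : MvPolynomial (Fin 2) K, p ≠ 0 ∧ iP p • u = 0) →
        iP q • u = 0 := by
  classical
  let T : ℕ → Submodule K M := fun j => gr j ⊓ (klfT K M).restrictScalars K
  have hTfg : ∀ j, (T j).FG := by
    intro j
    have := hfin j
    have h1 : Module.Finite K (T j) :=
      Submodule.finiteDimensional_of_le (inf_le_left : T j ≤ gr j)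
    exact Module.Finite.iff_fg.mp h1
  choose s hs using hTfg
  obtain ⟨d, q, hq, hq0, hqs⟩ := klt_finset (K := K) ((Finset.range (N+1)).biUnion s) (by
    intro m hm
    obtain ⟨j, -, hmj⟩ := Finset.mem_biUnion.mp hm
    have hmT : m ∈ T j := by rw [← hs j]; exact Submodule.subset_span hmj
    obtain ⟨hm1, p, hp, hpm⟩ := hmT
    exact ⟨_, _, homogeneousComponent_isHomogeneous p.totalDegree p, klf_top_ne_zero p hp,
      klf_top_kills gr hind hX j m hm1 p hpm⟩)
  refine ⟨d, q, hq, hq0, ?_⟩
  intro j hj u hu hup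
  have huT : u ∈ T j := ⟨hu, hup⟩
  have key : ∀ v ∈ Submodule.span K (s j : Set M), iP q • v = 0 := by
    intro v hv
    induction hv using Submodule.span_induction with
    | mem v hv =>
      exact hqs v (Finset.mem_biUnion.mpr ⟨j, Finset.mem_range.mpr (by omega), hv⟩)
    | zero => rw [smul_zero]
    | add v w _ _ hv hw => rw [smul_add, hv, hw, add_zero]
    | smul c v _ hv => rw [smul_comm, hv, smul_zero]
  exact key u (by rw [hs j]; exact huT)

end Vale.Agent.P200
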