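import Vale.Agent.P200.Basic
import Vale.Agent.P200.KLTors

namespace Vale.Agent.P200

open MvPolynomial Module

section act

variable {K M : Type*} [Field K] [AddCommGroup M] [Module K M] [Module (S3 K) M]
    {gr : ℕ → Submodule K M}

theorem X_pow_smul_mem (hX : ∀ j i, ∀ u ∈ gr j, (X i : S3 K) • u ∈ gr (j+1)) (i : Fin 3)
    (n j : ℕ) {u : M} (hu : u ∈ gr j) : ((X i : S3 K) ^ n) • u ∈ gr (j + n) := by
  induction n with
  | zero => simpa using hu
  | succ n ih =>
    rw [pow_succ', mul_smul]
    exact hX _ i _ ih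

theorem hom_smul_mem [IsScalarTower K (S3 K) M]
    (hX : ∀ j i, ∀ u ∈ gr j, (X i : S3 K) • u ∈ gr (j+1)) {F : S3 K} {d : ℕ}
    (hF : F.IsHomogeneous d) {j : ℕ} {u : M} (hu : u ∈ gr j) : F • u ∈ gr (j + d) := by
  rw [F.as_sum, Finset.sum_smul]
  refine Submodule.sum_mem _ fun e he => ?_
  have hd : e 0 + e 1 + e 2 = d := by
    have h1 := hF (mem_support_iff.1 he)
    rw [Finsupp.weight_apply, Finsupp.sum_fintype _ _ (by simp)] at h1
    simpa [Fin.sum_univ_three] using h1
  have h2 : (monomial e (coeff e F) : S3 K) =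
      (coeff e F) • (X 0 ^ e 0 * (X 1 ^ e 1 * X 2 ^ e 2)) := by
    rw [monomial_eq, Finsupp.prod_fintype _ _ (by simp), Fin.prod_univ_three, smul_eq_C_mul,
      mul_assoc]
  rw [h2, smul_assoc, mul_smul, mul_smul]
  refine Submodule.smul_mem _ _ ?_
  have := X_pow_smul_mem hX 0 (e 0) _ (X_pow_smul_mem hX 1 (e 1) _
    (X_pow_smul_mem hX 2 (e 2) j hu))
  rwa [show j + e 2 + e 1 + e 0 = j + d by omega] at this

end act

/-- a homogeneous binary form modulo `X 0 + t X 1` -/
theorem binary_mod {K : Type*} [Field K] (t : K) (d : ℕ) (q : MvPolynomial (Fin 2) K)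
    (hq : q.IsHomogeneous (d+1)) :
    ∃ q' : MvPolynomial (Fin 2) K, q'.IsHomogeneous d ∧
      q = C (eval ![-t, 1] q) * X 1 ^ (d+1) + (X 0 + C t * X 1) * q' := by
  rw [q.as_sum]
  have key : ∀ e ∈ q.support, ∃ q' : MvPolynomial (Fin 2) K, q'.IsHomogeneous d ∧
      monomial e (coeff e q) = C (eval ![-t, 1] (monomial e (coeff e q))) * X 1 ^ (d+1) +
        (X 0 + C t * X 1) * q' := by
    intro e he
    have hd : e 0 + e 1 = d + 1 := by
      have h1 := hq (mem_support_iff.1 he)
      rw [Finsupp.weight_apply, Finsupp.sum_fintype _ _ (by simp)] at h1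
      simpa [Fin.sum_univ_two] using h1
    have h2 : (monomial e (coeff e q) : MvPolynomial (Fin 2) K) =
        C (coeff e q) * (X 0 ^ e 0 * X 1 ^ e 1) := by
      rw [monomial_eq, Finsupp.prod_fintype _ _ (by simp), Fin.prod_univ_two]
    rcases Nat.eq_zero_or_pos (e 0) with h0 | h0
    · refine ⟨0, isHomogeneous_zero _ _ _, ?_⟩
      rw [h2]
      simp only [h0, map_mul, eval_C, map_pow, eval_X]
      simp only [Matrix.cons_val_zero, Matrix.cons_val_one, pow_zero, mul_zero,
        add_zero, one_mul, map_one, one_pow, mul_one]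
      rw [show e 1 = d + 1 by omega]
    · refine ⟨C (coeff e q) * (X 1 ^ e 1 *
        ∑ i ∈ Finset.range (e 0), X 0 ^ i * (-(C t * X 1)) ^ (e 0 - 1 - i)), ?_, ?_⟩
      · have : (0 + (e 1 + (e 0 - 1))) = d := by omega
        rw [← this]
        refine (isHomogeneous_C _ _).mul (IsHomogeneous.mul ?_ ?_)
        · simpa using (isHomogeneous_X K (1 : Fin 2)).pow (e 1)
        · refine IsHomogeneous.sum _ _ _ fun i hi => ?_
          rw [Finset.mem_range] at hi
          have h3 : ((X 0 : MvPolynomial (Fin 2) K) ^ i).IsHomogeneous i := by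
            simpa using (isHomogeneous_X K (0 : Fin 2)).pow i
          have h4 : ((-(C t * X 1) : MvPolynomial (Fin 2) K) ^ (e 0 - 1 - i)).IsHomogeneous
              (e 0 - 1 - i) := by
            have : (-(C t * X 1) : MvPolynomial (Fin 2) K).IsHomogeneous 1 := by
              have := (isHomogeneous_C (Fin 2) t).mul (isHomogeneous_X K (1 : Fin 2))
              rw [zero_add] at this
              exact this.neg
            simpa using this.pow (e 0 - 1 - i)
          have := h3.mul h4
          rwa [show i + (e 0 - 1 - i) = e 0 - 1 by omega] at this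
      · have hg : (X 0 : MvPolynomial (Fin 2) K) ^ e 0 = (-(C t * X 1)) ^ e 0 +
            (X 0 + C t * X 1) *
              ∑ i ∈ Finset.range (e 0), X 0 ^ i * (-(C t * X 1)) ^ (e 0 - 1 - i) := by
          have := (Commute.all (X 0 : MvPolynomial (Fin 2) K) (-(C t * X 1))).mul_geom_sum₂ (e 0)
          rw [sub_neg_eq_add] at this
          rw [this]; ring
        rw [h2]
        simp only [map_mul, eval_C, map_pow, eval_X]
        simp only [Matrix.cons_val_zero, Matrix.cons_val_one, map_one, one_pow, mul_one]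
        rw [hg, ← hd]
        simp only [map_neg, pow_add]
        ring
  choose! q' hq' h using key
  refine ⟨∑ e ∈ q.support, q' e, IsHomogeneous.sum _ _ _ hq', ?_⟩
  rw [Finset.mul_sum, map_sum, map_sum, Finset.sum_mul, ← Finset.sum_add_distrib]
  exact Finset.sum_congr rfl h

/-- a nonzero homogeneous binary form has finitely many zeros `(-t, 1)` -/
theorem binary_zeros {K : Type*} [Field K] (d : ℕ) (q : MvPolynomial (Fin 2) K)
    (hq : q.IsHomogeneous d) (hq0 : q ≠ 0) : {t : K | eval ![-t, 1] q = 0}.Finite := by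
  let φ : MvPolynomial (Fin 2) K →ₐ[K] Polynomial K := aeval ![-Polynomial.X, 1]
  have hφ : ∀ t, (φ q).eval t = eval ![-t, 1] q := by
    intro t
    have : (Polynomial.evalRingHom t).comp (φ : MvPolynomial (Fin 2) K →+* Polynomial K) =
        (eval ![-t, 1]) := by
      refine MvPolynomial.ringHom_ext (fun r => ?_) (fun i => ?_)
      · simp [φ]
      · fin_cases i <;> simp [φ]
    exact congrArg (fun f => f q) this
  have hne : φ q ≠ 0 := by
    obtain ⟨e, he⟩ := ne_zero_iff.1 hq0
    have hd : ∀ e ∈ q.support, e 0 + e 1 = d := by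
      intro e he
      have h1 := hq (mem_support_iff.1 he)
      rw [Finsupp.weight_apply, Finsupp.sum_fintype _ _ (by simp)] at h1
      simpa [Fin.sum_univ_two] using h1
    intro h0
    apply he
    have h1 : (φ q).coeff (e 0) = (-1) ^ (e 0) * coeff e q := by
      have : φ q = ∑ e' ∈ q.support, Polynomial.C (coeff e' q * (-1) ^ e' 0) *
          Polynomial.X ^ (e' 0) := by
        rw [show φ q = aeval ![-Polynomial.X, 1] q from rfl, aeval_def, eval₂_eq']
        refine Finset.sum_congr rfl fun e' _ => ?_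
        rw [Fin.prod_univ_two]
        simp only [Matrix.cons_val_zero, Matrix.cons_val_one, one_pow, mul_one]
        rw [Polynomial.algebraMap_eq, neg_pow]
        simp only [map_mul, map_pow, map_neg, map_one]
        ring
      rw [this, Polynomial.finsetSum_coeff]
      rw [Finset.sum_eq_single e]
      · rw [Polynomial.coeff_C_mul_X_pow, if_pos rfl, mul_comm]
      · intro e' he' hne'
        rw [Polynomial.coeff_C_mul_X_pow, if_neg]
        intro h
        apply hne'
        have h1 := hd e' he'
        have h2 := hd e (mem_support_iff.2 he)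
        ext i
        fin_cases i
        · exact h.symm
        · show e' 1 = e 1
          omega
      · intro h
        rw [notMem_support_iff.1 h]
        simp
    rw [h0, Polynomial.coeff_zero] at h1
    have := h1.symm
    rcases mul_eq_zero.1 this with h | h
    · exact absurd h (pow_ne_zero _ (by simp))
    · exact h
  classical
  refine ((φ q).roots.toFinset.finite_toSet).subset fun t ht => ?_
  simp only [Set.mem_ofPred_eq] at ht
  simp only [Finset.mem_coe, Multiset.mem_toFinset]
  rw [Polynomial.mem_roots hne, Polynomial.IsRoot, hφ, ht]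

/-- injectivity of a member of a pencil is an open condition -/
theorem pencil_inj_finite {K U W : Type*} [Field K] [AddCommGroup U] [Module K U]
    [AddCommGroup W] [Module K W] [Module.Finite K U] (A B : U →ₗ[K] W)
    (hA : ∀ u, A u = 0 → u = 0) : {t : K | ∃ u, u ≠ 0 ∧ A u + t • B u = 0}.Finite := by
  obtain ⟨P, hP⟩ := A.exists_leftInverse_of_injective (LinearMap.ker_eq_bot'.2 hA)
  let C : Module.End K U := P ∘ₗ B
  have hfin : {μ : K | C.HasEigenvalue μ}.Finite := by
    exact Module.End.finite_hasEigenvalue C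
  refine (hfin.image (fun μ => -μ⁻¹)).subset ?_
  rintro t ⟨u, hu, h⟩
  have ht : t ≠ 0 := by
    rintro rfl
    exact hu (hA u (by simpa using h))
  have h1 : u + t • C u = 0 := by
    have := congrArg P h
    rw [map_add, map_smul, map_zero] at this
    have h2 : P (A u) = u := by
      have := congrArg (fun f => f u) hP
      simpa using this
    rw [h2] at this
    exact this
  refine ⟨-t⁻¹, ?_, by simp⟩
  refine Module.End.hasEigenvalue_of_hasEigenvector (x := u) ⟨?_, hu⟩
  rw [Module.End.mem_eigenspace_iff]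
  have h3 : t • C u = - u := by rw [eq_neg_iff_add_eq_zero, add_comm]; exact h1
  have : C u = t⁻¹ • (t • C u) := by rw [smul_smul, inv_mul_cancel₀ ht, one_smul]
  rw [this, h3]; simp

theorem iP_lin {K : Type*} [Field K] (t : K) (q : MvPolynomial (Fin 2) K) :
    iP ((X 0 + C t * X 1) * q) = (X 0 + C t * X 1 : S3 K) * iP q := by
  simp [iP, map_mul, map_add, rename_X]

theorem kl_step {K M : Type*} [Field K] [AddCommGroup M] [Module K M]
    [Module (S3 K) M] [IsScalarTower K (S3 K) M]
    (gr : ℕ → Submodule K M)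
    (hX : ∀ j i, ∀ u ∈ gr j, (X i : S3 K) • u ∈ gr (j+1))
    (t : K) (l m : Module.End K M) (hl : ∀ u, l u = (X 0 + C t * X 1 : S3 K) • u)
    (hm : ∀ u, m u = (X 1 : S3 K) • u)
    (r N : ℕ)
    (hr4 : ∀ j, r ≤ j → ∀ u ∈ gr (j+1), (∃ v ∈ gr (j+1), m u = l v) → ∃ w ∈ gr j, u = l w)
    (d : ℕ) (q : MvPolynomial (Fin 2) K) (hqd : q.IsHomogeneous d)
    (hqt : eval ![-t, 1] q ≠ 0)
    (hq : ∀ j ≤ N, ∀ u ∈ gr j, (∃ p : MvPolynomial (Fin 2) K, p ≠ 0 ∧ iP p • u = 0) →
        iP q • u = 0) (j : ℕ) (hj : r ≤ j) (hjN : j + 1 ≤ N) (u : M) (hu : u ∈ gr (j+1))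
    (hqu : iP q • u = 0) : ∃ w ∈ gr j, iP q • w = 0 ∧ u = l w := by
  have hq0 : q ≠ 0 := by rintro rfl; simp at hqt
  have main : ∃ w ∈ gr j, u = l w := by
    rcases d with _ | d
    · have h1 : q = C (coeff 0 q) := by
        exact totalDegree_eq_zero_iff_eq_C.1 ((totalDegree_zero_iff_isHomogeneous _).2 hqd)
      have h2 : coeff 0 q ≠ 0 := by
        intro h; rw [h, map_zero] at h1; exact hq0 h1
      have h3 : (coeff 0 q) • u = 0 := by
        rw [h1, iP, rename_C] at hqu
        rw [← hqu, C_eq_smul_one, smul_assoc, one_smul]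
      have h4 : u = 0 := (smul_eq_zero.1 h3).resolve_left h2
      exact ⟨0, (gr j).zero_mem, by rw [h4, map_zero]⟩
    · obtain ⟨q', hq', hqq⟩ := binary_mod t d q hqd
      have e1 : (iP q : S3 K) = C (eval ![-t, 1] q) * X 1 ^ (d+1) +
          (X 0 + C t * X 1) * iP q' := by
        rw [← iP_lin]
        conv_lhs => rw [hqq]
        simp [iP, map_mul, map_add, rename_X]
      have hq'u : iP q' • u ∈ gr (j + 1 + d) :=
        hom_smul_mem hX (hq'.rename_isHomogeneous) hu
      have e2 : (X 1 ^ (d+1) : S3 K) • u =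
          l (-((eval ![-t, 1] q)⁻¹ • (iP q' • u))) := by
        rw [e1, add_smul, mul_smul, mul_smul, ← hl, C_eq_smul_one, smul_assoc, one_smul] at hqu
        rw [map_neg, map_smul, eq_comm, neg_eq_iff_add_eq_zero, add_comm]
        have := congrArg (fun z => (eval ![-t, 1] q)⁻¹ • z) hqu
        simp only [smul_add, smul_smul, inv_mul_cancel₀ hqt, one_smul, smul_zero] at this
        exact this
      have claim : ∀ i ≤ d + 1, ∃ v ∈ gr (j + (d + 1 - i)),
          (X 1 ^ (d + 1 - i) : S3 K) • u = l v := by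
        intro i
        induction i with
        | zero =>
          intro _
          refine ⟨_, ?_, e2⟩
          rw [show j + (d + 1 - 0) = j + 1 + d by omega]
          exact Submodule.neg_mem _ (Submodule.smul_mem _ _ hq'u)
        | succ i ih =>
          intro hi
          obtain ⟨v, hv, hv'⟩ := ih (by omega)
          rw [show d + 1 - i = (d + 1 - (i+1)) + 1 by omega] at hv hv'
          rw [pow_succ', mul_smul, ← hm] at hv'
          have hmem := X_pow_smul_mem hX 1 (d + 1 - (i+1)) _ hu
          rw [show j + 1 + (d + 1 - (i+1)) = j + (d + 1 - (i+1)) + 1 by omega] at hmem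
          exact hr4 _ (by omega) _ hmem ⟨v, hv, hv'⟩
      have := claim (d+1) le_rfl
      simpa using this
  obtain ⟨w, hw, rfl⟩ := main
  refine ⟨w, hw, ?_, rfl⟩
  refine hq j (by omega) w hw ⟨(X 0 + C t * X 1) * q, ?_, ?_⟩
  · refine mul_ne_zero ?_ hq0
    intro h
    have := congrArg (coeff (Finsupp.single 0 1)) h
    rw [coeff_add, coeff_X, coeff_C_mul, coeff_X] at this
    simp [Finsupp.single_left_inj] at this
  · rw [iP_lin, mul_comm, mul_smul, ← hl]
    exact hqu

end Vale.Agent.P200
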