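import Vale.Agent.P200.Basic

namespace Vale.Agent.P200

open MvPolynomial Module

/-- ordered (non-commutative) evaluation `G(1, X, Y)` -/
noncomputable def ordEval {K M : Type*} [Field K] [AddCommGroup M] [Module K M]
    (X Y : Module.End K M) (G : S3 K) : Module.End K M :=
  ∑ e ∈ G.support, G.coeff e • (X ^ (e 1) * Y ^ (e 2))

lemma pow_intertwine {K M M' : Type*} [Field K] [AddCommGroup M] [Module K M]
    [AddCommGroup M'] [Module K M'] (X : Module.End K M) (X' : Module.End K M')
    (φ : M →ₗ[K] M') (hX : ∀ v, φ (X v) = X' (φ v)) (n : ℕ) :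
    ∀ v, φ ((X ^ n) v) = (X' ^ n) (φ v) := by
  induction n with
  | zero => intro v; simp
  | succ n ih =>
    intro v
    rw [pow_succ, pow_succ, Module.End.mul_apply, Module.End.mul_apply, ih, hX]

lemma ordEval_intertwine {K M M' : Type*} [Field K] [AddCommGroup M] [Module K M]
    [AddCommGroup M'] [Module K M'] (X Y : Module.End K M) (X' Y' : Module.End K M')
    (φ : M →ₗ[K] M') (hX : ∀ v, φ (X v) = X' (φ v)) (hY : ∀ v, φ (Y v) = Y' (φ v))
    (G : S3 K) (v : M) : φ (ordEval X Y G v) = ordEval X' Y' G (φ v) := by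
  unfold ordEval
  rw [LinearMap.sum_apply, LinearMap.sum_apply, map_sum]
  refine Finset.sum_congr rfl fun e _ => ?_
  rw [LinearMap.smul_apply, LinearMap.smul_apply, Module.End.mul_apply, Module.End.mul_apply,
    map_smul, pow_intertwine X X' φ hX, pow_intertwine Y Y' φ hY]

/-- the commutator of restrictions has smaller rank -/
lemma comm_rank_restrict {K M : Type*} [Field K] [AddCommGroup M] [Module K M]
    [Module.Finite K M] (X Y : Module.End K M) (N : Submodule K M)
    (hX : ∀ v ∈ N, X v ∈ N) (hY : ∀ v ∈ N, Y v ∈ N) :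
    finrank K (LinearMap.range (X.restrict hX * Y.restrict hY - Y.restrict hY * X.restrict hX))
      ≤ finrank K (LinearMap.range (X * Y - Y * X)) := by
  have h1 : (LinearMap.range
      (X.restrict hX * Y.restrict hY - Y.restrict hY * X.restrict hX)).map N.subtype
      ≤ LinearMap.range (X * Y - Y * X) := by
    rintro _ ⟨_, ⟨v, rfl⟩, rfl⟩
    exact ⟨v, rfl⟩
  have h2 := Submodule.finrank_mono h1
  rwa [Submodule.finrank_map_subtype_eq] at h2

/-- the commutator of the maps on a quotient has smaller rank -/
lemma comm_rank_quot {K M : Type*} [Field K] [AddCommGroup M] [Module K M]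
    [Module.Finite K M] (X Y : Module.End K M) (N : Submodule K M)
    (hX : N ≤ N.comap X) (hY : N ≤ N.comap Y) :
    finrank K (LinearMap.range (N.mapQ N X hX * N.mapQ N Y hY - N.mapQ N Y hY * N.mapQ N X hX))
      ≤ finrank K (LinearMap.range (X * Y - Y * X)) := by
  have h1 : LinearMap.range (N.mapQ N X hX * N.mapQ N Y hY - N.mapQ N Y hY * N.mapQ N X hX)
      ≤ (LinearMap.range (X * Y - Y * X)).map N.mkQ := by
    rintro _ ⟨v, rfl⟩
    obtain ⟨w, rfl⟩ := N.mkQ_surjective v
    exact ⟨(X * Y - Y * X) w, ⟨w, rfl⟩, rfl⟩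
  exact (Submodule.finrank_mono h1).trans (Submodule.finrank_map_le _ _)

/-- an invariant subspace exists in dimension at least two -/
lemma exists_inv_of_comm {K M : Type*} [Field K] [IsAlgClosed K] [AddCommGroup M] [Module K M]
    [Module.Finite K M] (X Y : Module.End K M)
    (h : finrank K (LinearMap.range (X * Y - Y * X)) ≤ 1) (hd : 2 ≤ finrank K M) :
    ∃ N : Submodule K M, N ≠ ⊥ ∧ N ≠ ⊤ ∧ (∀ v ∈ N, X v ∈ N) ∧ (∀ v ∈ N, Y v ∈ N) := by
  have : Nontrivial M := Module.nontrivial_of_finrank_pos (R := K) (by omega)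
  obtain ⟨lam, hlam⟩ := Module.End.exists_eigenvalue X
  set A : Module.End K M := X - algebraMap K (Module.End K M) lam with hA
  have hAv : ∀ v, A v = X v - lam • v := fun v => by
    rw [hA, LinearMap.sub_apply, Module.algebraMap_end_apply]
  have hXv : ∀ v, X v = A v + lam • v := fun v => by rw [hAv]; abel
  have hC : ∀ v, (X * Y - Y * X) v = A (Y v) - Y (A v) := fun v => by
    rw [LinearMap.sub_apply, Module.End.mul_apply, Module.End.mul_apply, hXv (Y v), hXv v,
      map_add, map_smul]
    abel
  obtain ⟨v0, hv0⟩ := hlam.exists_hasEigenvector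
  have hAv0 : A v0 = 0 := by rw [hAv, hv0.apply_eq_smul, sub_self]
  have hkerbot : LinearMap.ker A ≠ ⊥ := by
    intro hb
    have : v0 ∈ LinearMap.ker A := hAv0
    rw [hb, Submodule.mem_bot] at this
    exact hv0.2 this
  by_cases hA0 : A = 0
  · obtain ⟨mu, hmu⟩ := Module.End.exists_eigenvalue Y
    obtain ⟨w, hw⟩ := hmu.exists_hasEigenvector
    refine ⟨Submodule.span K {w}, ?_, ?_, ?_, ?_⟩
    · rw [Ne, Submodule.span_singleton_eq_bot]; exact hw.2
    · intro ht
      have h1 := finrank_span_singleton (K := K) hw.2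
      rw [ht, finrank_top] at h1
      omega
    · intro v hv
      rw [hXv, hA0, LinearMap.zero_apply, zero_add]
      exact Submodule.smul_mem _ _ hv
    · intro v hv
      obtain ⟨c, rfl⟩ := Submodule.mem_span_singleton.1 hv
      rw [map_smul, hw.apply_eq_smul]
      exact Submodule.smul_mem _ _ (Submodule.smul_mem _ _ (Submodule.mem_span_singleton_self w))
  by_cases hk : ∀ v, A v = 0 → (X * Y - Y * X) v = 0
  · refine ⟨LinearMap.ker A, hkerbot, ?_, ?_, ?_⟩
    · rw [Ne, LinearMap.ker_eq_top]; exact hA0
    · intro v hv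
      rw [LinearMap.mem_ker] at hv ⊢
      rw [hXv, hv, zero_add, map_smul, hv, smul_zero]
    · intro v hv
      rw [LinearMap.mem_ker] at hv ⊢
      have h1 := hk v hv
      rw [hC, hv, map_zero, sub_zero] at h1
      exact h1
  · push Not at hk
    obtain ⟨v, hv, hCv⟩ := hk
    have hr : LinearMap.range (X * Y - Y * X) ≤ LinearMap.range A := by
      have h1 : Submodule.span K {(X * Y - Y * X) v} = LinearMap.range (X * Y - Y * X) := by
        apply Submodule.eq_of_le_of_finrank_le
        · rw [Submodule.span_singleton_le_iff_mem]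
          exact ⟨v, rfl⟩
        · rw [finrank_span_singleton hCv]
          exact h
      rw [← h1, Submodule.span_singleton_le_iff_mem, hC, hv, map_zero, sub_zero]
      exact ⟨Y v, rfl⟩
    refine ⟨LinearMap.range A, ?_, ?_, ?_, ?_⟩
    · rw [Ne, LinearMap.range_eq_bot]; exact hA0
    · intro ht
      have hinj : Function.Injective A :=
        LinearMap.injective_iff_surjective.2 (LinearMap.range_eq_top.1 ht)
      exact hkerbot (LinearMap.ker_eq_bot.2 hinj)
    · rintro _ ⟨w, rfl⟩
      rw [hXv]
      exact Submodule.add_mem _ ⟨A w, rfl⟩ (Submodule.smul_mem _ _ ⟨w, rfl⟩)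
    · rintro _ ⟨w, rfl⟩
      have h1 : Y (A w) = A (Y w) - (X * Y - Y * X) w := by rw [hC]; abel
      rw [h1]
      exact Submodule.sub_mem _ ⟨Y w, rfl⟩ (hr ⟨w, rfl⟩)

/-- Two operators with a commutator of rank at most one are simultaneously triangularizable,
so ordered polynomial expressions not vanishing at the finitely many eigen-points are onto. -/
theorem kl_tri {K M : Type*} [Field K] [IsAlgClosed K] [AddCommGroup M] [Module K M]
    [Module.Finite K M] (X Y : Module.End K M)
    (h : finrank K (LinearMap.range (X * Y - Y * X)) ≤ 1) :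
    ∃ T : Finset (Fin 3 → K), (∀ p ∈ T, p 0 = 1) ∧
      ∀ G : S3 K, (∀ p ∈ T, eval p G ≠ 0) → Function.Surjective (ordEval X Y G) := by
  classical
  induction hn : finrank K M using Nat.strong_induction_on generalizing M with
  | _ n ih =>
    rcases Nat.lt_or_ge n 2 with hlt | hge
    · rcases Nat.eq_zero_or_pos n with h0 | hpos
      · refine ⟨∅, by simp, fun G _ => ?_⟩
        have : Subsingleton M := Module.finrank_zero_iff.1 (hn.trans h0)
        intro v
        exact ⟨0, Subsingleton.elim _ _⟩
      · have h1 : finrank K M = 1 := by omega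
        obtain ⟨w, hw, hspan⟩ := finrank_eq_one_iff'.1 h1
        obtain ⟨lam, hlam⟩ := hspan (X w)
        obtain ⟨mu, hmu⟩ := hspan (Y w)
        have hXs : ∀ v, X v = lam • v := fun v => by
          obtain ⟨c, rfl⟩ := hspan v
          rw [map_smul, ← hlam, smul_comm]
        have hYs : ∀ v, Y v = mu • v := fun v => by
          obtain ⟨c, rfl⟩ := hspan v
          rw [map_smul, ← hmu, smul_comm]
        have hXp : ∀ (m : ℕ) v, (X ^ m) v = lam ^ m • v := by
          intro m
          induction m with
          | zero => intro v; simp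
          | succ m ihm => intro v; rw [pow_succ, Module.End.mul_apply, hXs, map_smul, ihm,
              smul_smul, pow_succ']
        have hYp : ∀ (m : ℕ) v, (Y ^ m) v = mu ^ m • v := by
          intro m
          induction m with
          | zero => intro v; simp
          | succ m ihm => intro v; rw [pow_succ, Module.End.mul_apply, hYs, map_smul, ihm,
              smul_smul, pow_succ']
        refine ⟨{![1, lam, mu]}, by simp, fun G hG => ?_⟩
        have hG1 : eval ![1, lam, mu] G ≠ 0 := hG _ (Finset.mem_singleton_self _)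
        have hev : ∀ v, ordEval X Y G v = (eval ![1, lam, mu] G) • v := by
          intro v
          unfold ordEval
          rw [LinearMap.sum_apply, MvPolynomial.eval_eq', Finset.sum_smul]
          refine Finset.sum_congr rfl fun e _ => ?_
          rw [LinearMap.smul_apply, Module.End.mul_apply, hYp, map_smul, hXp, smul_smul, smul_smul,
            Fin.prod_univ_three]
          congr 1
          simp
          ring
        intro v
        refine ⟨(eval ![1, lam, mu] G)⁻¹ • v, ?_⟩
        rw [hev, smul_smul, mul_inv_cancel₀ hG1, one_smul]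
    · obtain ⟨N, hNb, hNt, hNX, hNY⟩ := exists_inv_of_comm X Y h (by omega)
      have hdim := Submodule.finrank_quotient_add_finrank N
      have hNpos : 0 < finrank K N := by
        rw [Module.finrank_pos_iff, Submodule.nontrivial_iff_ne_bot]; exact hNb
      have hNlt : finrank K N < finrank K M := Submodule.finrank_lt hNt
      obtain ⟨T1, hT1, hS1⟩ := ih (finrank K N) (by omega) (X.restrict hNX) (Y.restrict hNY)
        ((comm_rank_restrict X Y N hNX hNY).trans h) rfl
      obtain ⟨T2, hT2, hS2⟩ := ih (finrank K (M ⧸ N)) (by omega) (N.mapQ N X hNX)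
        (N.mapQ N Y hNY) ((comm_rank_quot X Y N hNX hNY).trans h) rfl
      refine ⟨T1 ∪ T2, ?_, fun G hG => ?_⟩
      · intro p hp
        rcases Finset.mem_union.1 hp with hp | hp
        · exact hT1 p hp
        · exact hT2 p hp
      · have s1 := hS1 G fun p hp => hG p (Finset.mem_union_left _ hp)
        have s2 := hS2 G fun p hp => hG p (Finset.mem_union_right _ hp)
        intro v
        obtain ⟨q, hq⟩ := s2 (N.mkQ v)
        obtain ⟨m, rfl⟩ := N.mkQ_surjective q
        rw [← ordEval_intertwine X Y (N.mapQ N X hNX) (N.mapQ N Y hNY) N.mkQ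
          (fun _ => rfl) (fun _ => rfl)] at hq
        have hmem : v - ordEval X Y G m ∈ N := by
          rw [← Submodule.ker_mkQ N, LinearMap.mem_ker, map_sub, hq, sub_self]
        obtain ⟨z, hz⟩ := s1 ⟨_, hmem⟩
        have h3 := ordEval_intertwine (X.restrict hNX) (Y.restrict hNY) X Y N.subtype
          (fun _ => rfl) (fun _ => rfl) G z
        rw [hz] at h3
        refine ⟨m + (z : M), ?_⟩
        rw [map_add]
        change v - ordEval X Y G m = ordEval X Y G (z : M) at h3
        rw [← h3]
        abel

end Vale.Agent.P200
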