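import Vale.Agent.P200.KLAux
import Vale.Agent.P200.KLTri

namespace Vale.Agent.P200

open MvPolynomial Module

/-- multiplication by `F` -/
noncomputable def sm {K M : Type*} [Field K] [AddCommGroup M] [Module K M]
    [Module (S3 K) M] [IsScalarTower K (S3 K) M] (F : S3 K) : Module.End K M where
  toFun u := F • u
  map_add' := smul_add F
  map_smul' a u := smul_comm F a u

theorem pow_op1 {K M : Type*} [Field K] [AddCommGroup M] [Module K M]
    (l x : Module.End K M) (hlx : Commute x l)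
    (T : Submodule K M) (ψx : Module.End K T) (hψx : ∀ u : T, l (ψx u) = x u) (k : ℕ) (u : T) :
    (x ^ k) (u : M) = (l ^ k) (((ψx ^ k) u : T) : M) := by
  induction k generalizing u with
  | zero => simp
  | succ k ih =>
    have hc : ∀ v, (x ^ k) (l v) = l ((x ^ k) v) := by
      intro v
      have := (hlx.pow_left k).eq
      exact congrArg (fun f => f v) this
    rw [pow_succ x, Module.End.mul_apply, ← hψx, hc, ih, pow_succ' l, Module.End.mul_apply,
      pow_succ ψx, Module.End.mul_apply]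

theorem pow_ops {K M : Type*} [Field K] [AddCommGroup M] [Module K M]
    (l m x : Module.End K M) (hlx : Commute x l) (hlm : Commute m l)
    (T : Submodule K M) (ψm ψx : Module.End K T)
    (hψm : ∀ u : T, l (ψm u) = m u) (hψx : ∀ u : T, l (ψx u) = x u) (i j k : ℕ) (u : T) :
    (l ^ i) ((m ^ j) ((x ^ k) (u : M))) = (l ^ (i + j + k)) (((ψm ^ j * ψx ^ k) u : T) : M) := by
  have hc : ∀ v, (m ^ j) ((l ^ k) v) = (l ^ k) ((m ^ j) v) := by
    intro v
    have := (hlm.pow_pow j k).eq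
    exact congrArg (fun f => f v) this
  rw [pow_op1 l x hlx T ψx hψx, hc, pow_op1 l m hlm T ψm hψm, Module.End.mul_apply]
  simp only [← Module.End.mul_apply, ← pow_add]
  congr 2
  omega


theorem lin_pow_smul {K M : Type*} [Field K] [AddCommGroup M] [Module K M]
    [Module (S3 K) M] [IsScalarTower K (S3 K) M] (p : S3 K) (l : Module.End K M)
    (hl : ∀ u, l u = p • u) (n : ℕ) (u : M) : (p ^ n) • u = (l ^ n) u := by
  induction n with
  | zero => simp
  | succ n ih => rw [pow_succ', mul_smul, ih, pow_succ', Module.End.mul_apply, hl]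

theorem subst_inv {K : Type*} [Field K] (t : K) (G : S3 K) :
    aeval (![X 0 + C t * X 1, X 1, X 2] : Fin 3 → S3 K)
      (aeval (![X 0 - C t * X 1, X 1, X 2] : Fin 3 → S3 K) G) = G := by
  have : ((aeval (![X 0 + C t * X 1, X 1, X 2] : Fin 3 → S3 K)).comp
      (aeval (![X 0 - C t * X 1, X 1, X 2] : Fin 3 → S3 K))) = AlgHom.id K (S3 K) := by
    refine MvPolynomial.algHom_ext fun i => ?_
    fin_cases i
    · simp
    · simp
    · simp
  exact congrArg (fun f => f G) this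

theorem subst_hom {K : Type*} [Field K] (t : K) {G : S3 K} {c : ℕ} (hG : G.IsHomogeneous c) :
    (aeval (![X 0 - C t * X 1, X 1, X 2] : Fin 3 → S3 K) G).IsHomogeneous c := by
  have := hG.aeval (![X 0 - C t * X 1, X 1, X 2] : Fin 3 → S3 K) (n := 1) (by
    intro i
    fin_cases i
    · have h1 := (isHomogeneous_C (Fin 3) t).mul (isHomogeneous_X K (1 : Fin 3))
      rw [zero_add] at h1
      exact (isHomogeneous_X K (0 : Fin 3)).sub h1
    · exact isHomogeneous_X K (1 : Fin 3)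
    · exact isHomogeneous_X K (2 : Fin 3))
  rwa [one_mul] at this

theorem subst_eval {K : Type*} [Field K] (t : K) (G : S3 K) (p : Fin 3 → K) :
    eval p (aeval (![X 0 - C t * X 1, X 1, X 2] : Fin 3 → S3 K) G) =
      eval ![p 0 - t * p 1, p 1, p 2] G := by
  have : ((eval p).comp ((aeval (![X 0 - C t * X 1, X 1, X 2] : Fin 3 → S3 K) :
      S3 K →ₐ[K] S3 K) : S3 K →+* S3 K)) = eval ![p 0 - t * p 1, p 1, p 2] := by
    refine MvPolynomial.ringHom_ext (fun r => ?_) (fun i => ?_)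
    · simp
    · fin_cases i <;> simp
  exact congrArg (fun f => f G) this

theorem smul_eq_ordEval {K M : Type*} [Field K] [AddCommGroup M] [Module K M]
    [Module (S3 K) M] [IsScalarTower K (S3 K) M] (t : K)
    (l m x : Module.End K M) (hl : ∀ u, l u = (X 0 + C t * X 1 : S3 K) • u)
    (hm : ∀ u, m u = (X 1 : S3 K) • u) (hx : ∀ u, x u = (X 2 : S3 K) • u)
    (T : Submodule K M) (ψm ψx : Module.End K T)
    (hψm : ∀ u : T, l (ψm u) = m u) (hψx : ∀ u : T, l (ψx u) = x u)
    {G : S3 K} {c : ℕ} (hG : G.IsHomogeneous c) (u : T) :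
    G • (u : M) = (l ^ c) ((ordEval ψm ψx
      (aeval (![X 0 - C t * X 1, X 1, X 2] : Fin 3 → S3 K) G) u : T) : M) := by
  have hlx : Commute x l := by
    refine LinearMap.ext fun v => ?_
    show x (l v) = l (x v)
    rw [hx, hl, hl, hx, ← mul_smul, ← mul_smul, mul_comm]
  have hlm : Commute m l := by
    refine LinearMap.ext fun v => ?_
    show m (l v) = l (m v)
    rw [hm, hl, hl, hm, ← mul_smul, ← mul_smul, mul_comm]
  set G' := aeval (![X 0 - C t * X 1, X 1, X 2] : Fin 3 → S3 K) G with hG'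
  have hGG : G = aeval (![X 0 + C t * X 1, X 1, X 2] : Fin 3 → S3 K) G' :=
    (subst_inv t G).symm
  have hom : G'.IsHomogeneous c := subst_hom t hG
  conv_lhs => rw [hGG, aeval_def, eval₂_eq', Finset.sum_smul]
  have h2 : (l ^ c) ((ordEval ψm ψx G' u : T) : M) =
      ∑ e ∈ G'.support, coeff e G' • (l ^ c) (((ψm ^ e 1 * ψx ^ e 2) u : T) : M) := by
    rw [ordEval]
    rw [LinearMap.sum_apply, Submodule.coe_sum, map_sum]
    refine Finset.sum_congr rfl fun e _ => ?_
    rw [LinearMap.smul_apply, Submodule.coe_smul, map_smul]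
  rw [h2]
  refine Finset.sum_congr rfl fun e he => ?_
  have hd : e 0 + e 1 + e 2 = c := by
    have h1 := hom (mem_support_iff.1 he)
    rw [Finsupp.weight_apply, Finsupp.sum_fintype _ _ (by simp)] at h1
    simpa [Fin.sum_univ_three] using h1
  rw [Fin.prod_univ_three, algebraMap_eq, C_eq_smul_one, smul_mul_assoc, one_mul, smul_assoc,
    mul_smul, mul_smul]
  congr 1
  have hi := pow_ops l m x hlx hlm T ψm ψx hψm hψx (e 0) (e 1) (e 2) u
  rw [hd] at hi
  rw [← hi]
  rw [← lin_pow_smul _ l hl, ← lin_pow_smul _ m hm, ← lin_pow_smul _ x hx]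
  rfl


/-- the part of the Key Lemma inside the module -/
theorem kl_core {K M : Type*} [Field K] [IsAlgClosed K] [AddCommGroup M] [Module K M]
    [Module (S3 K) M] [IsScalarTower K (S3 K) M]
    (gr : ℕ → Submodule K M) (hfin : ∀ j, Module.Finite K (gr j))
    (hX : ∀ j i, ∀ u ∈ gr j, (X i : S3 K) • u ∈ gr (j+1))
    (t : K) (l m x : Module.End K M) (hl : ∀ u, l u = (X 0 + C t * X 1 : S3 K) • u)
    (hm : ∀ u, m u = (X 1 : S3 K) • u) (hx : ∀ u, x u = (X 2 : S3 K) • u)
    (r N c : ℕ) (hc : 1 ≤ c) (hrN : r + c ≤ N)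
    (hr1 : ∀ u ∈ gr r, l u = 0 → u = 0)
    (hr2 : finrank K (↥(gr (r+1) ⊓ LinearMap.ker l)) ≤ 1)
    (hr4 : ∀ j, r ≤ j → ∀ u ∈ gr (j+1), (∃ v ∈ gr (j+1), m u = l v) → ∃ w ∈ gr j, u = l w)
    (d : ℕ) (q : MvPolynomial (Fin 2) K) (hqd : q.IsHomogeneous d)
    (hqt : eval ![-t, 1] q ≠ 0)
    (hq : ∀ j ≤ N, ∀ u ∈ gr j, (∃ p : MvPolynomial (Fin 2) K, p ≠ 0 ∧ iP p • u = 0) →
        iP q • u = 0) :
    ∃ T : Finset (Fin 3 → K), (∀ p ∈ T, p ≠ 0) ∧ ∀ G : S3 K, G.IsHomogeneous c →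
      (∀ p ∈ T, eval p G ≠ 0) → ∀ z ∈ gr (r + c), iP q • z = 0 →
        ∃ w ∈ gr r, z = G • w := by
  classical
  have step := kl_step gr hX t l m hl hm r N hr4 d q hqd hqt hq
  have hlmap : ∀ j, ∀ u ∈ gr j, l u ∈ gr (j+1) := by
    intro j u hu
    rw [hl, add_smul, mul_smul, C_eq_smul_one, smul_assoc, one_smul]
    exact Submodule.add_mem _ (hX j 0 u hu) (Submodule.smul_mem _ _ (hX j 1 u hu))
  -- torsion parts
  let T : ℕ → Submodule K M := fun j => gr j ⊓ LinearMap.ker (sm (K := K) (M := M) (iP q))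
  have hT : ∀ j u, u ∈ T j ↔ u ∈ gr j ∧ iP q • u = 0 := fun j u => Iff.rfl
  have hcomm : ∀ (F : S3 K) (u : M), iP q • (F • u) = F • (iP q • u) := fun F u =>
    smul_comm _ _ _
  have hTl : ∀ j, ∀ u ∈ T j, l u ∈ T (j+1) := by
    intro j u hu
    refine ⟨hlmap j u hu.1, ?_⟩
    show iP q • l u = 0
    rw [hl, hcomm, ((hT j u).1 hu).2, smul_zero]
  have hTm : ∀ j, ∀ u ∈ T j, m u ∈ T (j+1) := by
    intro j u hu
    refine ⟨by rw [hm]; exact hX j 1 u hu.1, ?_⟩
    show iP q • m u = 0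
    rw [hm, hcomm, ((hT j u).1 hu).2, smul_zero]
  have hTx : ∀ j, ∀ u ∈ T j, x u ∈ T (j+1) := by
    intro j u hu
    refine ⟨by rw [hx]; exact hX j 2 u hu.1, ?_⟩
    show iP q • x u = 0
    rw [hx, hcomm, ((hT j u).1 hu).2, smul_zero]
  have hfinT : ∀ j, Module.Finite K (T j) := fun j =>
    Submodule.finiteDimensional_of_le (inf_le_left : T j ≤ gr j)
  have hsurj : ∀ u ∈ T (r+1), ∃ w ∈ T r, l w = u := by
    intro u hu
    obtain ⟨w, hw, hw1, hw2⟩ := step r le_rfl (by omega) u hu.1 hu.2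
    exact ⟨w, ⟨hw, hw1⟩, hw2.symm⟩
  -- the equivalence `l : T r ≃ T (r+1)`
  let E0 : T r →ₗ[K] T (r+1) := l.restrict (hTl r)
  have hE0inj : Function.Injective E0 := by
    rw [← LinearMap.ker_eq_bot, LinearMap.ker_eq_bot']
    intro u hu
    have : l (u : M) = 0 := congrArg Subtype.val hu
    exact Subtype.ext (hr1 u u.2.1 this)
  have hE0surj : Function.Surjective E0 := by
    rintro ⟨u, hu⟩
    obtain ⟨w, hw, hw'⟩ := hsurj u hu
    exact ⟨⟨w, hw⟩, Subtype.ext hw'⟩
  let E : T r ≃ₗ[K] T (r+1) := LinearEquiv.ofBijective E0 ⟨hE0inj, hE0surj⟩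
  let ψm : Module.End K (T r) := E.symm.toLinearMap ∘ₗ (m.restrict (hTm r))
  let ψx : Module.End K (T r) := E.symm.toLinearMap ∘ₗ (x.restrict (hTx r))
  have hE : ∀ v : T (r+1), l (E.symm v) = v := by
    intro v
    have := E.apply_symm_apply v
    exact congrArg Subtype.val this
  have hψm : ∀ u : T r, l (ψm u) = m u := fun u => hE _
  have hψx : ∀ u : T r, l (ψx u) = x u := fun u => hE _
  have hml : ∀ u, m (l u) = l (m u) := by
    intro v
    rw [hm, hl, hl, hm, ← mul_smul, ← mul_smul, mul_comm]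
  have hxl : ∀ u, x (l u) = l (x u) := by
    intro v
    rw [hx, hl, hl, hx, ← mul_smul, ← mul_smul, mul_comm]
  have hxm : ∀ u, x (m u) = m (x u) := by
    intro v
    rw [hx, hm, hm, hx, ← mul_smul, ← mul_smul, mul_comm]
  -- commutator
  have hcomm1 : finrank K (LinearMap.range (ψm * ψx - ψx * ψm)) ≤ 1 := by
    let C0 := ψm * ψx - ψx * ψm
    let ι : T r →ₗ[K] M := l ∘ₗ (T r).subtype
    have hι : Function.Injective ι := by
      rw [← LinearMap.ker_eq_bot, LinearMap.ker_eq_bot']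
      intro u hu
      exact Subtype.ext (hr1 u u.2.1 hu)
    have h1 : ((LinearMap.range C0).map ι) ≤ gr (r+1) ⊓ LinearMap.ker l := by
      rintro _ ⟨_, ⟨u, rfl⟩, rfl⟩
      have e1 : ι (C0 u) = m (ψx u : T r) - x (ψm u : T r) := by
        show l ((ψm (ψx u) - ψx (ψm u) : T r) : M) = _
        rw [Submodule.coe_sub, map_sub, hψm, hψx]
      refine ⟨?_, ?_⟩
      · rw [e1]
        exact Submodule.sub_mem _ ((hTm r _ (ψx u).2).1) ((hTx r _ (ψm u).2).1)
      · rw [SetLike.mem_coe, LinearMap.mem_ker, e1, map_sub, ← hml, ← hxl, hψm, hψx, hxm,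
          sub_self]
    have hfin1 : Module.Finite K (↥(gr (r+1) ⊓ LinearMap.ker l)) :=
      Submodule.finiteDimensional_of_le (inf_le_left : gr (r+1) ⊓ LinearMap.ker l ≤ gr (r+1))
    have h2 := Submodule.finrank_mono h1
    have h3 : finrank K ((LinearMap.range C0).map ι) = finrank K (LinearMap.range C0) :=
      (LinearEquiv.finrank_eq (Submodule.equivMapOfInjective ι hι _)).symm
    rw [h3] at h2
    exact h2.trans hr2
  obtain ⟨T0, hT0, hT0'⟩ := kl_tri ψm ψx hcomm1
  refine ⟨T0.image (fun p => ![p 0 - t * p 1, p 1, p 2]), ?_, ?_⟩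
  · intro p hp hp0
    obtain ⟨p', hp', rfl⟩ := Finset.mem_image.1 hp
    have e0 := congrFun hp0 0
    have e1 := congrFun hp0 1
    simp only [Matrix.cons_val_zero, Matrix.cons_val_one, Pi.zero_apply] at e0 e1
    rw [e1, mul_zero, sub_zero, hT0 p' hp'] at e0
    exact one_ne_zero e0
  · intro G hG hGT z hz hqz
    -- `z = l^c w`
    have hz' : ∀ i ≤ c, ∃ w ∈ T (r + (c - i)), z = (l ^ i) w := by
      intro i
      induction i with
      | zero => intro _; exact ⟨z, ⟨hz, hqz⟩, by simp⟩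
      | succ i ih =>
        intro hi
        obtain ⟨w, hw, hw'⟩ := ih (by omega)
        rw [show r + (c - i) = (r + (c - (i+1))) + 1 by omega] at hw
        obtain ⟨w', hw1, hw2, hw3⟩ := step (r + (c - (i+1))) (by omega) (by omega) w hw.1 hw.2
        refine ⟨w', ⟨hw1, hw2⟩, ?_⟩
        rw [hw', hw3, pow_succ, Module.End.mul_apply]
    obtain ⟨w1, hw1, hw2⟩ := hz' c le_rfl
    rw [Nat.sub_self, add_zero] at hw1
    have hs := hT0' (aeval (![X 0 - C t * X 1, X 1, X 2] : Fin 3 → S3 K) G) (by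
      intro p hp
      rw [subst_eval]
      exact hGT _ (Finset.mem_image_of_mem _ hp))
    obtain ⟨u, hu⟩ := hs ⟨w1, hw1⟩
    refine ⟨u, u.2.1, ?_⟩
    rw [smul_eq_ordEval t l m x hl hm hx (T r) ψm ψx hψm hψx hG, hu, hw2]

end Vale.Agent.P200
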