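import Vale.Agent.P200.Basic
import Vale.Agent.P200.KLTors

namespace Vale.Agent.P200

open MvPolynomial Module

open TensorProduct in
theorem klf_general {R N : Type*} [CommRing R] [IsDomain R] [IsIntegrallyClosed R]
    [AddCommGroup N] [Module R N] [Module.Finite R N] (x0 : Module.End R N) (s : Set N)
    (hs : Submodule.span R s = ⊤) :
    ∃ (r : ℕ) (v : Fin r → N), (∀ i, v i ∈ s) ∧ LinearIndependent R v ∧
      ∃ g : Polynomial R, g.Monic ∧ g.natDegree ≤ r ∧
        ∀ n, ∃ q : R, q ≠ 0 ∧ q • (Polynomial.aeval x0 g n) = 0 := by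
  classical
  obtain ⟨p, hpm, hpx⟩ := LinearMap.exists_monic_and_aeval_eq_zero R x0
  set L := FractionRing R with hL
  set W := L ⊗[R] N with hW
  set xW : Module.End L W := Module.End.baseChangeHom R L N x0 with hxW
  have haeval : ∀ q : Polynomial R, Polynomial.aeval xW (q.map (algebraMap R L))
      = Module.End.baseChangeHom R L N (Polynomial.aeval x0 q) := by
    intro q
    rw [Polynomial.aeval_map_algebraMap, hxW]
    exact Polynomial.aeval_algHom_apply (Module.End.baseChangeHom R L N) x0 q
  have hint : IsIntegral L xW := Algebra.IsIntegral.isIntegral xW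
  have hdvd : minpoly L xW ∣ p.map (algebraMap R L) :=
    minpoly.dvd L xW (by rw [haeval, hpx, map_zero])
  obtain ⟨g', hg'⟩ := IsIntegrallyClosed.eq_map_mul_C_of_dvd L hpm hdvd
  have hmon : (minpoly L xW).Monic := minpoly.monic hint
  rw [hmon.leadingCoeff, Polynomial.C_1, mul_one] at hg'
  have hinj : Function.Injective (algebraMap R L) := IsFractionRing.injective R L
  have hg'm : g'.Monic := Polynomial.monic_of_injective hinj (by rw [hg']; exact hmon)
  have hdeg : g'.natDegree ≤ finrank L W := by
    rw [← Polynomial.natDegree_map_eq_of_injective hinj g', hg',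
      ← LinearMap.charpoly_natDegree (R := L) xW]
    exact Polynomial.natDegree_le_of_dvd (LinearMap.minpoly_dvd_charpoly xW)
      (LinearMap.charpoly_monic xW).ne_zero
  -- basis
  set ι : N →ₗ[R] W := TensorProduct.mk R L N 1 with hι
  have hspan : Submodule.span L (ι '' s) = ⊤ := by
    have h1 : Submodule.span L (Set.range ι) = ⊤ := by
      rw [eq_top_iff]
      rintro w -
      induction w using TensorProduct.induction_on with
      | zero => exact Submodule.zero_mem _
      | tmul a n =>
        have : a ⊗ₜ[R] n = a • ι n := by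
          rw [hι, TensorProduct.mk_apply, TensorProduct.smul_tmul', smul_eq_mul, mul_one]
        rw [this]
        exact Submodule.smul_mem _ _ (Submodule.subset_span ⟨n, rfl⟩)
      | add a b ha hb => exact Submodule.add_mem _ ha hb
    rw [eq_top_iff, ← h1, Submodule.span_le]
    rintro _ ⟨n, rfl⟩
    have hn : n ∈ Submodule.span R s := by rw [hs]; trivial
    have h2 : ι n ∈ Submodule.map ι (Submodule.span R s) := ⟨n, hn, rfl⟩
    rw [Submodule.map_span] at h2
    exact Submodule.span_le_restrictScalars R L _ h2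
  obtain ⟨b, hbs, hbspan, hbli⟩ := exists_linearIndependent L (ι '' s)
  rw [hspan] at hbspan
  let B : Basis b L W := Basis.mk hbli (by rw [Subtype.range_coe, hbspan])
  have : Finite b := Module.Finite.finite_basis B
  have : Fintype b := Fintype.ofFinite b
  have hcard : finrank L W = Fintype.card b := finrank_eq_card_basis B
  let e := (Fintype.equivFin b).symm
  have hch : ∀ i : Fin (Fintype.card b), ∃ n ∈ s, ι n = (e i : W) := fun i => hbs (e i).2
  choose v hv hve using hch
  refine ⟨Fintype.card b, v, hv, ?_, g', hg'm, hcard ▸ hdeg, ?_⟩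
  · apply LinearIndependent.of_comp ι
    have h3 : (ι ∘ v) = (fun w : b => (w : W)) ∘ e := by
      funext i; exact hve i
    rw [h3]
    have h4 : LinearIndependent L ((fun w : b => (w : W)) ∘ e) := hbli.comp e e.injective
    refine h4.restrict_scalars ?_
    intro r1 r2 h
    apply hinj
    simpa [Algebra.smul_def] using h
  · intro n
    have h5 : ι (Polynomial.aeval x0 g' n) = 0 := by
      have h6 : (Module.End.baseChangeHom R L N (Polynomial.aeval x0 g')) (ι n) = 0 := by
        have h8 : Polynomial.aeval xW (minpoly L xW) = 0 := minpoly.aeval L xW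
        rw [← haeval, hg']
        exact (congrArg (fun (F : Module.End L W) => F (ι n)) h8).trans
          (LinearMap.zero_apply (ι n))
      have h7 : (Module.End.baseChangeHom R L N (Polynomial.aeval x0 g')) (ι n)
          = ι (Polynomial.aeval x0 g' n) := rfl
      rw [← h7, h6]
    have : IsLocalizedModule (nonZeroDivisors R) ι :=
      (isLocalizedModule_iff_isBaseChange (nonZeroDivisors R) L ι).mpr
        (TensorProduct.isBaseChange R N L)
    obtain ⟨q, hq⟩ := (IsLocalizedModule.eq_zero_iff (nonZeroDivisors R) ι).mp h5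
    exact ⟨q, nonZeroDivisors.ne_zero q.2, hq⟩

section KLFormAux

variable {K M : Type*} [Field K] [AddCommGroup M] [Module K M] [Module (S3 K) M]
    [IsScalarTower K (S3 K) M] (gr : ℕ → Submodule K M)

theorem klf_comp_T (hind : iSupIndep gr)
    (hX : ∀ j i, ∀ u ∈ gr j, (X i : S3 K) • u ∈ gr (j+1)) (G : S3 K) (v : M) (hv : v ∈ gr 0)
    (hT : G • v ∈ klfT K M) (d : ℕ) : homogeneousComponent d G • v ∈ klfT K M := by
  by_cases hd : d < G.totalDegree + 1
  · refine klf_T_graded gr hind hX (G.totalDegree + 1)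
      (fun j => homogeneousComponent j G • v) (fun j => ?_) ?_ d hd
    · have := klf_hom_mem gr hX _ j (homogeneousComponent_isHomogeneous j G) 0 v hv
      rwa [zero_add] at this
    · rw [← Finset.sum_smul, sum_homogeneousComponent]
      exact hT
  · rw [homogeneousComponent_eq_zero _ _ (by omega), zero_smul]
    exact Submodule.zero_mem _

/-- the exponent vector of `X 0 ^ a * X 1 ^ (j - a)` -/
noncomputable def klfExp (j a : ℕ) : Fin 2 →₀ ℕ := Finsupp.single 0 a + Finsupp.single 1 (j - a)

theorem klfExp_zero (j a : ℕ) : klfExp j a 0 = a := by simp [klfExp]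

theorem klfExp_degree (j a : ℕ) (h : a ≤ j) : (klfExp j a).degree = j := by
  rw [Finsupp.degree_eq_sum, Fin.sum_univ_two]
  simp [klfExp]; omega

theorem klf_card_le (hX : ∀ j i, ∀ u ∈ gr j, (X i : S3 K) • u ∈ gr (j+1))
    (r : ℕ) (v : Fin r → M) (hv : ∀ i, v i ∈ gr 0)
    (hli : ∀ g : Fin r → MvPolynomial (Fin 2) K, ∑ i, iP (g i) • v i = 0 → ∀ i, g i = 0)
    (j : ℕ) [Module.Finite K (gr j)] : r * (j + 1) ≤ finrank K (gr j) := by
  have hmem : ∀ p : Fin r × Fin (j+1),
      iP (monomial (klfExp j p.2) (1:K)) • v p.1 ∈ gr j := by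
    intro p
    have h1 := klf_hom_mem gr hX _ j (klf_iP_hom (monomial (klfExp j p.2) (1:K)) j
      (isHomogeneous_monomial _ (klfExp_degree j p.2 (by omega)))) 0 _ (hv p.1)
    rwa [zero_add] at h1
  have hLI : LinearIndependent K
      (fun p : Fin r × Fin (j+1) => (⟨_, hmem p⟩ : gr j)) := by
    rw [Fintype.linearIndependent_iff]
    intro c hc p
    have hc' : ∑ p : Fin r × Fin (j+1), c p • (iP (monomial (klfExp j p.2) (1:K)) • v p.1) = 0 := by
      have := congrArg Subtype.val hc
      simpa using this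
    rw [Fintype.sum_prod_type] at hc'
    have h2 : ∀ i : Fin r, ∑ a : Fin (j+1), c (i, a) • (iP (monomial (klfExp j a) (1:K)) • v i)
        = iP (∑ a : Fin (j+1), monomial (klfExp j a) (c (i, a))) • v i := by
      intro i
      rw [iP, map_sum, Finset.sum_smul]
      refine Finset.sum_congr rfl fun a _ => ?_
      rw [← smul_assoc]
      congr 1
      rw [iP, ← map_smul, smul_monomial, smul_eq_mul, mul_one]
    simp only [h2] at hc'
    have h3 := hli _ hc' p.1
    have h4 := congrArg (coeff (klfExp j p.2)) h3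
    rw [coeff_sum, coeff_zero] at h4
    simp only [coeff_monomial] at h4
    rw [Finset.sum_eq_single p.2] at h4
    · simpa using h4
    · intro b _ hb
      rw [if_neg]
      intro h5
      apply hb
      have h6 := congrArg (fun m : Fin 2 →₀ ℕ => m 0) h5
      simp only [klfExp_zero] at h6
      exact Fin.ext h6
    · intro h; exact absurd (Finset.mem_univ _) h
  have := hLI.fintype_card_le_finrank
  simpa using this

theorem klf_rank_le (hfin : ∀ j, Module.Finite K (gr j))
    (hX : ∀ j i, ∀ u ∈ gr j, (X i : S3 K) • u ∈ gr (j+1))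
    (k0 j0 : ℕ) (hdim : ∀ j, j0 ≤ j → finrank K (gr (j+1)) ≤ finrank K (gr j) + k0)
    (r : ℕ) (v : Fin r → M) (hv : ∀ i, v i ∈ gr 0)
    (hli : ∀ g : Fin r → MvPolynomial (Fin 2) K, ∑ i, iP (g i) • v i = 0 → ∀ i, g i = 0) :
    r ≤ k0 := by
  by_contra hcon
  push Not at hcon
  have h1 : ∀ t, finrank K (gr (j0 + t)) ≤ finrank K (gr j0) + t * k0 := by
    intro t
    induction t with
    | zero => simp
    | succ t ih =>
      have := hdim (j0 + t) (by omega)
      rw [add_mul, one_mul, ← add_assoc, ← add_assoc]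
      exact this.trans (by omega)
  set h := finrank K (gr j0) with hh
  have h2 := klf_card_le gr hX r v hv hli (j0 + h)
  have h3 := h1 h
  have h4 : (k0 + 1) * (j0 + h + 1) ≤ r * (j0 + h + 1) := Nat.mul_le_mul_right _ hcon
  nlinarith

open scoped TensorProduct in
theorem klf_poly (hfin : ∀ j, Module.Finite K (gr j))
    (hX : ∀ j i, ∀ u ∈ gr j, (X i : S3 K) • u ∈ gr (j+1))
    (hgen : ∀ j, ∀ u ∈ gr (j+1), ∃ v ∈ gr j, ∃ w ∈ gr j,
      u = (X 0 : S3 K) • v + (X 1 : S3 K) • w)
    (k0 j0 : ℕ) (hdim : ∀ j, j0 ≤ j → finrank K (gr (j+1)) ≤ finrank K (gr j) + k0) :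
    ∃ g : Polynomial (MvPolynomial (Fin 2) K), g.Monic ∧ g.natDegree ≤ k0 ∧
      ∀ v ∈ gr 0, Polynomial.eval₂ ((rename (Fin.castSucc : Fin 2 → Fin 3) :
        MvPolynomial (Fin 2) K →ₐ[K] S3 K) : MvPolynomial (Fin 2) K →+* S3 K)
          (X 2 : S3 K) g • v ∈ klfT K M := by
  classical
  let modP : Module (MvPolynomial (Fin 2) K) M :=
    Module.compHom M ((rename (Fin.castSucc : Fin 2 → Fin 3) :
        MvPolynomial (Fin 2) K →ₐ[K] S3 K) : MvPolynomial (Fin 2) K →+* S3 K)
  have smul_def : ∀ (p : MvPolynomial (Fin 2) K) (m : M), p • m = iP p • m := fun _ _ => rfl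
  have : IsScalarTower K (MvPolynomial (Fin 2) K) M :=
    ⟨fun c p m => by rw [smul_def, smul_def, iP, map_smul, smul_assoc]⟩
  let x : M →ₗ[MvPolynomial (Fin 2) K] M :=
    { toFun := fun m => (X 2 : S3 K) • m
      map_add' := fun _ _ => smul_add _ _ _
      map_smul' := fun p m => by
        simp only [smul_def, RingHom.id_apply]
        exact smul_comm _ _ _ }
  have x_apply : ∀ m, x m = (X 2 : S3 K) • m := fun _ => rfl
  let M0 : Submodule (MvPolynomial (Fin 2) K) M :=
    Submodule.span (MvPolynomial (Fin 2) K) (gr 0 : Set M)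
  have hM0 : ∀ v ∈ gr 0, v ∈ M0 := fun v hv => Submodule.subset_span hv
  have hxM0 : ∀ m ∈ M0, x m ∈ M0 := by
    intro m hm
    induction hm using Submodule.span_induction with
    | mem v hv =>
      obtain ⟨a, ha, b, hb, hab⟩ := hgen 0 _ (hX 0 2 v hv)
      rw [x_apply, hab]
      have e0 : (X 0 : S3 K) • a = (X 0 : MvPolynomial (Fin 2) K) • a := by
        rw [smul_def, iP, rename_X]; rfl
      have e1 : (X 1 : S3 K) • b = (X 1 : MvPolynomial (Fin 2) K) • b := by
        rw [smul_def, iP, rename_X]; rfl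
      rw [e0, e1]
      exact Submodule.add_mem _ (Submodule.smul_mem _ _ (hM0 _ ha))
        (Submodule.smul_mem _ _ (hM0 _ hb))
    | zero => rw [map_zero]; exact Submodule.zero_mem _
    | add u v _ _ hu hv => rw [map_add]; exact Submodule.add_mem _ hu hv
    | smul p u _ hu => rw [map_smul]; exact Submodule.smul_mem _ _ hu
  let x0 : Module.End (MvPolynomial (Fin 2) K) M0 := x.restrict hxM0
  have hfinM0 : Module.Finite (MvPolynomial (Fin 2) K) M0 := by
    have := hfin 0
    have hfg : (gr 0).FG := Module.Finite.iff_fg.mp inferInstance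
    obtain ⟨s, hs⟩ := hfg
    refine Module.Finite.iff_fg.mpr ⟨s, ?_⟩
    show _ = Submodule.span _ _
    rw [← hs, Submodule.span_span_of_tower]
  have hspan : Submodule.span (MvPolynomial (Fin 2) K) {n : M0 | (n : M) ∈ gr 0} = ⊤ := by
    rw [eq_top_iff]
    rintro ⟨n, hn⟩ -
    induction hn using Submodule.span_induction with
    | mem v hv => exact Submodule.subset_span hv
    | zero => exact Submodule.zero_mem _
    | add u v hu hv hu2 hv2 => exact Submodule.add_mem _ hu2 hv2
    | smul p u hu hu2 => exact Submodule.smul_mem _ p hu2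
  obtain ⟨r, v, hv, hli, g, hgm, hgd, hgT⟩ := klf_general x0 _ hspan
  have hr : r ≤ k0 := by
    refine klf_rank_le gr hfin hX k0 j0 hdim r (fun i => (v i : M)) (fun i => hv i) ?_
    intro c hc
    rw [Fintype.linearIndependent_iff] at hli
    refine hli c ?_
    apply Subtype.ext
    rw [AddSubmonoidClass.coe_finsetSum]
    exact hc
  refine ⟨g, hgm, hgd.trans hr, ?_⟩
  intro u hu
  obtain ⟨q, hq, hq2⟩ := hgT ⟨u, hM0 u hu⟩
  refine ⟨q, hq, ?_⟩
  have hpow : ∀ (n : ℕ) (m : M0), (((x0 ^ n) m : M0) : M) = (X 2 : S3 K) ^ n • (m : M) := by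
    intro n
    induction n with
    | zero => intro m; simp
    | succ n ih =>
      intro m
      rw [pow_succ', pow_succ', Module.End.mul_apply, mul_smul, ← ih m]
      rfl
  have hev : ∀ (f : Polynomial (MvPolynomial (Fin 2) K)) (m : M0),
      (((Polynomial.aeval x0 f) m : M0) : M) = Polynomial.eval₂
        ((rename (Fin.castSucc : Fin 2 → Fin 3) :
          MvPolynomial (Fin 2) K →ₐ[K] S3 K) : MvPolynomial (Fin 2) K →+* S3 K)
          (X 2 : S3 K) f • (m : M) := by
    intro f m
    induction f using Polynomial.induction_on' with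
    | add f g hf hg =>
      rw [map_add, LinearMap.add_apply, Submodule.coe_add, hf, hg, Polynomial.eval₂_add, add_smul]
    | monomial n a =>
      rw [Polynomial.aeval_monomial, Polynomial.eval₂_monomial, mul_smul, ← hpow n m]
      rfl
  rw [← hev g ⟨u, hM0 u hu⟩]
  have := congrArg Subtype.val hq2
  exact this

end KLFormAux

/-- In a graded module generated in degree `0` over `K[X 0, X 1]` whose Hilbert function
eventually grows by at most `k0` per step there is a form of degree at most `k0` which maps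
`gr 0` to torsion. -/
theorem kl_form {K M : Type*} [Field K] [AddCommGroup M] [Module K M] [Module (S3 K) M]
    [IsScalarTower K (S3 K) M] (gr : ℕ → Submodule K M) (hfin : ∀ j, Module.Finite K (gr j))
    (hind : iSupIndep gr)
    (hX : ∀ j i, ∀ u ∈ gr j, (X i : S3 K) • u ∈ gr (j+1))
    (hgen : ∀ j, ∀ u ∈ gr (j+1), ∃ v ∈ gr j, ∃ w ∈ gr j,
      u = (X 0 : S3 K) • v + (X 1 : S3 K) • w)
    (k0 j0 : ℕ) (hdim : ∀ j, j0 ≤ j → finrank K (gr (j+1)) ≤ finrank K (gr j) + k0) :
    ∃ k1 ≤ k0, ∃ F : S3 K, F.IsHomogeneous k1 ∧ F ≠ 0 ∧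
      ∀ v ∈ gr 0, ∃ q : MvPolynomial (Fin 2) K, q ≠ 0 ∧ iP q • (F • v) = 0 := by
  classical
  obtain ⟨g, hgm, hgd, hgT⟩ := klf_poly gr hfin hX hgen k0 j0 hdim
  set ρ : MvPolynomial (Fin 2) K →+* S3 K := ((rename (Fin.castSucc : Fin 2 → Fin 3) :
        MvPolynomial (Fin 2) K →ₐ[K] S3 K) : MvPolynomial (Fin 2) K →+* S3 K) with hρ
  set G : S3 K := Polynomial.eval₂ ρ (X 2 : S3 K) g with hG
  refine ⟨g.natDegree, hgd, homogeneousComponent g.natDegree G,
    homogeneousComponent_isHomogeneous _ _, ?_, fun v hv =>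
      klf_comp_T gr hind hX G v hv (hgT v hv) _⟩
  intro h0
  have h1 : coeff (Finsupp.single 2 g.natDegree) (homogeneousComponent g.natDegree G) = 0 := by
    rw [h0, coeff_zero]
  rw [coeff_homogeneousComponent, if_pos (by simp)] at h1
  rw [hG, Polynomial.eval₂_eq_sum_range, coeff_sum, Finset.sum_range_succ] at h1
  have h2 : ∀ i, coeff (Finsupp.single 2 g.natDegree) (ρ (g.coeff i) * (X 2 : S3 K) ^ i)
      = if i = g.natDegree then coeff 0 (g.coeff i) else 0 := by
    intro i
    rw [X_pow_eq_monomial, coeff_mul_monomial', mul_one]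
    by_cases hi : i ≤ g.natDegree
    · have hle : Finsupp.single (2 : Fin 3) i ≤ Finsupp.single 2 g.natDegree :=
        Finsupp.single_le_single.mpr hi
      rw [if_pos hle, ← Finsupp.single_tsub]
      by_cases hi2 : i = g.natDegree
      · rw [if_pos hi2, hi2, tsub_self, Finsupp.single_zero]
        have h5 := coeff_rename_mapDomain (R := K) (Fin.castSucc : Fin 2 → Fin 3)
          (Fin.castSucc_injective 2) (g.coeff g.natDegree) 0
        rw [Finsupp.mapDomain_zero] at h5
        exact h5
      · rw [if_neg hi2]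
        refine coeff_rename_eq_zero (Fin.castSucc : Fin 2 → Fin 3) _ _ ?_
        intro u hu
        exfalso
        have h6 := congrArg (fun m : Fin 3 →₀ ℕ => m 2) hu
        simp only [Finsupp.single_eq_same] at h6
        rw [Finsupp.mapDomain_of_notMem_range] at h6
        · omega
        · rintro ⟨a, ha⟩
          have := congrArg Fin.val ha
          simp at this
          omega
    · rw [if_neg, if_neg (by omega)]
      intro hle
      exact hi (Finsupp.single_le_single.mp hle)
  rw [Finset.sum_eq_zero] at h1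
  · rw [h2, if_pos rfl] at h1
    have h3 : g.coeff g.natDegree = 1 := hgm
    rw [h3] at h1
    simp at h1
  · intro i hi
    rw [Finset.mem_range] at hi
    rw [h2, if_neg (by omega)]

end Vale.Agent.P200
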