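import Vale.Agent.P200.Basic

namespace Vale.Agent.P200

open MvPolynomial Module

section kosz
variable {K : Type*} [Field K]

lemma klm_hc_succ_X_mul (i : Fin 3) (j : ℕ) (p : S3 K) :
    homogeneousComponent (j + 1) (X i * p) = X i * homogeneousComponent j p := by
  classical
  ext d
  rw [coeff_homogeneousComponent, coeff_X_mul', coeff_X_mul']
  by_cases hd : i ∈ d.support
  · rw [if_pos hd, if_pos hd, coeff_homogeneousComponent]
    have h1 : Finsupp.single i 1 ≤ d := by
      rw [Finsupp.single_le_iff]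
      exact Nat.one_le_iff_ne_zero.2 (Finsupp.mem_support_iff.1 hd)
    have h2 : d.degree = (d - Finsupp.single i 1).degree + 1 := by
      conv_lhs => rw [← tsub_add_cancel_of_le h1]
      rw [map_add, Finsupp.degree_single]
    by_cases h3 : d.degree = j + 1
    · rw [if_pos h3, if_pos (by omega)]
    · rw [if_neg h3, if_neg (by omega)]
  · rw [if_neg hd, if_neg hd, ite_self]

lemma klm_hc_zero_X_mul (i : Fin 3) (p : S3 K) :
    homogeneousComponent 0 (X i * p) = 0 := by
  rw [homogeneousComponent_zero, coeff_X_mul', if_neg (by simp), C_0]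

/-- a form of positive degree is a combination of the variables -/
lemma klm_split (j : ℕ) (p : S3 K) (hp : p ∈ homogeneousSubmodule (Fin 3) K (j + 1)) :
    ∃ q : Fin 3 → S3 K, (∀ i, q i ∈ homogeneousSubmodule (Fin 3) K j) ∧
      p = X 0 * q 0 + X 1 * q 1 + X 2 * q 2 := by
  classical
  let T : Submodule K (S3 K) :=
    { carrier := {p | ∃ q : Fin 3 → S3 K, (∀ i, q i ∈ homogeneousSubmodule (Fin 3) K j) ∧
        p = X 0 * q 0 + X 1 * q 1 + X 2 * q 2}
      add_mem' := by
        rintro a b ⟨q, hq, rfl⟩ ⟨r, hr, rfl⟩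
        exact ⟨q + r, fun i => Submodule.add_mem _ (hq i) (hr i), by
          simp only [Pi.add_apply]; ring⟩
      zero_mem' := ⟨0, fun i => Submodule.zero_mem _, by simp⟩
      smul_mem' := by
        rintro c a ⟨q, hq, rfl⟩
        exact ⟨c • q, fun i => Submodule.smul_mem _ _ (hq i), by
          simp only [Pi.smul_apply, smul_add, mul_smul_comm]⟩ }
  change p ∈ T
  rw [p.as_sum]
  refine Submodule.sum_mem _ fun d hd => ?_
  have hdeg : d.degree = j + 1 := by
    by_contra hne
    exact (mem_support_iff.1 hd) (((mem_homogeneousSubmodule _ _).1 hp).coeff_eq_zero hne)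
  have hd0 : d ≠ 0 := by
    rintro rfl
    simp at hdeg
  obtain ⟨i, hi⟩ := Finsupp.ne_iff.1 hd0
  have h1 : Finsupp.single i 1 ≤ d := by
    rw [Finsupp.single_le_iff]
    exact Nat.one_le_iff_ne_zero.2 hi
  have h2 : d.degree = (d - Finsupp.single i 1).degree + 1 := by
    conv_lhs => rw [← tsub_add_cancel_of_le h1]
    rw [map_add, Finsupp.degree_single]
  refine ⟨Function.update 0 i (monomial (d - Finsupp.single i 1) (coeff d p)), ?_, ?_⟩
  · intro i'
    by_cases hii : i' = i
    · subst hii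
      rw [Function.update_self, mem_homogeneousSubmodule]
      exact isHomogeneous_monomial _ (by omega)
    · rw [Function.update_of_ne hii]
      exact Submodule.zero_mem _
  · have h3 : (monomial d (coeff d p) : S3 K)
        = X i * monomial (d - Finsupp.single i 1) (coeff d p) := by
      rw [X, monomial_mul, one_mul, add_tsub_cancel_of_le h1]
    rw [h3]
    fin_cases i <;> simp

/-- first syzygies of the variables -/
lemma klm_kos0 (p0 p1 p2 : S3 K) (h : X 0 * p0 + X 1 * p1 + X 2 * p2 = 0) :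
    ∃ c01 c02 c12 : S3 K, p0 = X 1 * c01 + X 2 * c02 ∧ p1 = - (X 0 * c01) + X 2 * c12 ∧
      p2 = - (X 0 * c02) - X 1 * c12 := by
  classical
  set a := p2.divMonomial (Finsupp.single 0 1) with ha
  set b := p2.modMonomial (Finsupp.single 0 1) with hb
  have hab : p2 = X 0 * a + b := (divMonomial_add_modMonomial_single p2 0).symm
  set a' := b.divMonomial (Finsupp.single 1 1) with ha'
  set b' := b.modMonomial (Finsupp.single 1 1) with hb'
  have hab' : b = X 1 * a' + b' := (divMonomial_add_modMonomial_single b 1).symm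
  have hbz : b' = 0 := by
    ext d
    rw [coeff_zero]
    by_cases h1 : Finsupp.single 1 1 ≤ d
    · rw [hb', coeff_modMonomial_of_le _ h1]
    rw [hb', coeff_modMonomial_of_not_le _ h1]
    by_cases h0 : Finsupp.single 0 1 ≤ d
    · rw [hb, coeff_modMonomial_of_le _ h0]
    rw [hb, coeff_modMonomial_of_not_le _ h0]
    have h3 := congrArg (coeff (Finsupp.single 2 1 + d)) h
    have e0 : d 0 = 0 := by
      by_contra hne
      exact h0 (Finsupp.single_le_iff.2 (Nat.one_le_iff_ne_zero.2 hne))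
    have e1 : d 1 = 0 := by
      by_contra hne
      exact h1 (Finsupp.single_le_iff.2 (Nat.one_le_iff_ne_zero.2 hne))
    rw [coeff_add, coeff_add, coeff_X_mul', coeff_X_mul', coeff_X_mul, coeff_zero, if_neg,
      if_neg] at h3
    · simpa using h3
    · simp [e1]
    · simp [e0]
  rw [hbz, add_zero] at hab'
  rw [hab'] at hab
  have h4 : X 0 * (p0 + X 2 * a) = X 1 * (- (p1 + X 2 * a')) := by
    rw [hab] at h
    linear_combination h
  have h5 : (X 1 : S3 K) ∣ X 0 * (p0 + X 2 * a) := ⟨_, h4⟩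
  have h6 : (X 1 : S3 K) ∣ p0 + X 2 * a := by
    rcases X_dvd_mul_iff.1 h5 with h6 | h6
    · rw [X_dvd_X] at h6
      exact absurd h6 (by decide)
    · exact h6
  obtain ⟨c, hc⟩ := h6
  refine ⟨c, -a, -a', ?_, ?_, ?_⟩
  · linear_combination hc
  · rw [hc] at h4
    have h7 : (X 1 : S3 K) * (p1 + X 0 * c + X 2 * a') = 0 := by linear_combination h4
    rcases mul_eq_zero.1 h7 with h8 | h8
    · exact absurd h8 (X_ne_zero _)
    · linear_combination h8
  · linear_combination hab

/-- homogeneous version -/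
lemma klm_kos (j : ℕ) (p : Fin 3 → S3 K) (hp : ∀ i, p i ∈ homogeneousSubmodule (Fin 3) K (j + 1))
    (h : X 0 * p 0 + X 1 * p 1 + X 2 * p 2 = 0) :
    ∃ c01 ∈ homogeneousSubmodule (Fin 3) K j, ∃ c02 ∈ homogeneousSubmodule (Fin 3) K j,
      ∃ c12 ∈ homogeneousSubmodule (Fin 3) K j,
      p 0 = X 1 * c01 + X 2 * c02 ∧ p 1 = - (X 0 * c01) + X 2 * c12 ∧
      p 2 = - (X 0 * c02) - X 1 * c12 := by
  obtain ⟨c01, c02, c12, h0, h1, h2⟩ := klm_kos0 _ _ _ h
  have hh : ∀ i, homogeneousComponent (j + 1) (p i) = p i := fun i =>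
    homogeneousComponent_eq_self (hp i)
  refine ⟨homogeneousComponent j c01, homogeneousComponent_mem _ _,
    homogeneousComponent j c02, homogeneousComponent_mem _ _,
    homogeneousComponent j c12, homogeneousComponent_mem _ _, ?_, ?_, ?_⟩
  · rw [← hh 0, h0, map_add, klm_hc_succ_X_mul, klm_hc_succ_X_mul]
  · rw [← hh 1, h1, map_add, map_neg, klm_hc_succ_X_mul, klm_hc_succ_X_mul]
  · rw [← hh 2, h2, map_sub, map_neg, klm_hc_succ_X_mul, klm_hc_succ_X_mul]

end kosz


section mod
variable {K : Type*} [Field K]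

/-- vectors of forms of degree `j` -/
noncomputable def klmH (K : Type*) [Field K] (n j : ℕ) : Submodule K (Fin n → S3 K) :=
  Submodule.pi Set.univ fun _ => homogeneousSubmodule (Fin 3) K j

lemma mem_klmH {n j : ℕ} {g : Fin n → S3 K} :
    g ∈ klmH K n j ↔ ∀ s, g s ∈ homogeneousSubmodule (Fin 3) K j := by
  simp [klmH, Submodule.mem_pi]

/-- multiplication by a variable on vectors -/
noncomputable def klmX (K : Type*) [Field K] (n : ℕ) (i : Fin 3) :
    (Fin n → S3 K) →ₗ[K] (Fin n → S3 K) :=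
  LinearMap.pi fun s => (LinearMap.mulLeft K (X i : S3 K)) ∘ₗ LinearMap.proj s

lemma klmX_apply (n : ℕ) (i : Fin 3) (g : Fin n → S3 K) :
    klmX K n i g = (X i : S3 K) • g := by
  ext s; simp [klmX]

/-- coordinatewise homogeneous component -/
noncomputable def klmP (K : Type*) [Field K] (n j : ℕ) :
    (Fin n → S3 K) →ₗ[K] (Fin n → S3 K) :=
  LinearMap.pi fun s => (homogeneousComponent j) ∘ₗ LinearMap.proj s

lemma klmP_apply (n j : ℕ) (g : Fin n → S3 K) (s : Fin n) :
    klmP K n j g s = homogeneousComponent j (g s) := rfl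

lemma klmP_mem (n j : ℕ) (g : Fin n → S3 K) : klmP K n j g ∈ klmH K n j :=
  mem_klmH.2 fun _ => homogeneousComponent_mem _ _

lemma klmP_self {n j : ℕ} {g : Fin n → S3 K} (hg : g ∈ klmH K n j) : klmP K n j g = g := by
  funext s
  rw [klmP_apply]
  exact homogeneousComponent_eq_self (mem_klmH.1 hg s)

lemma klmP_other {n i j : ℕ} {g : Fin n → S3 K} (hg : g ∈ klmH K n j) (hij : i ≠ j) :
    klmP K n i g = 0 := by
  funext s
  rw [klmP_apply, homogeneousComponent_of_mem (mem_klmH.1 hg s), if_neg hij]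
  rfl

lemma klmP_succ_smul (n j : ℕ) (i : Fin 3) (g : Fin n → S3 K) :
    klmP K n (j + 1) ((X i : S3 K) • g) = (X i : S3 K) • klmP K n j g := by
  funext s
  rw [klmP_apply, Pi.smul_apply, Pi.smul_apply, smul_eq_mul, smul_eq_mul, klm_hc_succ_X_mul,
    klmP_apply]

lemma klmP_zero_smul (n : ℕ) (i : Fin 3) (g : Fin n → S3 K) :
    klmP K n 0 ((X i : S3 K) • g) = 0 := by
  funext s
  rw [klmP_apply, Pi.smul_apply, smul_eq_mul, klm_hc_zero_X_mul]
  rfl

lemma klmX_mem {n j : ℕ} {g : Fin n → S3 K} (i : Fin 3) (hg : g ∈ klmH K n j) :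
    (X i : S3 K) • g ∈ klmH K n (j + 1) := by
  refine mem_klmH.2 fun s => ?_
  rw [Pi.smul_apply, smul_eq_mul, mem_homogeneousSubmodule, add_comm]
  exact (isHomogeneous_X K i).mul (mem_klmH.1 hg s)

/-- graded pieces of the relation module generated by `R1` -/
noncomputable def klmR {n : ℕ} (R1 : Submodule K (Fin n → S3 K)) (j : ℕ) :
    Submodule K (Fin n → S3 K) :=
  Nat.rec ⊥ (fun j S => if j = 0 then R1 else ⨆ i, S.map (klmX K n i)) j

lemma klmR_zero {n : ℕ} (R1 : Submodule K (Fin n → S3 K)) : klmR R1 0 = ⊥ := rfl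

lemma klmR_one {n : ℕ} (R1 : Submodule K (Fin n → S3 K)) : klmR R1 1 = R1 := by
  simp [klmR]

lemma klmR_add_two {n : ℕ} (R1 : Submodule K (Fin n → S3 K)) (j : ℕ) :
    klmR R1 (j + 2) = ⨆ i, (klmR R1 (j + 1)).map (klmX K n i) := by
  simp [klmR]

lemma klmR_smul {n : ℕ} (R1 : Submodule K (Fin n → S3 K)) (j : ℕ) (i : Fin 3)
    (g : Fin n → S3 K) (hg : g ∈ klmR R1 j) : (X i : S3 K) • g ∈ klmR R1 (j + 1) := by
  cases j with
  | zero =>
    rw [klmR_zero, Submodule.mem_bot] at hg
    rw [hg, smul_zero]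
    exact Submodule.zero_mem _
  | succ j =>
    rw [klmR_add_two]
    refine Submodule.mem_iSup_of_mem i ?_
    exact ⟨g, hg, klmX_apply _ _ _⟩

lemma klmR_le_H {n : ℕ} (R1 : Submodule K (Fin n → S3 K)) (h1 : R1 ≤ klmH K n 1) (j : ℕ) :
    klmR R1 j ≤ klmH K n j := by
  induction j with
  | zero => rw [klmR_zero]; exact bot_le
  | succ j ih =>
    cases j with
    | zero => rw [klmR_one]; exact h1
    | succ j =>
      rw [klmR_add_two]
      refine iSup_le fun i => ?_
      rintro _ ⟨g, hg, rfl⟩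
      rw [klmX_apply]
      exact klmX_mem i (ih hg)

lemma klmR_le_span {n : ℕ} (R1 : Submodule K (Fin n → S3 K)) (j : ℕ) (g : Fin n → S3 K)
    (hg : g ∈ klmR R1 j) : g ∈ Submodule.span (S3 K) (R1 : Set (Fin n → S3 K)) := by
  suffices h : klmR R1 j ≤
      (Submodule.span (S3 K) (R1 : Set (Fin n → S3 K))).restrictScalars K from h hg
  clear hg g
  induction j with
  | zero => rw [klmR_zero]; exact bot_le
  | succ j ih =>
    cases j with
    | zero => rw [klmR_one]; exact fun g hg => Submodule.subset_span hg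
    | succ j =>
      rw [klmR_add_two]
      refine iSup_le fun i => ?_
      rintro _ ⟨g, hg, rfl⟩
      rw [klmX_apply]
      exact Submodule.smul_mem (Submodule.span (S3 K) (R1 : Set (Fin n → S3 K))) _ (ih hg)

/-- the relation module is graded -/
lemma klmP_mem_R {n : ℕ} (R1 : Submodule K (Fin n → S3 K)) (h1 : R1 ≤ klmH K n 1)
    (g : Fin n → S3 K) (hg : g ∈ Submodule.span (S3 K) (R1 : Set (Fin n → S3 K))) :
    ∀ j, klmP K n j g ∈ klmR R1 j := by
  induction hg using Submodule.span_induction with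
  | mem x hx =>
    intro j
    by_cases hj : j = 1
    · subst hj
      rw [klmR_one, klmP_self (h1 hx)]
      exact hx
    · rw [klmP_other (h1 hx) hj]
      exact Submodule.zero_mem _
  | zero => intro j; rw [map_zero]; exact Submodule.zero_mem _
  | add x y _ _ hx hy => intro j; rw [map_add]; exact Submodule.add_mem _ (hx j) (hy j)
  | smul p x _ hx =>
    induction p using MvPolynomial.induction_on generalizing x with
    | C a =>
      intro j
      have h2 : (C a : S3 K) • x = a • x := by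
        rw [← algebraMap_eq, algebraMap_smul]
      rw [h2, map_smul]
      exact Submodule.smul_mem _ _ (hx j)
    | add p q hp hq =>
      intro j
      rw [add_smul, map_add]
      exact Submodule.add_mem _ (hp x ‹_› hx j) (hq x ‹_› hx j)
    | mul_X p i hp =>
      intro j
      rw [mul_comm, mul_smul]
      cases j with
      | zero => rw [klmP_zero_smul]; exact Submodule.zero_mem _
      | succ j => rw [klmP_succ_smul]; exact klmR_smul _ _ _ _ (hp x ‹_› hx j)

end mod


section ev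
variable {K A : Type*} [Field K] [CommRing A] [Algebra K A]

/-- evaluation of vectors of polynomials -/
noncomputable def klmE {n : ℕ} (y : Fin 3 → A) (v : Fin n → A) : (Fin n → S3 K) →ₗ[K] A :=
  ∑ s, (LinearMap.mulRight K (v s)) ∘ₗ (aeval y : S3 K →ₐ[K] A).toLinearMap ∘ₗ LinearMap.proj s

lemma klmE_apply {n : ℕ} (y : Fin 3 → A) (v : Fin n → A) (g : Fin n → S3 K) :
    klmE y v g = ∑ s, aeval y (g s) * v s := by
  simp [klmE, LinearMap.sum_apply]

lemma klmE_smul {n : ℕ} (y : Fin 3 → A) (v : Fin n → A) (p : S3 K) (g : Fin n → S3 K) :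
    klmE y v (p • g) = aeval y p * klmE y v g := by
  rw [klmE_apply, klmE_apply, Finset.mul_sum]
  refine Finset.sum_congr rfl fun s _ => ?_
  rw [Pi.smul_apply, smul_eq_mul, map_mul, mul_assoc]

end ev

/-- The linearly presented module attached to a finite-dimensional subspace `V` of an algebra. -/
theorem kl_module {K : Type*} {A : Type*} [Field K] [CommRing A] [Algebra K A] (y : Fin 3 → A)
    (V : Submodule K A) [Module.Finite K V] :
    ∃ (n : ℕ) (R : Submodule (S3 K) (Fin n → S3 K)) (gr : ℕ → Submodule K ((Fin n → S3 K) ⧸ R))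
      (π : ((Fin n → S3 K) ⧸ R) →ₗ[K] A),
      (∀ (g : S3 K) (u : (Fin n → S3 K) ⧸ R), π (g • u) = aeval y g * π u) ∧
      (∀ j, Module.Finite K (gr j)) ∧
      iSupIndep gr ∧
      (∀ j i, ∀ u ∈ gr j, (X i : S3 K) • u ∈ gr (j+1)) ∧
      (∀ j, ∀ u ∈ gr (j+1), ∃ v0 ∈ gr j, ∃ v1 ∈ gr j, ∃ v2 ∈ gr j,
        u = (X 0 : S3 K) • v0 + (X 1 : S3 K) • v1 + (X 2 : S3 K) • v2) ∧
      (∀ j, ∀ u0 ∈ gr (j+1), ∀ u1 ∈ gr (j+1), ∀ u2 ∈ gr (j+1),
        (X 0 : S3 K) • u0 + (X 1 : S3 K) • u1 + (X 2 : S3 K) • u2 = 0 →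
        ∃ c01 ∈ gr j, ∃ c02 ∈ gr j, ∃ c12 ∈ gr j,
          u0 = (X 1 : S3 K) • c01 + (X 2 : S3 K) • c02 ∧
          u1 = - ((X 0 : S3 K) • c01) + (X 2 : S3 K) • c12 ∧
          u2 = - ((X 0 : S3 K) • c02) - (X 1 : S3 K) • c12) ∧
      (gr 0).map π = V ∧
      (∀ u ∈ gr 0, π u = 0 → u = 0) ∧ (∀ u ∈ gr 1, π u = 0 → u = 0) := by
  classical
  set n := finrank K V with hn
  let b : Module.Basis (Fin n) K V := Module.finBasis K V
  let v : Fin n → A := fun s => (b s : A)
  let R1 : Submodule K (Fin n → S3 K) := klmH K n 1 ⊓ LinearMap.ker (klmE y v)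
  have hR1H : R1 ≤ klmH K n 1 := inf_le_left
  let R : Submodule (S3 K) (Fin n → S3 K) := Submodule.span (S3 K) (R1 : Set (Fin n → S3 K))
  have hR1R : ∀ g ∈ R1, g ∈ R := fun g hg => Submodule.subset_span hg
  have hRE : ∀ r ∈ R, klmE y v r = 0 := by
    intro r hr
    induction hr using Submodule.span_induction with
    | mem x hx => exact hx.2
    | zero => exact map_zero _
    | add x z _ _ hx hz => rw [map_add, hx, hz, add_zero]
    | smul p x _ hx => rw [klmE_smul, hx, mul_zero]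
  have hRP : ∀ r ∈ R, ∀ j, klmP K n j r ∈ klmR R1 j := fun r hr => klmP_mem_R R1 hR1H r hr
  let mk : (Fin n → S3 K) →ₗ[K] ((Fin n → S3 K) ⧸ R) := R.mkQ.restrictScalars K
  have hmk0 : ∀ g, mk g = 0 ↔ g ∈ R := fun g => Submodule.Quotient.mk_eq_zero R
  have hmks : ∀ (p : S3 K) (g : Fin n → S3 K), mk (p • g) = p • mk g := fun p g =>
    R.mkQ.map_smul p g
  have hmksurj : Function.Surjective mk := R.mkQ_surjective
  have hRle : R.restrictScalars K ≤ LinearMap.ker (klmE y v) := fun r hr => hRE r hr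
  let π : ((Fin n → S3 K) ⧸ R) →ₗ[K] A :=
    ((R.restrictScalars K).liftQ (klmE y v) hRle) ∘ₗ
      (Submodule.Quotient.restrictScalarsEquiv K R).symm.toLinearMap
  have hπ : ∀ g, π (mk g) = klmE y v g := fun g => rfl
  let gr : ℕ → Submodule K ((Fin n → S3 K) ⧸ R) := fun j => (klmH K n j).map mk
  have hgr : ∀ j u, u ∈ gr j ↔ ∃ g ∈ klmH K n j, mk g = u := fun j u => Iff.rfl
  -- the induced projections
  have hPle : ∀ j, R.restrictScalars K ≤
      (R.restrictScalars K).comap (klmP K n j) := fun j r hr =>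
    klmR_le_span R1 j _ (hRP r hr j)
  let pq : ℕ → ((Fin n → S3 K) ⧸ R) →ₗ[K] ((Fin n → S3 K) ⧸ R) := fun j =>
    (Submodule.Quotient.restrictScalarsEquiv K R).toLinearMap ∘ₗ
      ((R.restrictScalars K).mapQ (R.restrictScalars K) (klmP K n j) (hPle j)) ∘ₗ
        (Submodule.Quotient.restrictScalarsEquiv K R).symm.toLinearMap
  have hpq : ∀ j g, pq j (mk g) = mk (klmP K n j g) := fun j g => rfl
  refine ⟨n, R, gr, π, ?_, ?_, ?_, ?_, ?_, ?_, ?_, ?_, ?_⟩
  · intro g u
    obtain ⟨w, rfl⟩ := hmksurj u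
    rw [← hmks, hπ, hπ, klmE_smul]
  · intro j
    have hfin : Module.Finite K (homogeneousSubmodule (Fin 3) K j) :=
      Module.Finite.iff_fg.2 (homogeneousSubmodule_fg (Fin 3) K j)
    let f : (Fin n → homogeneousSubmodule (Fin 3) K j) →ₗ[K] (Fin n → S3 K) :=
      LinearMap.pi fun s => (homogeneousSubmodule (Fin 3) K j).subtype ∘ₗ LinearMap.proj s
    have hf : gr j = LinearMap.range (mk ∘ₗ f) := by
      ext u
      constructor
      · rintro ⟨g, hg, rfl⟩
        exact ⟨fun s => ⟨g s, mem_klmH.1 hg s⟩, rfl⟩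
      · rintro ⟨g, rfl⟩
        exact ⟨f g, mem_klmH.2 fun s => (g s).2, rfl⟩
    rw [hf]
    infer_instance
  · rw [iSupIndep_def]
    intro i
    rw [Submodule.disjoint_def]
    intro x hx hx2
    have h1 : pq i x = x := by
      obtain ⟨g, hg, rfl⟩ := hx
      rw [hpq, klmP_self hg]
    have h2 : (⨆ j, ⨆ (_ : j ≠ i), gr j) ≤ LinearMap.ker (pq i) := by
      refine iSup_le fun j => iSup_le fun hj => ?_
      rintro _ ⟨g, hg, rfl⟩
      rw [LinearMap.mem_ker, hpq, klmP_other hg (Ne.symm hj), map_zero]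
    rw [← h1]
    exact h2 hx2
  · rintro j i _ ⟨g, hg, rfl⟩
    exact ⟨(X i : S3 K) • g, klmX_mem i hg, hmks _ _⟩
  · rintro j _ ⟨g, hg, rfl⟩
    have h1 := fun s => klm_split j (g s) (mem_klmH.1 hg s)
    choose q hq hq2 using h1
    have hmem : ∀ i : Fin 3, (fun s => q s i) ∈ klmH K n j := fun i =>
      mem_klmH.2 fun s => hq s i
    refine ⟨_, ⟨_, hmem 0, rfl⟩, _, ⟨_, hmem 1, rfl⟩, _, ⟨_, hmem 2, rfl⟩, ?_⟩
    rw [← hmks, ← hmks, ← hmks, ← map_add, ← map_add]
    congr 1
    funext s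
    exact hq2 s
  · rintro j _ ⟨g0, hg0, rfl⟩ _ ⟨g1, hg1, rfl⟩ _ ⟨g2, hg2, rfl⟩ h
    rw [← hmks, ← hmks, ← hmks, ← map_add, ← map_add, hmk0] at h
    have h1 := hRP _ h (j + 2)
    have hH : (X 0 : S3 K) • g0 + (X 1 : S3 K) • g1 + (X 2 : S3 K) • g2 ∈ klmH K n (j + 1 + 1) :=
      Submodule.add_mem _ (Submodule.add_mem _ (klmX_mem 0 hg0) (klmX_mem 1 hg1))
        (klmX_mem 2 hg2)
    rw [klmP_self hH, klmR_add_two] at h1
    have h2 : ∃ r : Fin 3 → (Fin n → S3 K), (∀ i, r i ∈ klmR R1 (j + 1)) ∧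
        (X 0 : S3 K) • g0 + (X 1 : S3 K) • g1 + (X 2 : S3 K) • g2 =
        (X 0 : S3 K) • r 0 + (X 1 : S3 K) • r 1 + (X 2 : S3 K) • r 2 := by
      rw [Submodule.mem_iSup_iff_exists_finsupp] at h1
      obtain ⟨f, hf, hs⟩ := h1
      choose r hr hr2 using hf
      refine ⟨r, hr, ?_⟩
      rw [← hs, Finsupp.sum_fintype _ _ (fun _ => rfl), Fin.sum_univ_three, ← hr2, ← hr2, ← hr2,
        klmX_apply, klmX_apply, klmX_apply]
    obtain ⟨r, hr, hrs⟩ := h2
    have hrH : ∀ i, r i ∈ klmH K n (j + 1) := fun i => klmR_le_H R1 hR1H _ (hr i)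
    have hrR : ∀ i, mk (r i) = 0 := fun i => (hmk0 _).2 (klmR_le_span R1 _ _ (hr i))
    have h3 : ∀ s, ∃ c : Fin 3 → S3 K, (∀ i, c i ∈ homogeneousSubmodule (Fin 3) K j) ∧
        (g0 - r 0) s = X 1 * c 0 + X 2 * c 1 ∧ (g1 - r 1) s = - (X 0 * c 0) + X 2 * c 2 ∧
        (g2 - r 2) s = - (X 0 * c 1) - X 1 * c 2 := by
      intro s
      obtain ⟨c01, h01, c02, h02, c12, h12, e0, e1, e2⟩ :=
        klm_kos j ![(g0 - r 0) s, (g1 - r 1) s, (g2 - r 2) s] (by
          intro i
          fin_cases i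
          · exact mem_klmH.1 (Submodule.sub_mem _ hg0 (hrH 0)) s
          · exact mem_klmH.1 (Submodule.sub_mem _ hg1 (hrH 1)) s
          · exact mem_klmH.1 (Submodule.sub_mem _ hg2 (hrH 2)) s) (by
          have h4 := congrFun hrs s
          simp only [Pi.add_apply, Pi.smul_apply, smul_eq_mul, Pi.sub_apply,
            Matrix.cons_val_zero, Matrix.cons_val_one, Matrix.cons_val] at h4 ⊢
          linear_combination h4)
      refine ⟨![c01, c02, c12], ?_, e0, e1, e2⟩
      intro i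
      fin_cases i
      · exact h01
      · exact h02
      · exact h12
    choose c hc e0 e1 e2 using h3
    have hmem : ∀ i : Fin 3, (fun s => c s i) ∈ klmH K n j := fun i =>
      mem_klmH.2 fun s => hc s i
    refine ⟨_, ⟨_, hmem 0, rfl⟩, _, ⟨_, hmem 1, rfl⟩, _, ⟨_, hmem 2, rfl⟩, ?_, ?_, ?_⟩
    · rw [← hmks, ← hmks, ← map_add]
      have h5 : mk g0 = mk (g0 - r 0) := by rw [map_sub, hrR, sub_zero]
      rw [h5]
      congr 1
      funext s
      exact e0 s
    · rw [← hmks, ← hmks, ← map_neg, ← map_add]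
      have h5 : mk g1 = mk (g1 - r 1) := by rw [map_sub, hrR, sub_zero]
      rw [h5]
      congr 1
      funext s
      exact e1 s
    · rw [← hmks, ← hmks, ← map_neg, ← map_sub]
      have h5 : mk g2 = mk (g2 - r 2) := by rw [map_sub, hrR, sub_zero]
      rw [h5]
      congr 1
      funext s
      exact e2 s
  · have hconst : ∀ g ∈ klmH K n 0, ∃ a : Fin n → K, ∀ s, g s = C (a s) := by
      intro g hg
      refine ⟨fun s => coeff 0 (g s), fun s => ?_⟩
      have h1 := homogeneousComponent_eq_self (mem_klmH.1 hg s)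
      rw [homogeneousComponent_zero] at h1
      exact h1.symm
    ext z
    constructor
    · rintro ⟨_, ⟨g, hg, rfl⟩, rfl⟩
      obtain ⟨a, ha⟩ := hconst g hg
      rw [hπ, klmE_apply]
      refine Submodule.sum_mem _ fun s _ => ?_
      rw [ha, ← algebraMap_eq, AlgHom.commutes, ← Algebra.smul_def]
      exact Submodule.smul_mem _ _ (b s).2
    · intro hz
      refine ⟨mk (fun s => C (b.repr ⟨z, hz⟩ s)), ⟨_, mem_klmH.2 fun s => isHomogeneous_C _ _, rfl⟩,
        ?_⟩
      rw [hπ, klmE_apply]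
      have h1 := b.sum_repr ⟨z, hz⟩
      have h2 := congrArg (V.subtype) h1
      rw [map_sum] at h2
      simp only [map_smul] at h2
      refine Eq.trans (Finset.sum_congr rfl fun s _ => ?_) h2
      rw [← algebraMap_eq, AlgHom.commutes, ← Algebra.smul_def]
      rfl
  · rintro _ ⟨g, hg, rfl⟩ h
    have h0 : ∀ s, g s = C (coeff 0 (g s)) := fun s => by
      have h1 := homogeneousComponent_eq_self (mem_klmH.1 hg s)
      rw [homogeneousComponent_zero] at h1
      exact h1.symm
    rw [hπ, klmE_apply] at h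
    have h2 : ∑ s, (coeff 0 (g s)) • b s = 0 := by
      apply V.injective_subtype
      rw [map_sum, map_zero, ← h]
      refine Finset.sum_congr rfl fun s _ => ?_
      rw [h0 s, map_smul, ← algebraMap_eq, AlgHom.commutes, ← Algebra.smul_def, algebraMap_eq,
        coeff_C, if_pos rfl]
      rfl
    have h3 := Fintype.linearIndependent_iff.1 b.linearIndependent _ h2
    have h4 : g = 0 := by
      funext s
      rw [h0 s, h3 s, C_0]
      rfl
    rw [h4, map_zero]
  · rintro _ ⟨g, hg, rfl⟩ h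
    rw [hmk0]
    exact hR1R _ ⟨hg, h⟩

end Vale.Agent.P200
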