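import Mathlib

namespace Vale.Agent.P200

open Module

/-- dimension splitting along a linear map -/
theorem kls_split {K M N : Type*} [Field K] [AddCommGroup M] [Module K M] [AddCommGroup N]
    [Module K N] (f : M →ₗ[K] N) (U : Submodule K M) [Module.Finite K U] :
    finrank K (U.map f) + finrank K (↥(U ⊓ LinearMap.ker f)) = finrank K U := by
  have h := LinearMap.finrank_range_add_finrank_ker (f.domRestrict U)
  have h1 : LinearMap.range (f.domRestrict U) = U.map f := by
    rw [LinearMap.domRestrict, LinearMap.range_comp, Submodule.range_subtype]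
  have h2 : finrank K (LinearMap.ker (f.domRestrict U)) = finrank K (↥(U ⊓ LinearMap.ker f)) := by
    rw [LinearMap.ker_domRestrict]
    have : (U ⊓ LinearMap.ker f) = (Submodule.comap U.subtype (LinearMap.ker f)).map U.subtype := by
      rw [Submodule.map_comap_subtype]
    rw [this, Submodule.finrank_map_subtype_eq]
  rw [h1, h2] at h
  exact h

section
variable {K M : Type*} [Field K] [AddCommGroup M] [Module K M]

/-- splitting a graded piece: `U` maps under `f` (mod `L'`) onto `V` (mod `L'`). -/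
theorem kls_exact (f : Module.End K M) (U V L' : Submodule K M) [Module.Finite K U]
    [Module.Finite K V] (hLV : L' ≤ V) (h1 : ∀ u ∈ U, f u ∈ V)
    (h2 : ∀ v ∈ V, ∃ u ∈ U, ∃ w ∈ L', v = w + f u) :
    finrank K U + finrank K L' = finrank K (↥(U ⊓ L'.comap f)) + finrank K V := by
  have a := kls_split (L'.mkQ ∘ₗ f) U
  have b := kls_split L'.mkQ V
  have c : LinearMap.ker (L'.mkQ ∘ₗ f) = L'.comap f := by
    rw [LinearMap.ker_comp, Submodule.ker_mkQ]
  have d : U.map (L'.mkQ ∘ₗ f) = V.map L'.mkQ := by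
    ext y
    simp only [Submodule.mem_map, LinearMap.comp_apply]
    constructor
    · rintro ⟨u, hu, rfl⟩
      exact ⟨f u, h1 u hu, rfl⟩
    · rintro ⟨v, hv, rfl⟩
      obtain ⟨u, hu, w, hw, rfl⟩ := h2 v hv
      refine ⟨u, hu, ?_⟩
      rw [map_add, (Submodule.Quotient.mk_eq_zero L').mpr hw |> fun h => (by simpa using h : L'.mkQ w = 0), zero_add]
  have e : V ⊓ LinearMap.ker L'.mkQ = L' := by
    rw [Submodule.ker_mkQ]; exact inf_eq_right.mpr hLV
  rw [c, d] at a
  rw [e] at b
  omega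

/-- dimension of the kernel of `l` in degree `j+1` -/
theorem kls_ker (l m x : Module.End K M) (hlm : ∀ u, l (m u) = m (l u))
    (hlx : ∀ u, l (x u) = x (l u)) (hmx : ∀ u, m (x u) = x (m u))
    (G0 G1 G2 : Submodule K M) [Module.Finite K G0] [Module.Finite K G1] [Module.Finite K G2]
    (hl : ∀ u ∈ G0, l u ∈ G1) (hm : ∀ u ∈ G0, m u ∈ G1) (hx : ∀ u ∈ G0, x u ∈ G1)
    (hkos : ∀ u0 ∈ G2, ∀ u1 ∈ G2, ∀ u2 ∈ G2, l u0 + m u1 + x u2 = 0 →
      ∃ c01 ∈ G1, ∃ c02 ∈ G1, ∃ c12 ∈ G1,
        u0 = m c01 + x c02 ∧ u1 = - l c01 + x c12 ∧ u2 = - l c02 - m c12)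
    (hinj : ∀ u ∈ G1, l u = 0 → u = 0) :
    finrank K (↥(G2 ⊓ LinearMap.ker l)) + finrank K (G0.map l) ≤
      finrank K (↥(G1 ⊓ (G1.map l).comap m ⊓ (G1.map l).comap x)) := by
  classical
  set S : Submodule K M := G1 ⊓ (G1.map l).comap m ⊓ (G1.map l).comap x with hS
  have hSfin : Module.Finite K S :=
    Submodule.finiteDimensional_of_le (le_trans inf_le_left inf_le_left : S ≤ G1)
  -- inverse of `l` on `G1.map l`
  have hinj' : Function.Injective (l.domRestrict G1) := by
    rw [← LinearMap.ker_eq_bot, LinearMap.ker_eq_bot']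
    rintro ⟨u, hu⟩ h
    have := hinj u hu h
    exact Subtype.ext this
  let e := LinearEquiv.ofInjective (l.domRestrict G1) hinj'
  have hr : LinearMap.range (l.domRestrict G1) = G1.map l := by
    rw [LinearMap.domRestrict, LinearMap.range_comp, Submodule.range_subtype]
  have hm' : ∀ c : S, m c ∈ LinearMap.range (l.domRestrict G1) := by
    rintro ⟨c, hc⟩
    rw [hr]; exact hc.1.2
  have hx' : ∀ c : S, x c ∈ LinearMap.range (l.domRestrict G1) := by
    rintro ⟨c, hc⟩
    rw [hr]; exact hc.2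
  let fm : S →ₗ[K] LinearMap.range (l.domRestrict G1) :=
    LinearMap.codRestrict _ (m ∘ₗ S.subtype) hm'
  let fx : S →ₗ[K] LinearMap.range (l.domRestrict G1) :=
    LinearMap.codRestrict _ (x ∘ₗ S.subtype) hx'
  let φ : S →ₗ[K] M := m ∘ₗ G1.subtype ∘ₗ e.symm.toLinearMap ∘ₗ fx -
    x ∘ₗ G1.subtype ∘ₗ e.symm.toLinearMap ∘ₗ fm
  -- key property of `e.symm`
  have key : ∀ (y : LinearMap.range (l.domRestrict G1)) (d : M) (hd : d ∈ G1), l d = y →
      (e.symm y : M) = d := by
    intro y d hd h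
    have : y = e ⟨d, hd⟩ := by
      apply Subtype.ext
      rw [LinearEquiv.ofInjective_apply]
      exact h.symm
    rw [this, LinearEquiv.symm_apply_apply]
  have hφ : ∀ (c : S) (p q : M), p ∈ G1 → q ∈ G1 → l p = x c → l q = m c →
      φ c = m p - x q := by
    intro c p q hp hq h1 h2
    have a : (e.symm (fx c) : M) = p := key _ p hp h1
    have b : (e.symm (fm c) : M) = q := key _ q hq h2
    show m (e.symm (fx c) : M) - x (e.symm (fm c) : M) = _
    rw [a, b]
  have h := LinearMap.finrank_range_add_finrank_ker φ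
  have h1 : G2 ⊓ LinearMap.ker l ≤ LinearMap.range φ := by
    rintro u ⟨hu, hlu⟩
    have hlu' : l u = 0 := hlu
    obtain ⟨c01, h01, c02, h02, c12, h12, e0, e1, e2⟩ := hkos u hu 0 G2.zero_mem 0 G2.zero_mem
      (by rw [hlu', map_zero, map_zero, add_zero, add_zero])
    have e1' : l c01 = x c12 := by
      rw [eq_comm, neg_add_eq_zero] at e1; exact e1
    have e2' : l (-c02) = m c12 := by
      rw [map_neg]
      rw [eq_comm, sub_eq_zero] at e2; exact e2
    have hc : c12 ∈ S := ⟨⟨h12, -c02, G1.neg_mem h02, e2'⟩, c01, h01, e1'⟩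
    refine ⟨⟨c12, hc⟩, ?_⟩
    rw [hφ ⟨c12, hc⟩ c01 (-c02) h01 (G1.neg_mem h02) e1' e2', e0, map_neg, sub_neg_eq_add]
  have h2 : (G0.map l) ≤ (LinearMap.ker φ).map S.subtype := by
    rintro _ ⟨d, hd, rfl⟩
    have hc : l d ∈ S := ⟨⟨hl d hd, m d, hm d hd, hlm d⟩, x d, hx d hd, hlx d⟩
    refine ⟨⟨l d, hc⟩, ?_, rfl⟩
    show φ ⟨l d, hc⟩ = 0
    rw [hφ ⟨l d, hc⟩ (x d) (m d) (hx d hd) (hm d hd) (hlx d) (hlm d), hmx, sub_self]
  have h3 : finrank K (↥(G2 ⊓ LinearMap.ker l)) ≤ finrank K (LinearMap.range φ) :=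
    Submodule.finrank_mono h1
  have h4 : finrank K (G0.map l) ≤ finrank K (LinearMap.ker φ) := by
    have := Submodule.finrank_mono h2
    rwa [Submodule.finrank_map_subtype_eq] at this
  omega

end

/-- Structure lemma.  `M` is a space with three commuting operators `l, m, x`, graded pieces
`gr j`, generated over `l, m` by `gr 0`, with Koszul exactness in the middle. -/
theorem kl_struct {K M : Type*} [Field K] [AddCommGroup M] [Module K M]
    (l m x : Module.End K M) (hlm : ∀ u, l (m u) = m (l u)) (hlx : ∀ u, l (x u) = x (l u))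
    (hmx : ∀ u, m (x u) = x (m u))
    (gr : ℕ → Submodule K M) (hfin : ∀ j, Module.Finite K (gr j))
    (hl : ∀ j, ∀ u ∈ gr j, l u ∈ gr (j+1)) (hm : ∀ j, ∀ u ∈ gr j, m u ∈ gr (j+1))
    (hx : ∀ j, ∀ u ∈ gr j, x u ∈ gr (j+1))
    (hgen : ∀ j, ∀ u ∈ gr (j+1), ∃ v ∈ gr j, ∃ w ∈ gr j, u = l v + m w)
    (hkos : ∀ j, ∀ u0 ∈ gr (j+1), ∀ u1 ∈ gr (j+1), ∀ u2 ∈ gr (j+1), l u0 + m u1 + x u2 = 0 →
      ∃ c01 ∈ gr j, ∃ c02 ∈ gr j, ∃ c12 ∈ gr j,
        u0 = m c01 + x c02 ∧ u1 = - l c01 + x c12 ∧ u2 = - l c02 - m c12)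
    (hinj0 : ∀ u ∈ gr 0, l u = 0 → u = 0) (hinj1 : ∀ u ∈ gr 1, l u = 0 → u = 0)
    (k : ℕ) (hk : finrank K (gr 1) = finrank K (gr 0) + k)
    (hk2 : finrank K (gr 1) + k ≤ finrank K (gr 2) + 1) :
    ∃ r ≤ k, (∀ j ≤ r, ∀ u ∈ gr j, l u = 0 → u = 0) ∧
      finrank K (↥(gr (r+1) ⊓ LinearMap.ker l)) ≤ 1 ∧
      (∀ j, r ≤ j → finrank K (gr (j+1)) ≤ finrank K (gr j) + (k - r)) ∧
      (∀ j, r ≤ j → ∀ u ∈ gr (j+1), (∃ v ∈ gr (j+1), m u = l v) → ∃ w ∈ gr j, u = l w) := by
  classical
  have := hfin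
  let L : ℕ → Submodule K M := fun j => (gr j).map l
  let Z : ℕ → Submodule K M := fun j => gr (j+1) ⊓ (L (j+1)).comap m
  let S : ℕ → Submodule K M := fun j => Z j ⊓ (L (j+1)).comap x
  have hLgr : ∀ j, L j ≤ gr (j+1) := by
    rintro j _ ⟨v, hv, rfl⟩; exact hl j v hv
  have hLS : ∀ j, L j ≤ S j := by
    rintro j _ ⟨v, hv, rfl⟩
    exact ⟨⟨hl j v hv, m v, hm j v hv, hlm v⟩, x v, hx j v hv, hlx v⟩
  have hSZ : ∀ j, S j ≤ Z j := fun j => inf_le_left
  have hZgr : ∀ j, Z j ≤ gr (j+1) := fun j => inf_le_left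
  have hZfin : ∀ j, Module.Finite K (Z j) := fun j =>
    Submodule.finiteDimensional_of_le (hZgr j)
  have hSfin : ∀ j, Module.Finite K (S j) := fun j =>
    Submodule.finiteDimensional_of_le ((hSZ j).trans (hZgr j))
  have hLfin : ∀ j, Module.Finite K (L j) := fun j =>
    Submodule.finiteDimensional_of_le (hLgr j)
  have F1 : ∀ j, finrank K (gr (j+1)) + finrank K (L (j+1)) =
      finrank K (Z j) + finrank K (gr (j+2)) := by
    intro j
    refine kls_exact m (gr (j+1)) (gr (j+2)) (L (j+1)) (hLgr (j+1)) (hm (j+1)) ?_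
    intro v hv
    obtain ⟨a, ha, b, hb, rfl⟩ := hgen (j+1) v hv
    exact ⟨b, hb, l a, ⟨a, ha, rfl⟩, rfl⟩
  have F2 : ∀ j, finrank K (Z j) + finrank K (L (j+1)) =
      finrank K (S j) + finrank K (Z (j+1)) := by
    intro j
    refine kls_exact x (Z j) (Z (j+1)) (L (j+1)) ((hLS (j+1)).trans (hSZ (j+1))) ?_ ?_
    · rintro u ⟨hu, w, hw, hw'⟩
      refine ⟨hx (j+1) u hu, x w, hx (j+1) w hw, ?_⟩
      show l (x w) = m (x u)
      rw [hmx, ← hw', hlx]
    · rintro v ⟨hv, w, hw, hw'⟩
      obtain ⟨c01, h01, c02, h02, c12, h12, e0, e1, e2⟩ := hkos (j+1) (-w) ((gr (j+2)).neg_mem hw) v hv 0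
        (gr (j+2)).zero_mem (by rw [map_neg, hw', map_zero, add_zero, neg_add_cancel])
      refine ⟨c12, ⟨h12, -c02, (gr (j+1)).neg_mem h02, ?_⟩, - l c01, ?_, e1⟩
      · rw [map_neg]
        rw [eq_comm, sub_eq_zero] at e2; exact e2
      · exact (L (j+1)).neg_mem ⟨c01, h01, rfl⟩
  have ML : ∀ j, finrank K (L j) ≤ finrank K (S j) := fun j => Submodule.finrank_mono (hLS j)
  have MS : ∀ j, finrank K (S j) ≤ finrank K (Z j) := fun j => Submodule.finrank_mono (hSZ j)
  have MZ : ∀ j, finrank K (Z j) ≤ finrank K (gr (j+1)) := fun j =>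
    Submodule.finrank_mono (hZgr j)
  have ML' : ∀ j, finrank K (L j) ≤ finrank K (gr j) := fun j =>
    Submodule.finrank_map_le l (gr j)
  have ML0 : ∀ j, (∀ u ∈ gr j, l u = 0 → u = 0) → finrank K (L j) = finrank K (gr j) := by
    intro j hj
    have a := kls_split l (gr j)
    have : gr j ⊓ LinearMap.ker l = ⊥ := by
      rw [eq_bot_iff]
      rintro u ⟨hu, hu'⟩
      exact hj u hu hu'
    rw [this, finrank_bot] at a
    exact a
  have L0 := ML0 0 hinj0
  have L1 := ML0 1 hinj1
  -- nu is nonincreasing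
  have hmono : ∀ j, finrank K (Z (j+1)) + finrank K (L j) ≤ finrank K (Z j) + finrank K (L (j+1)) := by
    intro j
    have := F2 j
    have := ML j
    omega
  have hz0 : finrank K (Z 0) ≤ finrank K (L 0) + 1 := by
    have h1 : finrank K (gr 1) + finrank K (L 1) = finrank K (Z 0) + finrank K (gr 2) := F1 0
    omega
  have hz1 : ∀ j, finrank K (Z j) ≤ finrank K (L j) + 1 := by
    intro j
    induction j with
    | zero => exact hz0
    | succ j ih => have := hmono j; omega
  -- the count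
  have hcount : ∀ j, (∀ i < j, finrank K (Z i) ≠ finrank K (L i)) →
      finrank K (gr (j+1)) + j = finrank K (L j) + k := by
    intro j
    induction j with
    | zero =>
      intro _
      have : finrank K (gr (0+1)) = finrank K (gr 1) := rfl
      omega
    | succ j ih =>
      intro h
      have a := ih (fun i hi => h i (by omega))
      have b := h j (by omega)
      have c := F1 j
      have d := hz1 j
      have e1 := (ML j).trans (MS j)
      have : finrank K (gr (j+1+1)) = finrank K (gr (j+2)) := rfl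
      omega
  have hex : ∃ j, finrank K (Z j) = finrank K (L j) := by
    by_contra hcon
    push Not at hcon
    have a := hcount (k+1) (fun i _ => hcon i)
    have b := (ML (k+1)).trans ((MS (k+1)).trans (MZ (k+1)))
    omega
  obtain ⟨r, hr0, hrmin⟩ : ∃ r, finrank K (Z r) = finrank K (L r) ∧
      ∀ i < r, finrank K (Z i) ≠ finrank K (L i) :=
    ⟨Nat.find hex, Nat.find_spec hex, fun i hi => Nat.find_min hex hi⟩
  have hcr := hcount r hrmin
  have hzr : ∀ j, r ≤ j → finrank K (Z j) = finrank K (L j) := by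
    intro j hj
    induction j, hj using Nat.le_induction with
    | base => exact hr0
    | succ j hj ih =>
      have a := hmono j
      have b := (ML (j+1)).trans (MS (j+1))
      omega
  have hrk : r ≤ k := by
    have b := (ML r).trans ((MS r).trans (MZ r))
    omega
  have hnr : ∀ j, r ≤ j → finrank K (gr (j+1)) + r = finrank K (L j) + k := by
    intro j hj
    induction j, hj using Nat.le_induction with
    | base => exact hcr
    | succ j hj ih =>
      have c := F1 j
      have d := hzr j hj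
      have : finrank K (gr (j+1+1)) = finrank K (gr (j+2)) := rfl
      omega
  -- kernel bound
  have hker : ∀ j, (∀ u ∈ gr (j+1), l u = 0 → u = 0) →
      finrank K (↥(gr (j+2) ⊓ LinearMap.ker l)) + finrank K (L j) ≤ finrank K (S j) := by
    intro j hj
    exact kls_ker l m x hlm hlx hmx (gr j) (gr (j+1)) (gr (j+2)) (hl j) (hm j) (hx j)
      (hkos (j+1)) hj
  have hker0 : ∀ j, finrank K (↥(gr j ⊓ LinearMap.ker l)) = 0 → ∀ u ∈ gr j, l u = 0 → u = 0 := by
    intro j h u hu hlu
    have : Module.Finite K (↥(gr j ⊓ LinearMap.ker l)) :=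
      Submodule.finiteDimensional_of_le inf_le_left
    have := Submodule.finrank_eq_zero.mp h
    have hu' : u ∈ gr j ⊓ LinearMap.ker l := ⟨hu, hlu⟩
    rw [this] at hu'
    exact hu'
  have hinj : ∀ j, j ≤ r → (∀ u ∈ gr j, l u = 0 → u = 0) := by
    intro j
    induction j using Nat.strong_induction_on with
    | _ j ih =>
      intro hj
      match j, ih, hj with
      | 0, _, _ => exact hinj0
      | 1, _, _ => exact hinj1
      | (i+2), ih, hj =>
        apply hker0
        have a := hker i (ih (i+1) (by omega) (by omega))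
        have b := F2 i
        have c := hrmin i (by omega)
        have d := hrmin (i+1) (by omega)
        have e1 := hz1 i
        have e2 := hz1 (i+1)
        have f1 := (ML i).trans (MS i)
        have f2 := (ML (i+1)).trans (MS (i+1))
        omega
  refine ⟨r, hrk, hinj, ?_, ?_, ?_⟩
  · rcases Nat.eq_zero_or_pos r with h0 | hpos
    · subst h0
      have : gr (0+1) ⊓ LinearMap.ker l = ⊥ := by
        rw [eq_bot_iff]
        rintro u ⟨hu, hu'⟩
        exact hinj1 u hu hu'
      rw [this, finrank_bot]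
      omega
    · obtain ⟨i, rfl⟩ : ∃ i, r = i + 1 := ⟨r - 1, by omega⟩
      have a := hker i (hinj (i+1) le_rfl)
      have b := F2 i
      have c := hz1 i
      have : finrank K (↥(gr (i+1+1) ⊓ LinearMap.ker l)) =
        finrank K (↥(gr (i+2) ⊓ LinearMap.ker l)) := rfl
      omega
  · intro j hj
    have a := hnr j hj
    have b := ML' j
    omega
  · intro j hj u hu ⟨v, hv, huv⟩
    have huZ : u ∈ Z j := ⟨hu, v, hv, huv.symm⟩
    have hLZ : L j = Z j := Submodule.eq_of_le_of_finrank_eq ((hLS j).trans (hSZ j)) (hzr j hj).symm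
    rw [← hLZ] at huZ
    obtain ⟨w, hw, hw'⟩ := huZ
    exact ⟨w, hw, hw'.symm⟩

end Vale.Agent.P200
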