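import Vale.Agent.P200.Basic
import Vale.Agent.P200.KLStruct
import Vale.Agent.P200.KLModule
import Vale.Agent.P200.KLTors
import Vale.Agent.P200.KLForm
import Vale.Agent.P200.KLTri
import Vale.Agent.P200.KLAux
import Vale.Agent.P200.KLCore

namespace Vale.Agent.P200

open MvPolynomial Module

theorem mem_sh {K A : Type*} [Field K] [CommRing A] [Algebra K A] {y : Fin 3 → A}
    {V : Submodule K A} (i : Fin 3) {v : A} (hv : v ∈ V) : y i * v ∈ sh y V :=
  Submodule.mem_iSup_of_mem i ⟨v, hv, rfl⟩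

theorem sh_le {K A : Type*} [Field K] [CommRing A] [Algebra K A] {y : Fin 3 → A}
    {V W : Submodule K A} (h : ∀ i, ∀ v ∈ V, y i * v ∈ W) : sh y V ≤ W := by
  refine iSup_le fun i => ?_
  rintro _ ⟨v, hv, rfl⟩
  exact h i v hv

theorem sh_eq_sup {K A : Type*} [Field K] [CommRing A] [Algebra K A] (y : Fin 3 → A)
    (V : Submodule K A) : sh y V = V.map (LinearMap.mulLeft K (y 0)) ⊔
      V.map (LinearMap.mulLeft K (y 1)) ⊔ V.map (LinearMap.mulLeft K (y 2)) := by
  refine le_antisymm (sh_le fun i v hv => ?_) ?_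
  · fin_cases i
    · exact Submodule.mem_sup_left (Submodule.mem_sup_left ⟨v, hv, rfl⟩)
    · exact Submodule.mem_sup_left (Submodule.mem_sup_right ⟨v, hv, rfl⟩)
    · exact Submodule.mem_sup_right ⟨v, hv, rfl⟩
  · refine sup_le (sup_le ?_ ?_) ?_
    · exact le_iSup (fun i => V.map (LinearMap.mulLeft K (y i))) 0
    · exact le_iSup (fun i => V.map (LinearMap.mulLeft K (y i))) 1
    · exact le_iSup (fun i => V.map (LinearMap.mulLeft K (y i))) 2

theorem mem_sh_iff {K A : Type*} [Field K] [CommRing A] [Algebra K A] {y : Fin 3 → A}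
    {V : Submodule K A} {u : A} : u ∈ sh y V ↔
      ∃ v0 ∈ V, ∃ v1 ∈ V, ∃ v2 ∈ V, u = y 0 * v0 + y 1 * v1 + y 2 * v2 := by
  rw [sh_eq_sup]
  constructor
  · intro h
    obtain ⟨p, hp, q, ⟨v2, h2, rfl⟩, rfl⟩ := Submodule.mem_sup.1 h
    obtain ⟨_, ⟨v0, h0, rfl⟩, _, ⟨v1, h1, rfl⟩, rfl⟩ := Submodule.mem_sup.1 hp
    exact ⟨v0, h0, v1, h1, v2, h2, rfl⟩
  · rintro ⟨v0, h0, v1, h1, v2, h2, rfl⟩
    exact Submodule.add_mem_sup (Submodule.add_mem_sup ⟨v0, h0, rfl⟩ ⟨v1, h1, rfl⟩)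
      ⟨v2, h2, rfl⟩

theorem sh_fin {K A : Type*} [Field K] [CommRing A] [Algebra K A] (y : Fin 3 → A)
    (V : Submodule K A) [Module.Finite K V] : Module.Finite K (sh y V) := by
  rw [sh_eq_sup]
  infer_instance

/-- **Key Lemma.** -/
theorem key_lemma {K A : Type*} [Field K] [IsAlgClosed K] [CommRing A] [Algebra K A]
    (y : Fin 3 → A) (gr : ℕ → Submodule K A)
    (hmul : ∀ j i, ∀ u ∈ gr j, y i * u ∈ gr (j+1))
    (s c e k : ℕ) (hc : 1 ≤ c)
    (hsoc : ∀ j < s, ∀ u ∈ gr j, (∀ i, y i * u = 0) → u = 0)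
    (hpts : ∀ T : Finset (Fin 3 → K), (∀ p ∈ T, p ≠ 0) →
      ∃ G : S3 K, G.IsHomogeneous c ∧ aeval y G = 0 ∧ ∀ p ∈ T, eval p G ≠ 0)
    (V : Submodule K A) [Module.Finite K V] (hV : V ≤ gr e)
    (hk : finrank K (sh y V) = finrank K V + k)
    (hgen : V.map (LinearMap.mulLeft K (y 0)) ⊔ V.map (LinearMap.mulLeft K (y 1)) = sh y V)
    (hinj : ∀ u ∈ sh y V, y 0 * u = 0 → u = 0)
    (hk2 : finrank K (sh y V) + k ≤ finrank K (sh y (sh y V)) + 1)
    (hs : e + k + c ≤ s) :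
    ∃ k1 ≤ k, ∃ F : S3 K, F.IsHomogeneous k1 ∧ F ≠ 0 ∧ ∀ v ∈ V, aeval y F * v = 0 := by
  haveI := sh_fin y V
  haveI := sh_fin y (sh y V)
  obtain ⟨n, R, g, π, hπ, hfin, hind, hX, hgen3, hkos, hmap, hinj0, hinj1⟩ := kl_module y V
  -- `π` on the pieces
  have hπX : ∀ i u, π ((X i : S3 K) • u) = y i * π u := by
    intro i u; rw [hπ, aeval_X]
  have hπ0 : ∀ u ∈ g 0, π u ∈ V := fun u hu => hmap ▸ ⟨u, hu, rfl⟩
  have hmap1 : ∀ j W, (g j).map π = W → (g (j+1)).map π = sh y W := by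
    intro j W hW
    refine le_antisymm ?_ ?_
    · rintro _ ⟨u, hu, rfl⟩
      obtain ⟨v0, h0, v1, h1, v2, h2, rfl⟩ := hgen3 j u hu
      refine mem_sh_iff.2 ⟨π v0, hW ▸ ⟨v0, h0, rfl⟩, π v1, hW ▸ ⟨v1, h1, rfl⟩, π v2,
        hW ▸ ⟨v2, h2, rfl⟩, ?_⟩
      rw [map_add, map_add, hπX, hπX, hπX]
    · refine sh_le fun i v hv => ?_
      rw [← hW] at hv
      obtain ⟨v, hv, rfl⟩ := hv
      exact ⟨(X i : S3 K) • v, hX j i v hv, hπX i v⟩
  have hm1 := hmap1 0 V hmap
  have hm2 := hmap1 1 _ hm1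
  have hπgr : ∀ j, ∀ u ∈ g j, π u ∈ gr (e + j) := by
    intro j
    induction j with
    | zero => intro u hu; exact hV (hπ0 u hu)
    | succ j ih =>
      intro u hu
      obtain ⟨v0, h0, v1, h1, v2, h2, rfl⟩ := hgen3 j u hu
      rw [map_add, map_add, hπX, hπX, hπX]
      exact Submodule.add_mem _ (Submodule.add_mem _ (hmul _ _ _ (ih _ h0))
        (hmul _ _ _ (ih _ h1))) (hmul _ _ _ (ih _ h2))
  -- dimensions
  have hd0 : finrank K (g 0) = finrank K V := by
    have h1 : ∀ u : g 0, π.domRestrict (g 0) u = 0 → u = 0 := fun u hu =>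
      Subtype.ext (hinj0 u u.2 hu)
    have h2 : finrank K (LinearMap.range (π.domRestrict (g 0))) = finrank K (g 0) :=
      LinearMap.finrank_range_of_inj ((LinearMap.ker_eq_bot.1 (LinearMap.ker_eq_bot'.2 h1)))
    rw [LinearMap.range_domRestrict, hmap] at h2
    exact h2.symm
  have hd1 : finrank K (g 1) = finrank K (sh y V) := by
    have h1 : ∀ u : g 1, π.domRestrict (g 1) u = 0 → u = 0 := fun u hu =>
      Subtype.ext (hinj1 u u.2 hu)
    have h2 : finrank K (LinearMap.range (π.domRestrict (g 1))) = finrank K (g 1) :=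
      LinearMap.finrank_range_of_inj ((LinearMap.ker_eq_bot.1 (LinearMap.ker_eq_bot'.2 h1)))
    rw [LinearMap.range_domRestrict, hm1] at h2
    exact h2.symm
  have hd2 : finrank K (sh y (sh y V)) ≤ finrank K (g 2) := by
    haveI := hfin 2
    rw [← hm2]
    exact Submodule.finrank_map_le π (g 2)
  -- generation by `y 0, y 1`
  have hgen01 : ∀ j, ∀ u ∈ g (j+1), ∃ v ∈ g j, ∃ w ∈ g j,
      u = (X 0 : S3 K) • v + (X 1 : S3 K) • w := by
    intro j
    induction j with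
    | zero =>
      intro u hu
      have h1 : π u ∈ sh y V := hm1 ▸ ⟨u, hu, rfl⟩
      rw [← hgen] at h1
      obtain ⟨_, ⟨v, hv, rfl⟩, _, ⟨w, hw, rfl⟩, h2⟩ := Submodule.mem_sup.1 h1
      rw [SetLike.mem_coe, ← hmap] at hv hw
      obtain ⟨v, hv, rfl⟩ := hv
      obtain ⟨w, hw, rfl⟩ := hw
      refine ⟨v, hv, w, hw, ?_⟩
      have h3 : u - ((X 0 : S3 K) • v + (X 1 : S3 K) • w) ∈ g 1 :=
        Submodule.sub_mem _ hu (Submodule.add_mem _ (hX 0 0 v hv) (hX 0 1 w hw))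
      have h4 : π (u - ((X 0 : S3 K) • v + (X 1 : S3 K) • w)) = 0 := by
        rw [map_sub, map_add, hπX, hπX, ← h2]
        simp
      exact sub_eq_zero.1 (hinj1 _ h3 h4)
    | succ j ih =>
      intro u hu
      obtain ⟨v0, h0, v1, h1, v2, h2, rfl⟩ := hgen3 _ u hu
      obtain ⟨v, hv, w, hw, rfl⟩ := ih v2 h2
      refine ⟨v0 + (X 2 : S3 K) • v, Submodule.add_mem _ h0 (hX _ _ _ hv),
        v1 + (X 2 : S3 K) • w, Submodule.add_mem _ h1 (hX _ _ _ hw), ?_⟩
      rw [smul_add, smul_add, smul_add, smul_comm (X 2 : S3 K) (X 0 : S3 K) v,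
        smul_comm (X 2 : S3 K) (X 1 : S3 K) w]
      abel
  -- torsion killer
  set N := s - e with hN
  obtain ⟨d, q, hqd, hq0, hq⟩ := kl_tors g hfin hind hX N
  -- choice of `t`
  have hfin1 := binary_zeros d q hqd hq0
  have hfin2 := pencil_inj_finite ((LinearMap.mulLeft K (y 0)).domRestrict (sh y V))
    ((LinearMap.mulLeft K (y 1)).domRestrict (sh y V)) (by
      intro u hu
      exact Subtype.ext (hinj u u.2 hu))
  obtain ⟨t, ht⟩ : ∃ t : K, t ∉ ({t : K | eval ![-t, 1] q = 0} ∪ {t : K | ∃ u : sh y V, u ≠ 0 ∧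
      ((LinearMap.mulLeft K (y 0)).domRestrict (sh y V)) u +
        t • ((LinearMap.mulLeft K (y 1)).domRestrict (sh y V)) u = 0}) :=
    (hfin1.union hfin2).infinite_compl.nonempty
  rw [Set.mem_union, not_or] at ht
  have hqt : eval ![-t, 1] q ≠ 0 := ht.1
  have hinjt : ∀ u ∈ sh y V, (y 0 + t • y 1) * u = 0 → u = 0 := by
    intro u hu h
    by_contra hne
    apply ht.2
    refine ⟨⟨u, hu⟩, fun h => hne (congrArg Subtype.val h), ?_⟩
    show y 0 * u + t • (y 1 * u) = 0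
    rw [← h, add_mul, smul_mul_assoc]
  -- operators
  let l : Module.End K ((Fin n → S3 K) ⧸ R) := sm (X 0 + C t * X 1)
  let m : Module.End K ((Fin n → S3 K) ⧸ R) := sm (X 1)
  let x : Module.End K ((Fin n → S3 K) ⧸ R) := sm (X 2)
  have hl : ∀ u, l u = (X 0 + C t * X 1 : S3 K) • u := fun u => rfl
  have hm : ∀ u, m u = (X 1 : S3 K) • u := fun u => rfl
  have hx : ∀ u, x u = (X 2 : S3 K) • u := fun u => rfl
  have hl' : ∀ u, l u = (X 0 : S3 K) • u + t • ((X 1 : S3 K) • u) := by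
    intro u
    rw [hl, add_smul, mul_smul, C_eq_smul_one, smul_assoc, one_smul]
  have hπl : ∀ u, π (l u) = (y 0 + t • y 1) * π u := by
    intro u
    rw [hl', map_add, hπX, LinearMap.map_smul π t, hπX, add_mul, smul_mul_assoc]
  have hlmem : ∀ j, ∀ u ∈ g j, l u ∈ g (j+1) := by
    intro j u hu
    rw [hl']
    exact Submodule.add_mem _ (hX j 0 u hu) (Submodule.smul_mem _ _ (hX j 1 u hu))
  have hVs : ∀ v ∈ V, (∀ i, y i * v = 0) → v = 0 := fun v hv =>
    hsoc e (by omega) v (hV hv)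
  obtain ⟨r, hrk, hr1, hr2, hr3, hr4⟩ := kl_struct l m x
    (fun u => by rw [hl, hm, hm, hl, ← mul_smul, ← mul_smul, mul_comm])
    (fun u => by rw [hl, hx, hx, hl, ← mul_smul, ← mul_smul, mul_comm])
    (fun u => by rw [hm, hx, hx, hm, ← mul_smul, ← mul_smul, mul_comm])
    g hfin hlmem (fun j u hu => hX j 1 u hu) (fun j u hu => hX j 2 u hu)
    (by
      intro j u hu
      obtain ⟨v, hv, w, hw, rfl⟩ := hgen01 j u hu
      refine ⟨v, hv, w - t • v, Submodule.sub_mem _ hw (Submodule.smul_mem _ _ hv), ?_⟩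
      rw [hl', hm, smul_sub, smul_comm (X 1 : S3 K) t v]
      abel)
    (by
      intro j u0 h0 u1 h1 u2 h2 h
      rw [hl', hm, hx] at h
      obtain ⟨c01, hc01, c02, hc02, c12, hc12, e0, e1, e2⟩ := hkos j u0 h0 (t • u0 + u1)
        (Submodule.add_mem _ (Submodule.smul_mem _ _ h0) h1) u2 h2 (by
          rw [← h, smul_add, smul_comm (X 1 : S3 K) t u0]; abel)
      refine ⟨c01, hc01, c02, hc02, c12 - t • c02,
        Submodule.sub_mem _ hc12 (Submodule.smul_mem _ _ hc02), e0, ?_, ?_⟩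
      · have : u1 = (t • u0 + u1) - t • u0 := by abel
        rw [this, e1, e0, hl', hx, smul_add, smul_sub, smul_comm (X 2 : S3 K) t c02]
        abel
      · rw [e2, hl', hm, smul_sub, smul_comm (X 1 : S3 K) t c02]
        abel)
    (by
      intro u hu h
      have h1 : (y 0 + t • y 1) * π u = 0 := by rw [← hπl, h, map_zero]
      apply hinj0 u hu
      apply hVs _ (hπ0 u hu)
      intro i
      apply hinjt _ (mem_sh i (hπ0 u hu))
      rw [mul_left_comm, h1, mul_zero])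
    (by
      intro u hu h
      have h1 : (y 0 + t • y 1) * π u = 0 := by rw [← hπl, h, map_zero]
      exact hinj1 u hu (hinjt _ (hm1 ▸ ⟨u, hu, rfl⟩) h1))
    k (by rw [hd0, hd1, hk]) (by rw [hd1]; omega)
  obtain ⟨k1, hk1, F, hF, hF0, hFt⟩ := kl_form g hfin hind hX hgen01 (k - r) r hr3
  have hrN : r + c ≤ N := by omega
  have step := kl_step g hX t l m hl hm r N hr4 d q hqd hqt hq
  obtain ⟨T, hT, hTG⟩ := kl_core g hfin hX t l m x hl hm hx r N c hc hrN (hr1 r le_rfl) hr2 hr4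
    d q hqd hqt hq
  obtain ⟨G, hGc, hG0, hGT⟩ := hpts T hT
  -- `π` kills the torsion in degree `r + c`
  have h1 : ∀ z ∈ g (r + c), iP q • z = 0 → π z = 0 := by
    intro z hz hqz
    obtain ⟨w, hw, rfl⟩ := hTG G hGc hGT z hz hqz
    rw [hπ, hG0, zero_mul]
  -- in degree `N`
  have h2 : ∀ i, r + c + i ≤ N → ∀ z ∈ g (r + c + i), iP q • z = 0 → π z = 0 := by
    intro i
    induction i with
    | zero => intro _; exact h1
    | succ i ih =>
      intro hi z hz hqz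
      obtain ⟨w, hw, hqw, rfl⟩ := step (r + c + i) (by omega) (by omega) z hz hqz
      rw [hπl, ih (by omega) w hw hqw, mul_zero]
  have h3 : ∀ z ∈ g N, iP q • z = 0 → π z = 0 := by
    have := h2 (N - (r + c)) (by omega)
    rwa [show r + c + (N - (r + c)) = N by omega] at this
  -- in all degrees
  have h4 : ∀ i, i ≤ N → ∀ z ∈ g (N - i), iP q • z = 0 → π z = 0 := by
    intro i
    induction i with
    | zero => intro _; exact h3
    | succ i ih =>
      intro hi z hz hqz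
      refine hsoc (e + (N - (i+1))) (by omega) _ (hπgr _ z hz) fun t => ?_
      rw [← hπX]
      refine ih (by omega) _ ?_ ?_
      · have := hX _ t z hz
        rwa [show N - (i+1) + 1 = N - i by omega] at this
      · rw [smul_comm, hqz, smul_zero]
  refine ⟨k1, by omega, F, hF, hF0, fun v hv => ?_⟩
  rw [← hmap] at hv
  obtain ⟨u, hu, rfl⟩ := hv
  rw [← hπ]
  have hFu : F • u ∈ g k1 := by
    have := hom_smul_mem hX hF hu
    rwa [zero_add] at this
  have h5 := h4 (N - k1) (by omega)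
  rw [show N - (N - k1) = k1 by omega] at h5
  exact h5 _ hFu (hq k1 (by omega) _ hFu (hFt u hu))

end Vale.Agent.P200
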