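import Vale.Agent.P200.Basic

namespace Vale.Agent.P200

open Module

theorem pencil_lt_card {K W ι : Type*} [Field K] [AddCommGroup W] [Module K W] (T : Finset ι)
    (w : ι → W) (g : ι → K) (hg : ∑ t ∈ T, g t • w t = 0) (hne : ∃ t ∈ T, g t ≠ 0) :
    finrank K (Submodule.span K (w '' (T : Set ι))) < T.card := by
  classical
  set b : {t // t ∈ T} → W := fun t => w t.1 with hb
  have hrange : Set.range b = w '' (T : Set ι) := by
    ext x; simp [hb]
  have h1 : (Set.range b).finrank K ≤ Fintype.card {t // t ∈ T} := finrank_range_le_card b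
  have hcard : Fintype.card {t // t ∈ T} = T.card := by simp
  have h2 : Fintype.card {t // t ∈ T} ≠ (Set.range b).finrank K := by
    intro h
    have hli := (linearIndependent_iff_card_eq_finrank_span (R := K) (b := b)).2 h
    obtain ⟨t, ht, hgt⟩ := hne
    rw [Fintype.linearIndependent_iff] at hli
    have h3 := hli (fun t => g t) (by
      have : ∑ i : {t // t ∈ T}, g i • b i = ∑ t ∈ T, g t • w t :=
        Finset.sum_coe_sort T (fun t => g t • w t)
      rw [this, hg]) ⟨t, ht⟩
    exact hgt h3
  have h4 : (Set.range b).finrank K < Fintype.card {t // t ∈ T} := lt_of_le_of_ne h1 (Ne.symm h2)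
  rw [hcard, Set.finrank, hrange] at h4
  exact h4

/-- If every member of a pencil of linear maps is non-injective, some subspace is shrunk. -/
theorem pencil {K U W : Type*} [Field K] [Infinite K] [AddCommGroup U] [Module K U]
    [AddCommGroup W] [Module K W] [Module.Finite K U] (A B : U →ₗ[K] W)
    (h : ∀ t : K, ∃ u : U, u ≠ 0 ∧ A u + t • B u = 0) :
    ∃ U' : Submodule K U, finrank K (U'.map A ⊔ U'.map B : Submodule K W) < finrank K U' := by
  classical
  choose u hu0 hu using h
  -- a finite dependent set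
  have hex : ∃ T : Finset K, ¬ LinearIndepOn K u (T : Set K) := by
    by_contra hcon
    push Not at hcon
    have hli : LinearIndependent K u := by
      rw [linearIndependent_iff_finset_linearIndependent]
      intro T
      exact hcon T
    exact not_finite_iff_infinite.2 ‹Infinite K› hli.finite
  obtain ⟨T, hT, hmin⟩ := WellFounded.has_min (wellFounded_lt (α := Finset K))
    {T | ¬ LinearIndepOn K u (T : Set K)} hex
  have hmin' : ∀ T' < T, LinearIndepOn K u (T' : Set K) := fun T' hT' => by
    by_contra hc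
    exact hmin T' hc hT'
  have hdep : ∃ g : K → K, ∑ t ∈ T, g t • u t = 0 ∧ ∃ t ∈ T, g t ≠ 0 := by
    by_contra hcon
    push Not at hcon
    exact hT (linearIndepOn_finset_iff.2 fun g hg t ht => hcon g hg t ht)
  obtain ⟨g, hg, t0, ht0, hgt0⟩ := hdep
  set T' := T.erase t0 with hT'
  have hlt : T' < T := Finset.erase_ssubset ht0
  have hli := hmin' T' hlt
  refine ⟨Submodule.span K (u '' (T' : Set K)), ?_⟩
  have hfin : finrank K (Submodule.span K (u '' (T' : Set K))) = T'.card := by
    have h1 : Set.range (fun t : (T' : Set K) => u t) = u '' (T' : Set K) := by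
      ext x; simp
    have h2 := finrank_span_eq_card (R := K) (b := fun t : (T' : Set K) => u t) hli
    rw [h1] at h2
    rw [h2]
    simp
  rw [hfin]
  have hBrel : ∑ t ∈ T', (g t * (t - t0)) • B (u t) = 0 := by
    have e1 : ∑ t ∈ T, g t • B (u t) = 0 := by
      rw [← map_zero B, ← hg, map_sum]
      simp
    have e2 : ∑ t ∈ T, (g t * t) • B (u t) = 0 := by
      have e3 : ∑ t ∈ T, g t • A (u t) = 0 := by
        rw [← map_zero A, ← hg, map_sum]
        simp
      have e4 : ∀ t ∈ T, (g t * t) • B (u t) = -(g t • A (u t)) := by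
        intro t _
        have := hu t
        rw [eq_neg_of_add_eq_zero_left this, mul_smul, smul_neg, neg_neg]
      rw [Finset.sum_congr rfl e4, Finset.sum_neg_distrib, e3, neg_zero]
    have e5 : ∑ t ∈ T, (g t * (t - t0)) • B (u t) = 0 := by
      have e6 : ∀ t ∈ T, (g t * (t - t0)) • B (u t) =
          (g t * t) • B (u t) - t0 • (g t • B (u t)) := by
        intro t _
        rw [smul_smul, ← sub_smul]
        congr 1
        ring
      rw [Finset.sum_congr rfl e6, Finset.sum_sub_distrib, e2, ← Finset.smul_sum, e1, smul_zero,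
        sub_zero]
    rw [← Finset.add_sum_erase T _ ht0] at e5
    simpa using e5
  have hne : ∃ t ∈ T', g t * (t - t0) ≠ 0 := by
    by_contra hcon
    push Not at hcon
    have h1 : ∀ t ∈ T', g t = 0 := by
      intro t ht
      have h2 := hcon t ht
      rcases mul_eq_zero.1 h2 with h3 | h3
      · exact h3
      · exact absurd (sub_eq_zero.1 h3) (Finset.ne_of_mem_erase ht)
    rw [← Finset.add_sum_erase T _ ht0] at hg
    have h3 : ∑ t ∈ T.erase t0, g t • u t = 0 :=
      Finset.sum_eq_zero fun t ht => by rw [h1 t ht, zero_smul]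
    rw [h3, add_zero] at hg
    rcases smul_eq_zero.1 hg with h4 | h4
    · exact hgt0 h4
    · exact hu0 t0 h4
  have hlt2 := pencil_lt_card T' (fun t => B (u t)) (fun t => g t * (t - t0)) hBrel hne
  refine lt_of_le_of_lt ?_ hlt2
  haveI : Module.Finite K (Submodule.span K ((fun t => B (u t)) '' (T' : Set K))) :=
    FiniteDimensional.span_of_finite K ((T'.finite_toSet).image _)
  refine Submodule.finrank_mono (sup_le ?_ ?_)
  · rw [Submodule.map_span, Submodule.span_le]
    rintro x ⟨y, ⟨t, ht, rfl⟩, rfl⟩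
    have h1 := eq_neg_of_add_eq_zero_left (hu t)
    rw [h1]
    exact Submodule.neg_mem _ (Submodule.smul_mem _ _
      (Submodule.subset_span ⟨t, ht, rfl⟩))
  · rw [Submodule.map_span, Submodule.span_le]
    rintro x ⟨y, ⟨t, ht, rfl⟩, rfl⟩
    exact Submodule.subset_span ⟨t, ht, rfl⟩

theorem finrank_comap_mkQ_pencil {K M : Type*} [Field K] [AddCommGroup M] [Module K M]
    [Module.Finite K M] (N : Submodule K M) (R : Submodule K (M ⧸ N)) :
    finrank K (R.comap N.mkQ) = finrank K R + finrank K N := by
  set P := R.comap N.mkQ with hP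
  have hNP : N ≤ P := fun x hx => by
    rw [hP, Submodule.mem_comap, (Submodule.Quotient.mk_eq_zero N (x := x)).2 hx |> fun h =>
      (show N.mkQ x = 0 from h)]
    exact R.zero_mem
  have h1 := LinearMap.finrank_range_add_finrank_ker (N.mkQ.domRestrict P)
  have h2 : LinearMap.range (N.mkQ.domRestrict P) = R := by
    rw [LinearMap.range_domRestrict, hP, Submodule.map_comap_eq_of_surjective N.mkQ_surjective]
  have h3 : finrank K (LinearMap.ker (N.mkQ.domRestrict P)) = finrank K N := by
    rw [LinearMap.ker_domRestrict, Submodule.ker_mkQ]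
    exact (Submodule.submoduleOfEquivOfLe hNP).finrank_eq
  rw [h2, h3] at h1
  exact h1.symm

/-- If `S_1 V` is not generated by a pencil containing `y 0`, then some large subspace `V1`
has small growth. -/
theorem exists_sub_of_not_gen {K A : Type*} [Field K] [Infinite K] [CommRing A] [Algebra K A]
    (y : Fin 3 → A) (V : Submodule K A) [Module.Finite K V] (k : ℕ)
    (hk : finrank K (sh y V) = finrank K V + k)
    (hinj : ∀ v ∈ V, y 0 * v = 0 → v = 0)
    (hn : ∀ t : K, V.map (LinearMap.mulLeft K (y 0)) ⊔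
      V.map (LinearMap.mulLeft K (y 1 + t • y 2)) ≠ sh y V) :
    ∃ V1 ≤ V, finrank K V + 1 ≤ finrank K V1 + k ∧
      finrank K (sh y V1) + 1 ≤ finrank K V1 + k := by
  set S := sh y V with hS
  have hmem : ∀ i, ∀ v ∈ V, y i * v ∈ S := fun i v hv =>
    (le_iSup (fun i => V.map (LinearMap.mulLeft K (y i))) i) ⟨v, hv, rfl⟩
  haveI hSfin : Module.Finite K S := by
    rw [hS]
    unfold sh
    infer_instance
  let m : Fin 3 → (V →ₗ[K] S) := fun i =>
    LinearMap.codRestrict S ((LinearMap.mulLeft K (y i)).domRestrict V) (fun v => hmem i v v.2)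
  have hm : ∀ i (v : V), ((m i v : S) : A) = y i * v := fun i v => rfl
  let N : Submodule K S := LinearMap.range (m 0)
  have hm0 : Function.Injective (m 0) := by
    rw [← LinearMap.ker_eq_bot, LinearMap.ker_eq_bot']
    intro v hv
    have h1 : y 0 * (v : A) = 0 := by rw [← hm 0 v, hv]; rfl
    exact Subtype.ext (hinj v v.2 h1)
  have hN : finrank K N = finrank K V := LinearMap.finrank_range_of_inj hm0
  have hQ : finrank K (S ⧸ N) = k := by
    have := Submodule.finrank_quotient_add_finrank N
    omega
  let A1 : V →ₗ[K] (S ⧸ N) := N.mkQ.comp (m 1)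
  let A2 : V →ₗ[K] (S ⧸ N) := N.mkQ.comp (m 2)
  have hns : ∀ t : K, ¬ Function.Surjective (A1 + t • A2) := by
    intro t hsurj
    refine hn t (le_antisymm ?_ ?_)
    · refine sup_le ?_ ?_
      · rintro _ ⟨v, hv, rfl⟩
        exact hmem 0 v hv
      · rintro _ ⟨v, hv, rfl⟩
        have h1 : (LinearMap.mulLeft K (y 1 + t • y 2)) v = y 1 * v + t • (y 2 * v) := by
          simp [add_mul]
        rw [h1]
        exact S.add_mem (hmem 1 v hv) (S.smul_mem t (hmem 2 v hv))
    · intro w hw
      obtain ⟨v, hv⟩ := hsurj (N.mkQ ⟨w, hw⟩)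
      have h1 : N.mkQ (⟨w, hw⟩ - (m 1 v + t • m 2 v)) = 0 := by
        rw [map_sub, map_add, map_smul, sub_eq_zero]
        exact hv.symm
      have h2 : (⟨w, hw⟩ - (m 1 v + t • m 2 v) : S) ∈ N := by
        have := (Submodule.Quotient.mk_eq_zero N).1 h1
        exact this
      obtain ⟨v', hv'⟩ := h2
      have h3 : y 0 * (v' : A) = w - (y 1 * (v : A) + t • (y 2 * (v : A))) := by
        have := congrArg (fun s : S => (s : A)) hv'
        simpa [hm] using this
      have h4 : w = y 0 * (v' : A) + (y 1 + t • y 2) * (v : A) := by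
        rw [h3, add_mul, smul_mul_assoc]
        abel
      rw [h4]
      exact Submodule.add_mem_sup ⟨v', v'.2, rfl⟩ ⟨v, v.2, rfl⟩
  obtain ⟨U', hU'⟩ := pencil A1.dualMap A2.dualMap (fun t => by
    have h1 : ¬ Function.Injective (A1 + t • A2).dualMap := fun hc =>
      hns t (LinearMap.dualMap_injective_iff.1 hc)
    rw [← LinearMap.ker_eq_bot, LinearMap.ker_eq_bot'] at h1
    push Not at h1
    obtain ⟨φ, hφ, hφ0⟩ := h1
    have h2 : (A1 + t • A2).dualMap φ = A1.dualMap φ + t • A2.dualMap φ := by
      ext v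
      simp [LinearMap.dualMap_apply]
    exact ⟨φ, hφ0, h2 ▸ hφ⟩)
  set D := U'.map A1.dualMap ⊔ U'.map A2.dualMap with hD
  have hD1 := Subspace.finrank_add_finrank_dualCoannihilator_eq (K := K) D
  have hU1 := Subspace.finrank_add_finrank_dualCoannihilator_eq (K := K) U'
  rw [hQ] at hU1
  refine ⟨D.dualCoannihilator.map V.subtype, Submodule.map_subtype_le V _, ?_, ?_⟩
  · rw [Submodule.finrank_map_subtype_eq]
    omega
  · rw [Submodule.finrank_map_subtype_eq]
    have hle : sh y (D.dualCoannihilator.map V.subtype) ≤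
        ((U'.dualCoannihilator).comap N.mkQ).map S.subtype := by
      unfold sh
      refine iSup_le fun i => ?_
      rintro _ ⟨_, ⟨v, hv, rfl⟩, rfl⟩
      have hv' : v ∈ D.dualCoannihilator := hv
      rw [Submodule.mem_dualCoannihilator] at hv'
      refine ⟨m i v, ?_, rfl⟩
      rw [SetLike.mem_coe, Submodule.mem_comap, Submodule.mem_dualCoannihilator]
      intro φ hφ
      fin_cases i
      · have h0 : N.mkQ (m 0 v) = 0 :=
          (Submodule.Quotient.mk_eq_zero N).2 ⟨v, rfl⟩
        change φ (N.mkQ (m 0 v)) = 0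
        rw [h0, map_zero]
      · exact hv' (A1.dualMap φ) (Submodule.mem_sup_left ⟨φ, hφ, rfl⟩)
      · exact hv' (A2.dualMap φ) (Submodule.mem_sup_right ⟨φ, hφ, rfl⟩)
    have h1 := Submodule.finrank_mono hle
    rw [Submodule.finrank_map_subtype_eq, finrank_comap_mkQ_pencil, hN] at h1
    omega

end Vale.Agent.P200
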