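import Vale.Agent.P200.KL
import Vale.Agent.P200.Pencil

namespace Vale.Agent.P200

open MvPolynomial Module

variable {K A : Type*} [Field K] [CommRing A] [Algebra K A]

/-- linear change of coordinates -/
def chg (M : Matrix (Fin 3) (Fin 3) K) (x : Fin 3 → A) (i : Fin 3) : A := ∑ j, M i j • x j

theorem chg_chg (M N : Matrix (Fin 3) (Fin 3) K) (x : Fin 3 → A) :
    chg M (chg N x) = chg (M * N) x := by
  funext i
  simp only [chg, Finset.smul_sum, smul_smul]
  rw [Finset.sum_comm]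
  refine Finset.sum_congr rfl fun j _ => ?_
  rw [Matrix.mul_apply, Finset.sum_smul]

theorem chg_one (x : Fin 3 → A) : chg (1 : Matrix (Fin 3) (Fin 3) K) x = x := by
  funext i
  simp [chg, Matrix.one_apply, ite_smul]

theorem chg_mul_mem (M : Matrix (Fin 3) (Fin 3) K) (x : Fin 3 → A) {V W : Submodule K A}
    (h : ∀ i, ∀ v ∈ V, x i * v ∈ W) (i : Fin 3) (v : A) (hv : v ∈ V) : chg M x i * v ∈ W := by
  rw [chg, Finset.sum_mul]
  refine Submodule.sum_mem _ fun j _ => ?_
  rw [smul_mul_assoc]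
  exact Submodule.smul_mem _ _ (h j v hv)

theorem sh_chg_le (M : Matrix (Fin 3) (Fin 3) K) (x : Fin 3 → A) (V : Submodule K A) :
    sh (chg M x) V ≤ sh x V :=
  sh_le (chg_mul_mem M x fun i v hv => mem_sh i hv)

theorem sh_chg {M N : Matrix (Fin 3) (Fin 3) K} (h : N * M = 1) (x : Fin 3 → A)
    (V : Submodule K A) : sh (chg M x) V = sh x V := by
  refine le_antisymm (sh_chg_le M x V) ?_
  have := sh_chg_le N (chg M x) V
  rwa [chg_chg, h, chg_one] at this

theorem aeval_chg (M : Matrix (Fin 3) (Fin 3) K) (x : Fin 3 → A) (F : S3 K) :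
    aeval (chg M x) F = aeval x (aeval (chg M (X : Fin 3 → S3 K)) F) := by
  have : (aeval (chg M x) : S3 K →ₐ[K] A) =
      (aeval x).comp (aeval (chg M (X : Fin 3 → S3 K))) := by
    refine MvPolynomial.algHom_ext fun i => ?_
    simp [chg, map_sum]
  exact congrArg (fun f => f F) this

theorem chg_hom (M : Matrix (Fin 3) (Fin 3) K) {F : S3 K} {d : ℕ} (hF : F.IsHomogeneous d) :
    (aeval (chg M (X : Fin 3 → S3 K)) F).IsHomogeneous d := by
  have := hF.aeval (chg M (X : Fin 3 → S3 K)) (n := 1) (by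
    intro i
    refine IsHomogeneous.sum _ _ _ fun j _ => ?_
    rw [smul_eq_C_mul]
    have := (isHomogeneous_C (Fin 3) (M i j)).mul (isHomogeneous_X K j)
    rwa [zero_add] at this)
  rwa [one_mul] at this

theorem chg_ne_zero {M N : Matrix (Fin 3) (Fin 3) K} (h : N * M = 1) {F : S3 K} (hF : F ≠ 0) :
    aeval (chg M (X : Fin 3 → S3 K)) F ≠ 0 := by
  intro h0
  apply hF
  have h2 : M * N = 1 := mul_eq_one_comm.1 h
  have h1 := aeval_chg M (chg N (X : Fin 3 → S3 K)) F
  rw [chg_chg, h2, chg_one, h0, map_zero] at h1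
  rw [← h1]
  exact (aeval_X_left_apply F).symm

/-- `eval` after a linear substitution -/
theorem eval_chg (M : Matrix (Fin 3) (Fin 3) K) (p : Fin 3 → K) (F : S3 K) :
    eval p (aeval (chg M (X : Fin 3 → S3 K)) F) = eval (M.mulVec p) F := by
  have : ((eval p).comp ((aeval (chg M (X : Fin 3 → S3 K)) :
      S3 K →ₐ[K] S3 K) : S3 K →+* S3 K)) = eval (M.mulVec p) := by
    refine MvPolynomial.ringHom_ext (fun r => ?_) (fun i => ?_)
    · simp
    · simp [chg, Matrix.mulVec, dotProduct, smul_eval]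
  exact congrArg (fun f => f F) this

theorem exists_row (t : Fin 3 → K) (ht : t ≠ 0) :
    ∃ M N : Matrix (Fin 3) (Fin 3) K, N * M = 1 ∧ M 0 = t := by
  have key : ∃ M : Matrix (Fin 3) (Fin 3) K, M.det ≠ 0 ∧ M 0 = t := by
    by_cases h0 : t 0 = 0
    · by_cases h1 : t 1 = 0
      · have h2 : t 2 ≠ 0 := by
          intro h2
          apply ht
          funext i
          fin_cases i
          · exact h0
          · exact h1
          · exact h2
        refine ⟨!![t 0, t 1, t 2; 1, 0, 0; 0, 1, 0], ?_, ?_⟩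
        · rw [Matrix.det_fin_three]; simpa using h2
        · funext i; fin_cases i <;> rfl
      · refine ⟨!![t 0, t 1, t 2; 1, 0, 0; 0, 0, 1], ?_, ?_⟩
        · rw [Matrix.det_fin_three]; simpa using h1
        · funext i; fin_cases i <;> rfl
    · refine ⟨!![t 0, t 1, t 2; 0, 1, 0; 0, 0, 1], ?_, ?_⟩
      · rw [Matrix.det_fin_three]; simpa using h0
      · funext i; fin_cases i <;> rfl
  obtain ⟨M, hM, hM0⟩ := key
  exact ⟨M, M⁻¹, Matrix.nonsing_inv_mul _ (isUnit_iff_ne_zero.2 hM), hM0⟩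


theorem IsCI0.mul_mem' {x : Fin 3 → A} {gr : ℕ → Submodule K A} {a b c : ℕ}
    (H : IsCI0 x gr a b c) (j : ℕ) (i : Fin 3) (u : A) (hu : u ∈ gr j) : x i * u ∈ gr (j+1) := by
  rw [H.gen]
  exact mem_sh i hu

theorem kl_final [IsAlgClosed K] {x : Fin 3 → A} {gr : ℕ → Submodule K A} {a b c : ℕ}
    (H : IsCI0 x gr a b c) (hc : 1 ≤ c) (e k : ℕ) (V : Submodule K A) (hV : V ≤ gr e)
    (hk : finrank K (sh x V) = finrank K V + k) (t0 : Fin 3 → K)
    (hinj : ∀ u ∈ sh x V, lin x t0 * u = 0 → u = 0)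
    (hV1 : ∀ V1 ≤ V, finrank K V + 1 ≤ finrank K V1 + k →
      finrank K (sh x V1) + 1 ≤ finrank K V1 + k → False)
    (hk2 : finrank K (sh x V) + k ≤ finrank K (sh x (sh x V)) + 1)
    (hs : e + k + 3 ≤ a + b) : finrank K V ≤ k * (e + 2 - a) + k.choose 2 := by
  haveI := H.fin e
  haveI : Module.Finite K V := Submodule.finiteDimensional_of_le hV
  by_cases hV0 : V = ⊥
  · rw [hV0, finrank_bot]; exact Nat.zero_le _
  have hsoc0 : ∀ v ∈ V, (∀ i, x i * v = 0) → v = 0 := fun v hv h =>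
    H.soc e (by omega) v (hV hv) h
  have ht0 : t0 ≠ 0 := by
    rintro rfl
    apply hV0
    rw [eq_bot_iff]
    intro v hv
    refine hsoc0 v hv fun i => hinj _ (mem_sh i hv) ?_
    simp [lin]
  obtain ⟨M, N, hNM, hM0⟩ := exists_row t0 ht0
  set y := chg M x with hy
  have hy0 : y 0 = lin x t0 := by rw [hy, chg, hM0]; rfl
  have hshy : ∀ W : Submodule K A, sh y W = sh x W := sh_chg hNM x
  obtain ⟨t, ht⟩ : ∃ t : K, V.map (LinearMap.mulLeft K (y 0)) ⊔
      V.map (LinearMap.mulLeft K (y 1 + t • y 2)) = sh y V := by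
    by_contra hn
    push Not at hn
    obtain ⟨V1, hV1le, h1, h2⟩ := exists_sub_of_not_gen y V k (by rw [hshy, hk]) (by
      intro v hv h
      refine hsoc0 v hv fun i => hinj _ (mem_sh i hv) ?_
      rw [mul_left_comm, ← hy0, h, mul_zero]) hn
    rw [hshy] at h2
    exact hV1 V1 hV1le h1 h2
  let M2 : Matrix (Fin 3) (Fin 3) K := !![1, 0, 0; 0, 1, t; 0, 0, 1]
  let N2 : Matrix (Fin 3) (Fin 3) K := !![1, 0, 0; 0, 1, -t; 0, 0, 1]
  have hN2M2 : N2 * M2 = 1 := by
    ext i j
    fin_cases i <;> fin_cases j <;> simp [N2, M2, Matrix.mul_apply, Fin.sum_univ_three]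
  set z := chg M2 y with hz
  have hz0 : z 0 = y 0 := by simp [hz, chg, M2, Fin.sum_univ_three]
  have hz1 : z 1 = y 1 + t • y 2 := by simp [hz, chg, M2, Fin.sum_univ_three]
  have hzM : z = chg (M2 * M) x := by rw [hz, hy, chg_chg]
  have hinv : (N * N2) * (M2 * M) = 1 := by
    rw [Matrix.mul_assoc, ← Matrix.mul_assoc N2, hN2M2, Matrix.one_mul, hNM]
  have hinv' : (M2 * M) * (N * N2) = 1 := mul_eq_one_comm.1 hinv
  have hshz : ∀ W : Submodule K A, sh z W = sh x W := fun W => by
    rw [hzM]; exact sh_chg hinv x W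
  obtain ⟨k1, hk1, F, hF, hF0, hFV⟩ := key_lemma z gr (fun j i u hu => by
      rw [hzM]
      exact chg_mul_mem (M2 * M) x (fun i v hv => H.mul_mem' j i v hv) i u hu)
    (a + b + c - 3) c e k hc (by
      intro j hj u hu h
      refine H.soc j (by omega) u hu fun i => ?_
      have h1 : chg (N * N2) z i * u = 0 := by
        rw [chg, Finset.sum_mul]
        exact Finset.sum_eq_zero fun j _ => by rw [smul_mul_assoc, h j, smul_zero]
      rwa [hzM, chg_chg, hinv, chg_one] at h1)
    (by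
      classical
      intro T hT
      obtain ⟨G, hG, hG0, hGT⟩ := H.pts (T.image fun p => (N * N2).mulVec p) (by
        intro p hp hp0
        obtain ⟨p', hp', rfl⟩ := Finset.mem_image.1 hp
        apply hT p' hp'
        have := congrArg (fun q => (M2 * M).mulVec q) hp0
        simpa [Matrix.mulVec_mulVec, hinv'] using this)
      refine ⟨aeval (chg (N * N2) (X : Fin 3 → S3 K)) G, chg_hom _ hG, ?_, ?_⟩
      · rw [← aeval_chg, hzM, chg_chg, hinv, chg_one, hG0]
      · intro p hp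
        rw [eval_chg]
        exact hGT _ (Finset.mem_image_of_mem _ hp))
    V hV (by rw [hshz, hk]) (by rw [hz0, hz1, ht, hshz, hshy])
    (by
      intro u hu h
      rw [hshz] at hu
      rw [hz0, hy0] at h
      exact hinj u hu h)
    (by rw [hshz, hshz]; exact hk2) (by omega)
  have hfin := H.ann k1 _ (chg_hom (M2 * M) hF) (chg_ne_zero hinv hF0) e (by omega) V hV (by
    intro v hv
    rw [← aeval_chg, ← hzM]
    exact hFV v hv)
  refine hfin.trans (Nat.add_le_add (Nat.mul_le_mul_right _ hk1) (Nat.choose_le_choose 2 hk1))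

end Vale.Agent.P200
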