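import Vale.Agent.P200.Basic

namespace Vale.Agent.P200

/-! Pure arithmetic about lex segments in the box `a × b × c`: basic formulas. -/

theorem Shadow.mono {a b c e m M m' M' : ℕ} (h : Shadow a b c e m M) (hm : m' ≤ m) (hM : M ≤ M') :
    Shadow a b c e m' M' := by
  intro i j l hb hr
  obtain ⟨h1, h2, h3⟩ := h i j l hb (hr.trans hm)
  exact ⟨fun h => (h1 h).trans hM, fun h => (h2 h).trans hM, fun h => (h3 h).trans hM⟩

/-- closed formula -/
theorem H2_eq (b c t : ℕ) : H2 b c t = min b (t + 1) - (t + 1 - c) := by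
  rw [H2, ← Nat.card_Ico]
  refine Finset.card_nbij' (fun p => p.1) (fun i => (i, t - i)) ?_ ?_ ?_ ?_
  · rintro ⟨i, j⟩ h
    simp only [Finset.coe_filter, Finset.mem_product, Finset.mem_range, Set.mem_ofPred_eq,
      Finset.coe_Ico, Set.mem_Ico] at h ⊢
    omega
  · intro i h
    simp only [Finset.coe_filter, Finset.mem_product, Finset.mem_range, Set.mem_ofPred_eq,
      Finset.coe_Ico, Set.mem_Ico] at h ⊢
    omega
  · rintro ⟨i, j⟩ h
    simp only [Finset.coe_filter, Finset.mem_product, Finset.mem_range, Set.mem_ofPred_eq] at h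
    simp only [Prod.mk.injEq, true_and]
    omega
  · intro i _
    rfl

/-- layers by the first exponent -/
theorem box_eq_sum (a b c j : ℕ) :
    box a b c j = ∑ i ∈ (Finset.range a).filter (fun i => i ≤ j), H2 b c (j - i) := by
  rw [box, Finset.card_filter, Finset.sum_product, Finset.sum_filter]
  refine Finset.sum_congr rfl fun i _ => ?_
  split_ifs with hij
  · rw [H2, Finset.card_filter]
    refine Finset.sum_congr rfl fun p _ => ?_
    refine if_congr ?_ rfl rfl
    show i + p.1 + p.2 = j ↔ p.1 + p.2 = j - i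
    omega
  · refine Finset.sum_eq_zero fun p _ => if_neg ?_
    simp only
    omega

theorem Lam_eq_sum (a b c e q : ℕ) : Lam a b c e q =
    ∑ i ∈ Finset.range a, if a ≤ i + q ∧ i ≤ e then H2 b c (e - i) else 0 := by
  rw [Lam, Finset.sum_filter]

theorem Lam_zero (a b c e : ℕ) : Lam a b c e 0 = 0 := by
  rw [Lam_eq_sum]
  refine Finset.sum_eq_zero fun i hi => if_neg ?_
  rw [Finset.mem_range] at hi
  omega

/-- one more layer -/
theorem Lam_succ {a b c e q : ℕ} (hq : q < a) :
    Lam a b c e (q + 1) = Lam a b c e q + if a - 1 - q ≤ e then H2 b c (e - (a - 1 - q)) else 0 := by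
  rw [Lam_eq_sum, Lam_eq_sum]
  have h : (if a - 1 - q ≤ e then H2 b c (e - (a - 1 - q)) else 0) =
      ∑ i ∈ Finset.range a, if i = a - 1 - q then (if i ≤ e then H2 b c (e - i) else 0) else 0 := by
    rw [Finset.sum_ite_eq', if_pos (Finset.mem_range.2 (by omega))]
  rw [h, ← Finset.sum_add_distrib]
  refine Finset.sum_congr rfl fun i hi => ?_
  rw [Finset.mem_range] at hi
  split_ifs <;> omega

theorem Lam_mono (a b c e : ℕ) {q q' : ℕ} (h : q ≤ q') : Lam a b c e q ≤ Lam a b c e q' := by
  rw [Lam, Lam]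
  refine Finset.sum_le_sum_of_subset fun i hi => ?_
  rw [Finset.mem_filter] at hi ⊢
  exact ⟨hi.1, by omega, hi.2.2⟩

theorem Lam_self (a b c e : ℕ) : Lam a b c e a = box a b c e := by
  rw [Lam, box_eq_sum]
  refine Finset.sum_congr (Finset.filter_congr fun i _ => by omega) fun _ _ => rfl

/-- symmetry -/
theorem H2_symm (b c t t' : ℕ) (hb : 1 ≤ b) (hc : 1 ≤ c) (h : t + t' + 2 = b + c) :
    H2 b c t = H2 b c t' := by
  rw [H2_eq, H2_eq]
  omega

theorem box_symm (a b c i j : ℕ) (h : i + j + 3 = a + b + c) (ha : 1 ≤ a) (hb : 1 ≤ b)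
    (hc : 1 ≤ c) : box a b c i = box a b c j := by
  rw [box, box]
  refine Finset.card_nbij' (fun p => (a - 1 - p.1, b - 1 - p.2.1, c - 1 - p.2.2))
    (fun p => (a - 1 - p.1, b - 1 - p.2.1, c - 1 - p.2.2)) ?_ ?_ ?_ ?_
  · rintro ⟨p, q, r⟩ h
    simp only [Finset.coe_filter, Finset.mem_product, Finset.mem_range, Set.mem_ofPred_eq] at h ⊢
    omega
  · rintro ⟨p, q, r⟩ h
    simp only [Finset.coe_filter, Finset.mem_product, Finset.mem_range, Set.mem_ofPred_eq] at h ⊢
    omega
  · rintro ⟨p, q, r⟩ h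
    simp only [Finset.coe_filter, Finset.mem_product, Finset.mem_range, Set.mem_ofPred_eq] at h
    simp only [Prod.mk.injEq]
    omega
  · rintro ⟨p, q, r⟩ h
    simp only [Finset.coe_filter, Finset.mem_product, Finset.mem_range, Set.mem_ofPred_eq] at h
    simp only [Prod.mk.injEq]
    omega

theorem choose_two_succ (n : ℕ) : (n+1).choose 2 = n.choose 2 + n := by
  rw [Nat.choose_succ_succ' n 1, Nat.choose_one_right, add_comm]

/-- a rank never exceeds the end of its layer -/
theorem rk_le_Lam {a b c e i j l : ℕ} (h : InBox a b c e i j l) :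
    rk a b c e i j ≤ Lam a b c e (a - i) := by
  obtain ⟨hi, hj, hl, hs⟩ := h
  have h1 := Lam_succ (b := b) (c := c) (e := e) (show a - 1 - i < a by omega)
  rw [show a - 1 - i + 1 = a - i by omega, show a - 1 - (a - 1 - i) = i by omega,
    if_pos (by omega), H2_eq] at h1
  rw [rk, h1]
  omega

/-- ranks are larger than the previous layers -/
theorem Lam_lt_rk (a b c e i j : ℕ) : Lam a b c e (a - 1 - i) < rk a b c e i j := by
  rw [rk]; omega

end Vale.Agent.P200
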