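import Vale.Agent.P200.Basic
import Vale.Agent.P200.LexBase

namespace Vale.Agent.P200

open MvPolynomial Module

variable {K A : Type*} [Field K] [CommRing A] [Algebra K A] {x : Fin 3 → A}
  {gr : ℕ → Submodule K A} {a b c : ℕ}

theorem sh_mem_perpaux (x : Fin 3 → A) (V : Submodule K A) (t : Fin 3) {v : A} (hv : v ∈ V) :
    x t * v ∈ sh x V :=
  (le_iSup (fun i => V.map (LinearMap.mulLeft K (x i))) t) ⟨v, hv, rfl⟩

/-- induction principle for `sh` -/
theorem sh_le_perpaux (x : Fin 3 → A) (V P : Submodule K A) (h : ∀ t, ∀ v ∈ V, x t * v ∈ P) :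
    sh x V ≤ P := by
  unfold sh
  refine iSup_le fun t => ?_
  rintro _ ⟨v, hv, rfl⟩
  exact h t v hv

theorem IsCI0.x_mul_mem_perpaux (H : IsCI0 x gr a b c) {j : ℕ} (t : Fin 3) {v : A}
    (hv : v ∈ gr j) : x t * v ∈ gr (j + 1) := by
  rw [H.gen]
  exact sh_mem_perpaux x _ t hv

theorem IsCI0.mul_mem (H : IsCI0 x gr a b c) {i j : ℕ} {u v : A} (hu : u ∈ gr i)
    (hv : v ∈ gr j) : u * v ∈ gr (i + j) := by
  induction i generalizing u with
  | zero =>
    rw [H.gr0, Submodule.mem_span_singleton] at hu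
    obtain ⟨k, rfl⟩ := hu
    rw [smul_mul_assoc, one_mul, zero_add]
    exact (gr j).smul_mem k hv
  | succ i ih =>
    rw [H.gen] at hu
    have hle : sh x (gr i) ≤ (gr (i + 1 + j)).comap (LinearMap.mulRight K v) := by
      refine sh_le_perpaux x _ _ fun t w hw => ?_
      rw [Submodule.mem_comap, LinearMap.mulRight_apply, mul_assoc]
      have := H.x_mul_mem_perpaux t (ih hw)
      rwa [show i + 1 + j = i + j + 1 by omega]
    exact hle hu

theorem IsCI0.nondeg_perpaux (H : IsCI0 x gr a b c) {i j : ℕ} (hij : i + j + 3 = a + b + c)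
    {u : A} (hu : u ∈ gr i) (h : ∀ w ∈ gr j, u * w = 0) : u = 0 := by
  have key : ∀ n, n ≤ j → ∀ w ∈ gr (j - n), u * w = 0 := by
    intro n
    induction n with
    | zero => intro _ w hw; exact h w hw
    | succ n ih =>
      intro hn w hw
      refine H.soc (i + (j - (n + 1))) (by omega) _ (H.mul_mem hu hw) fun t => ?_
      have h1 := H.x_mul_mem_perpaux t hw
      rw [show j - (n + 1) + 1 = j - n by omega] at h1
      have h2 := ih (by omega) _ h1
      rw [← h2]
      ring
  have h1 := key j le_rfl 1 (by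
    rw [Nat.sub_self, H.gr0]
    exact Submodule.mem_span_singleton_self 1)
  rwa [mul_one] at h1

theorem box_top_perpaux (ha : 1 ≤ a) (hb : 1 ≤ b) (hc : 1 ≤ c) {s : ℕ} (hs : s + 3 = a + b + c) :
    box a b c s = 1 := by
  unfold box
  rw [Finset.card_eq_one]
  refine ⟨(a - 1, b - 1, c - 1), ?_⟩
  ext ⟨p, q, r⟩
  simp only [Finset.mem_filter, Finset.mem_product, Finset.mem_range, Finset.mem_singleton,
    Prod.mk.injEq]
  omega

/-- The multiplication pairing, with values in the one-dimensional top piece. -/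
noncomputable def pairPA (H : IsCI0 x gr a b c) {i j s : ℕ} (hs : i + j = s)
    (φ : gr s →ₗ[K] K) : gr i →ₗ[K] gr j →ₗ[K] K :=
  LinearMap.mk₂ K (fun u w => φ ⟨(u : A) * w, hs ▸ H.mul_mem u.2 w.2⟩)
    (fun u u' w => by
      rw [← map_add]; congr 1; ext; simp [add_mul])
    (fun k u w => by
      rw [← map_smul]; congr 1; ext; simp)
    (fun u w w' => by
      rw [← map_add]; congr 1; ext; simp [mul_add])
    (fun k u w => by
      rw [← map_smul]; congr 1; ext; simp)

theorem pairPA_apply (H : IsCI0 x gr a b c) {i j s : ℕ} (hs : i + j = s)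
    (φ : gr s →ₗ[K] K) (u : gr i) (w : gr j) :
    pairPA H hs φ u w = φ ⟨(u : A) * w, hs ▸ H.mul_mem u.2 w.2⟩ := rfl

theorem IsCI0.exists_top_perpaux (H : IsCI0 x gr a b c) (ha : 1 ≤ a) (hb : 1 ≤ b) (hc : 1 ≤ c)
    {s : ℕ} (hs : s + 3 = a + b + c) :
    ∃ φ : gr s →ₗ[K] K, ∀ w : gr s, φ w = 0 → w = 0 := by
  haveI := H.fin s
  have h1 : finrank K (gr s) = finrank K K := by
    rw [H.dim, box_top_perpaux ha hb hc hs, finrank_self]
  obtain ⟨e⟩ := FiniteDimensional.nonempty_linearEquiv_of_finrank_eq h1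
  refine ⟨e.toLinearMap, fun w hw => ?_⟩
  exact e.map_eq_zero_iff.1 hw

theorem IsCI0.pair_inj_perpaux (H : IsCI0 x gr a b c) {i j s : ℕ} (hs : i + j = s)
    (hs3 : s + 3 = a + b + c) {φ : gr s →ₗ[K] K} (hφ : ∀ w : gr s, φ w = 0 → w = 0) :
    Function.Injective (pairPA H hs φ) := by
  rw [← LinearMap.ker_eq_bot, LinearMap.ker_eq_bot']
  intro u hu
  have h1 : (u : A) = 0 := by
    refine H.nondeg_perpaux (i := i) (j := j) (by omega) u.2 fun w hw => ?_
    have h2 : pairPA H hs φ u ⟨w, hw⟩ = 0 := by rw [hu]; rfl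
    rw [pairPA_apply] at h2
    have h3 := hφ _ h2
    exact congrArg (fun z : gr s => (z : A)) h3
  exact Subtype.ext h1

theorem IsCI0.finrank_eq_perpaux (H : IsCI0 x gr a b c) (ha : 1 ≤ a) (hb : 1 ≤ b) (hc : 1 ≤ c)
    {i j : ℕ} (hij : i + j + 3 = a + b + c) : finrank K (gr i) = finrank K (gr j) := by
  haveI := H.fin i
  haveI := H.fin j
  obtain ⟨φ, hφ⟩ := H.exists_top_perpaux ha hb hc (s := i + j) hij
  have h1 := LinearMap.finrank_le_finrank_of_injective
    (H.pair_inj_perpaux (i := i) (j := j) rfl hij hφ)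
  have h2 := LinearMap.finrank_le_finrank_of_injective
    (H.pair_inj_perpaux (i := j) (j := i) (Nat.add_comm j i) hij hφ)
  have h3 : finrank K (gr j →ₗ[K] K) = finrank K (gr j) := Subspace.dual_finrank_eq
  have h4 : finrank K (gr i →ₗ[K] K) = finrank K (gr i) := Subspace.dual_finrank_eq
  rw [h3] at h1
  rw [h4] at h2
  exact le_antisymm h1 h2

/-- perfect pairing: dimension of the orthogonal -/
theorem IsCI0.perp_dim (H : IsCI0 x gr a b c) (ha : 1 ≤ a) (hb : 1 ≤ b) (hc : 1 ≤ c) {i j : ℕ}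
    (hij : i + j + 3 = a + b + c) (W : Submodule K A) (hW : W ≤ gr j) :
    finrank K (perp (gr i) W) + finrank K W = box a b c i := by
  haveI := H.fin i
  haveI := H.fin j
  obtain ⟨φ, hφ⟩ := H.exists_top_perpaux ha hb hc (s := i + j) hij
  set B := pairPA H (i := i) (j := j) rfl φ with hB
  have hBinj : Function.Injective B := H.pair_inj_perpaux rfl hij hφ
  have hdim : finrank K (gr i) = finrank K (Dual K (gr j)) := by
    rw [Subspace.dual_finrank_eq, H.finrank_eq_perpaux ha hb hc hij]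
  have hBsurj : Function.Surjective B :=
    (LinearMap.injective_iff_surjective_of_finrank_eq_finrank (f := B) hdim).1 hBinj
  -- restriction to W
  let W' : Submodule K (gr j) := W.submoduleOf (gr j)
  let T : gr i →ₗ[K] Dual K W' := W'.dualRestrict.comp B
  have hTsurj : Function.Surjective T :=
    (Subspace.dualRestrict_surjective (W := W')).comp hBsurj
  have hrn := LinearMap.finrank_range_add_finrank_ker T
  have hd : finrank K (Dual K W') = finrank K W' :=
    @Subspace.dual_finrank_eq K W' _ _ _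
  rw [LinearMap.range_eq_top.2 hTsurj, finrank_top, H.dim] at hrn
  rw [hd] at hrn
  have hW' : finrank K W' = finrank K W := (Submodule.submoduleOfEquivOfLe hW).finrank_eq
  have hker : finrank K (LinearMap.ker T) = finrank K (perp (gr i) W) := by
    have h1 : (LinearMap.ker T).map (gr i).subtype = perp (gr i) W := by
      ext u
      constructor
      · rintro ⟨u, hu, rfl⟩
        refine ⟨u.2, fun w hw => ?_⟩
        have h2 : T u ⟨⟨w, hW hw⟩, hw⟩ = 0 := by
          rw [LinearMap.mem_ker.1 hu]; rfl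
        have h3 : B u ⟨w, hW hw⟩ = 0 := h2
        rw [hB, pairPA_apply] at h3
        exact congrArg (fun z : gr (i + j) => (z : A)) (hφ _ h3)
      · rintro ⟨hu, hu'⟩
        refine ⟨⟨u, hu⟩, ?_, rfl⟩
        rw [SetLike.mem_coe, LinearMap.mem_ker]
        ext ⟨w, hw⟩
        change B ⟨u, hu⟩ w = 0
        rw [hB, pairPA_apply]
        have h2 : (⟨u * (w : A), H.mul_mem hu w.2⟩ : gr (i + j)) = 0 :=
          Subtype.ext (hu' w hw)
        rw [h2, map_zero]
    rw [← h1, Submodule.finrank_map_subtype_eq]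
  omega

theorem IsCI0.perp_perp (H : IsCI0 x gr a b c) (ha : 1 ≤ a) (hb : 1 ≤ b) (hc : 1 ≤ c) {i j : ℕ}
    (hij : i + j + 3 = a + b + c) (W : Submodule K A) (hW : W ≤ gr j) :
    perp (gr j) (perp (gr i) W) = W := by
  haveI := H.fin i
  haveI := H.fin j
  have h1 := H.perp_dim ha hb hc hij W hW
  have hle : perp (gr i) W ≤ gr i := fun u hu => hu.1
  have h2 := H.perp_dim ha hb hc (i := j) (j := i) (by omega) (perp (gr i) W) hle
  have h3 := H.finrank_eq_perpaux ha hb hc hij
  rw [H.dim, H.dim] at h3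
  haveI : Module.Finite K (perp (gr j) (perp (gr i) W)) :=
    Submodule.finiteDimensional_of_le (S₂ := gr j) fun u hu => hu.1
  have hle2 : W ≤ perp (gr j) (perp (gr i) W) := by
    intro w hw
    refine ⟨hW hw, fun u hu => ?_⟩
    rw [mul_comm]
    exact hu.2 w hw
  exact (Submodule.eq_of_le_of_finrank_eq hle2 (by omega)).symm

/-- `S_1 (S_1 V)^⊥ ≤ V^⊥` -/
theorem IsCI0.sh_perp_le (H : IsCI0 x gr a b c) {i : ℕ} (V : Submodule K A) :
    sh x (perp (gr i) (sh x V)) ≤ perp (gr (i+1)) V := by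
  refine sh_le_perpaux x _ _ fun t w hw => ⟨H.x_mul_mem_perpaux t hw.1, fun v hv => ?_⟩
  have h1 := hw.2 _ (sh_mem_perpaux x V t hv)
  rw [← h1]
  ring

end Vale.Agent.P200
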