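import Vale.Agent.P200.Basic
import Vale.Agent.P200.Lex
import Vale.Agent.P200.Perp
import Vale.Agent.P200.Pencil
import Vale.Agent.P200.KL
import Vale.Agent.P200.KLFinal

namespace Vale.Agent.P200

open MvPolynomial Module

variable {K A : Type*} [Field K] [CommRing A] [Algebra K A] {x : Fin 3 → A}
  {gr : ℕ → Submodule K A} {a b c : ℕ}

theorem sh_mono {V W : Submodule K A} (h : V ≤ W) : sh x V ≤ sh x W :=
  sh_le fun i _ hv => mem_sh i (h hv)

theorem IsCI0.sh_le_gr (H : IsCI0 x gr a b c) {e : ℕ} {V : Submodule K A} (hV : V ≤ gr e) :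
    sh x V ≤ gr (e+1) := by
  rw [H.gen]; exact sh_mono hV

theorem IsCI0.fin_of_le (H : IsCI0 x gr a b c) {e : ℕ} {V : Submodule K A} (hV : V ≤ gr e) :
    Module.Finite K V :=
  haveI := H.fin e
  Submodule.finiteDimensional_of_le hV

/-- `lin x t * v` belongs to the shadow -/
theorem lin_mem_sh (t : Fin 3 → K) {V : Submodule K A} {v : A} (hv : v ∈ V) :
    lin x t * v ∈ sh x V := by
  rw [lin, Finset.sum_mul]
  refine Submodule.sum_mem _ fun i _ => ?_
  rw [smul_mul_assoc]
  exact Submodule.smul_mem _ _ (mem_sh i hv)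

/-- injectivity of a linear form gives growth -/
theorem finrank_le_of_inj (t : Fin 3 → K) {V : Submodule K A} [Module.Finite K V]
    (h : ∀ v ∈ V, lin x t * v = 0 → v = 0) : finrank K V ≤ finrank K (sh x V) := by
  haveI := sh_fin x V
  let f : V →ₗ[K] sh x V := (LinearMap.mulLeft K (lin x t)).restrict (fun v hv => lin_mem_sh t hv)
  refine LinearMap.finrank_le_finrank_of_injective (f := f) ?_
  rw [← LinearMap.ker_eq_bot, LinearMap.ker_eq_bot']
  intro v hv
  exact Subtype.ext (h v v.2 (congrArg Subtype.val hv))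

theorem inj_of_inj_sh (H : IsCI0 x gr a b c) {e : ℕ} (he : e + 3 < a + b + c)
    {V : Submodule K A} (hV : V ≤ gr e) (t : Fin 3 → K)
    (h : ∀ u ∈ sh x V, lin x t * u = 0 → u = 0) : ∀ v ∈ V, lin x t * v = 0 → v = 0 := by
  intro v hv h0
  refine H.soc e he v (hV hv) fun i => h _ (mem_sh i hv) ?_
  rw [mul_left_comm, h0, mul_zero]

theorem choose2_succ (n : ℕ) : (n+1).choose 2 = n.choose 2 + n := by
  rw [Nat.choose_succ_succ' n 1, Nat.choose_one_right, add_comm]

theorem choose2_mono {k k' : ℕ} (h : k ≤ k') : k.choose 2 ≤ k'.choose 2 :=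
  Nat.choose_le_choose 2 h

theorem LL_mono {r k k' : ℕ} (h : k ≤ k') :
    k * r + k.choose 2 ≤ k' * r + k'.choose 2 :=
  Nat.add_le_add (Nat.mul_le_mul_right _ h) (choose2_mono h)

theorem LL_pred {r k k1 m m1 : ℕ} (h1 : m1 ≤ k1 * r + k1.choose 2) (hk : k1 + 1 ≤ k)
    (hm : m + 1 ≤ m1 + k) : m ≤ k * r + k.choose 2 := by
  obtain ⟨k, rfl⟩ : ∃ k', k = k' + 1 := ⟨k - 1, by omega⟩
  have h2 := LL_mono (r := r) (show k1 ≤ k by omega)
  rw [choose2_succ]
  have : k * r ≤ (k+1) * r := Nat.mul_le_mul_right _ (by omega)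
  omega

theorem low_aux [IsAlgClosed K] (ha : 1 ≤ a) (hab : a ≤ b) (hbc : b ≤ c)
    (H : IsCI0 x gr a b c) (k : ℕ) : ∀ e, e + k + 3 ≤ c → ∀ V : Submodule K A, V ≤ gr e →
      finrank K (sh x V) = finrank K V + k → k + 1 ≤ H2 a b (e+1) →
      finrank K V ≤ k * (e + 2 - a) + k.choose 2 := by
  induction k using Nat.strong_induction_on with
  | _ k IH =>
  intro e he V hV hk hkH
  by_contra hcon
  have hH := H2_le a b (e+1) (by omega)
  obtain ⟨t0, ht0⟩ := H.nzd
  have hinjV : ∀ v ∈ V, lin x t0 * v = 0 → v = 0 := fun v hv => ht0 e (by omega) v (hV hv)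
  have hinjS : ∀ v ∈ sh x V, lin x t0 * v = 0 → v = 0 := fun v hv =>
    ht0 (e+1) (by omega) v (H.sh_le_gr hV hv)
  haveI := H.fin_of_le hV
  haveI := H.fin_of_le (H.sh_le_gr hV)
  refine hcon (kl_final H (by omega) e k V hV hk t0 hinjS ?_ ?_ (by omega))
  · intro V1 hV1 h1 h2
    haveI := H.fin_of_le (hV1.trans hV)
    have h3 : finrank K V1 ≤ finrank K (sh x V1) :=
      finrank_le_of_inj t0 fun v hv => hinjV v (hV1 hv)
    obtain ⟨k1, hk1⟩ := Nat.exists_eq_add_of_le h3
    have := IH k1 (by omega) e (by omega) V1 (hV1.trans hV) hk1 (by omega)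
    exact hcon (LL_pred this (by omega) h1)
  · by_contra h1
    have h3 : finrank K (sh x V) ≤ finrank K (sh x (sh x V)) := finrank_le_of_inj t0 hinjS
    obtain ⟨k', hk'⟩ := Nat.exists_eq_add_of_le h3
    have hH2 := H2_le_succ a b (e+1)
    have := IH k' (by omega) (e+1) (by omega) _ (H.sh_le_gr hV) hk' (by omega)
    have h5 : k' * (e + 1 + 2 - a) ≤ k' * (e + 2 - a) + k' := by
      calc k' * (e + 1 + 2 - a) ≤ k' * (e + 2 - a + 1) := Nat.mul_le_mul_left _ (by omega)
        _ = _ := by ring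
    have h6 := LL_mono (r := e + 2 - a) (show k' ≤ k by omega)
    omega

/-- growth in the range `e + a + 3 ≤ c` -/
theorem growth_low [IsAlgClosed K] (ha : 1 ≤ a) (hab : a ≤ b) (hbc : b ≤ c)
    (H : IsCI0 x gr a b c) (e : ℕ) (he : e + a + 3 ≤ c) (V : Submodule K A) (hV : V ≤ gr e) :
    Shadow a b c e (finrank K V) (finrank K (sh x V)) := by
  obtain ⟨t0, ht0⟩ := H.nzd
  haveI := H.fin_of_le hV
  have h3 : finrank K V ≤ finrank K (sh x V) :=
    finrank_le_of_inj t0 fun v hv => ht0 e (by omega) v (hV hv)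
  obtain ⟨k, hk⟩ := Nat.exists_eq_add_of_le h3
  by_cases hkH : H2 a b (e+1) ≤ k
  · exact shadow_low_top ha hab hbc (by omega) (by omega)
  · have hHa : H2 a b (e+1) ≤ a := by
      rw [H2_eq]; omega
    have := low_aux ha hab hbc H k e (by omega) V hV hk (by omega)
    exact shadow_low_I ha hab hbc (by omega) (k := k) (by omega) this (by omega)

/-- a counterexample in the middle range -/
structure Bad (x : Fin 3 → A) (gr : ℕ → Submodule K A) (a b c e d : ℕ) (V : Submodule K A) :
    Prop where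
  hV : V ≤ gr e
  he1 : c ≤ e + 1
  he2 : e + 3 ≤ a + b
  hd : 1 ≤ d
  hw : finrank K (sh x V) + d = finrank K V + (a + b - 2 - e)
  notI : ∀ k, k + d = a + b - 2 - e → k * (e + 2 - a) + k.choose 2 < finrank K V
  notII : d ≤ e + 2 - c →
    finrank K V + (a + b - 1 - e).choose 2 + d.choose 2 < b * (a + c - 2 - e + d)

theorem quad_mono {b p q : ℕ} (hpq : p ≤ q) (hq : q ≤ b + 1) :
    b * p + q.choose 2 ≤ b * q + p.choose 2 := by
  induction q, hpq using Nat.le_induction with
  | base => omega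
  | succ q hq' ih =>
    have := ih (by omega)
    rw [choose2_succ, mul_add]
    omega

theorem mid_inj [IsAlgClosed K] (ha : 1 ≤ a) (hab : a ≤ b) (hbc : b ≤ c)
    (H : IsCI0 x gr a b c) {e d : ℕ} {V : Submodule K A} (hB : Bad x gr a b c e d V)
    (hmax : ∀ e' d' V', d < d' → ¬ Bad x gr a b c e' d' V')
    (t0 : Fin 3 → K) (hinjS : ∀ u ∈ sh x V, lin x t0 * u = 0 → u = 0) : False := by
  obtain ⟨hV, he1, he2, hd, hw, notI, notII⟩ := hB
  have hinjV := inj_of_inj_sh H (by omega) hV t0 hinjS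
  haveI := H.fin_of_le hV
  haveI := H.fin_of_le (H.sh_le_gr hV)
  have h0 : finrank K V ≤ finrank K (sh x V) := finrank_le_of_inj t0 hinjV
  obtain ⟨k, hk⟩ := Nat.exists_eq_add_of_le h0
  have hkd : k + d = a + b - 2 - e := by omega
  have hnI := notI k hkd
  refine absurd (kl_final H (by omega) e k V hV hk t0 hinjS ?_ ?_ (by omega)) (by omega)
  · intro V1 hV1 h1 h2
    haveI := H.fin_of_le (hV1.trans hV)
    have h3 : finrank K V1 ≤ finrank K (sh x V1) :=
      finrank_le_of_inj t0 fun v hv => hinjV v (hV1 hv)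
    obtain ⟨k1, hk1⟩ := Nat.exists_eq_add_of_le h3
    have hle : finrank K V1 ≤ finrank K V := Submodule.finrank_mono hV1
    refine hmax e (a + b - 2 - e - k1) V1 (by omega) ⟨hV1.trans hV, he1, he2, by omega, by omega,
      ?_, ?_⟩
    · intro k' hk'
      by_contra hcon
      have hk'k : k' = k1 := by omega
      subst hk'k
      have := LL_pred (m := finrank K V) (k := k) (not_lt.1 hcon) (by omega) (by omega)
      omega
    · intro hd'
      have h4 := notII (by omega)
      have h5 := quad_mono (b := b) (show d ≤ a + b - 2 - e - k1 by omega) (by omega)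
      rw [mul_add] at h4 ⊢
      omega
  · by_contra h1
    have h3 : finrank K (sh x V) ≤ finrank K (sh x (sh x V)) := finrank_le_of_inj t0 hinjS
    obtain ⟨k', hk'⟩ := Nat.exists_eq_add_of_le h3
    refine hmax (e+1) (a + b - 3 - e - k') _ (by omega) ⟨H.sh_le_gr hV, by omega, by omega,
      by omega, by omega, ?_, ?_⟩
    · intro k'' hk''
      by_contra hcon
      have hk'k : k'' = k' := by omega
      subst hk'k
      have h5 : k'' * (e + 1 + 2 - a) = k'' * (e + 2 - a) + k'' := by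
        rw [show e + 1 + 2 - a = e + 2 - a + 1 by omega]; ring
      have h6 := LL_mono (r := e + 2 - a) (show k'' ≤ k by omega)
      omega
    · intro hd'
      have h4 := notII (by omega)
      have h5 := quad_mono (b := b) (show d + 1 ≤ a + b - 3 - e - k' by omega) (by omega)
      have h6 : (a + b - 1 - e).choose 2 = (a + b - 1 - (e+1)).choose 2 + (a + b - 2 - e) := by
        rw [show a + b - 1 - e = (a + b - 2 - e) + 1 by omega, choose2_succ,
          show a + b - 1 - (e+1) = a + b - 2 - e by omega]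
      rw [choose2_succ] at h5
      have h7 : b * (a + c - 2 - e + d) = b * (a + c - 2 - (e+1)) + b * (d+1) := by
        rw [← mul_add]; congr 1; omega
      have h8 : b * (a + c - 2 - (e + 1) + (a + b - 3 - e - k')) =
        b * (a + c - 2 - (e+1)) + b * (a + b - 3 - e - k') := by rw [mul_add]
      rw [h8]
      rw [h7, h6] at h4
      omega

/-- polynomial identities for the duality -/
theorem dual_id1 {a b c e d h' w w' : ℕ} (hw : w + e + 2 = a + b) (hw' : w' + c = e + 2)
    (hdw : d ≤ w') (hbc : b ≤ c) (hab : a ≤ b) (hw'a : w' ≤ a)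
    (hbox : h' + w.choose 2 + (w' + 1).choose 2 = a * b) {m M x : ℕ}
    (hM : M + d = m + w) (hx : x + M = h')
    (hx2 : x ≤ (w' - d) * (b - w') + (w' - d).choose 2) :
    b * (a + c - 2 - e + d) ≤ m + (w + 1).choose 2 + d.choose 2 := by
  obtain ⟨p, rfl⟩ := Nat.exists_eq_add_of_le hdw
  obtain ⟨q, rfl⟩ : ∃ q, b = d + p + q := Nat.exists_eq_add_of_le (by omega)
  have e1 : a + c - 2 - e + d = a - p := by omega
  obtain ⟨r, rfl⟩ : ∃ r, a = p + r := Nat.exists_eq_add_of_le (by omega)
  rw [e1]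
  rw [Nat.add_sub_cancel_left, Nat.add_sub_cancel_left] at hx2
  rw [Nat.add_sub_cancel_left]
  have c1 : ∀ n : ℕ, ((n.choose 2 : ℕ) : ℤ) * 2 = n * (n - 1) := by
    intro n
    induction n with
    | zero => simp
    | succ n ih => rw [choose2_succ]; push_cast; linarith [ih]
  have h1 := c1 w
  have h2 := c1 (d + p + 1)
  have h3 := c1 p
  have h4 := c1 (w + 1)
  have h5 := c1 d
  zify at hbox hM hx hx2 ⊢
  push_cast at h1 h2 h3 h4 h5
  nlinarith [h1, h2, h3, h4, h5, hbox, hM, hx, hx2]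


theorem dual_id2 {a b c e d d' h' w w' : ℕ} (hw : w + e + 2 = a + b) (hw' : w' + c = e + 2)
    (hdd : d ≤ d') (hd'w : d' ≤ w) (hbc : b ≤ c) (hab : a ≤ b) (hwa : w ≤ a)
    (hbox : h' + w.choose 2 + (w' + 1).choose 2 = a * b) {m M x : ℕ}
    (hM : M + d = m + w) (hx : x + M = h')
    (hx2 : b * (a - w + d') ≤ x + (w' + 1).choose 2 + d'.choose 2) :
    m ≤ (w - d) * (b - w) + (w - d).choose 2 := by
  have h0 := quad_mono (b := b) hdd (by omega)
  rw [mul_add] at hx2
  obtain ⟨p, rfl⟩ := Nat.exists_eq_add_of_le (hdd.trans hd'w)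
  obtain ⟨q, rfl⟩ : ∃ q, b = d + p + q := Nat.exists_eq_add_of_le (by omega)
  obtain ⟨r, rfl⟩ : ∃ r, a = d + p + r := Nat.exists_eq_add_of_le (by omega)
  rw [Nat.add_sub_cancel_left] at hx2
  rw [Nat.add_sub_cancel_left, Nat.add_sub_cancel_left]
  have c1 : ∀ n : ℕ, ((n.choose 2 : ℕ) : ℤ) * 2 = n * (n - 1) := by
    intro n
    induction n with
    | zero => simp
    | succ n ih => rw [choose2_succ]; push_cast; linarith [ih]
  have h1 := c1 (d + p)
  have h3 := c1 p
  have h5 := c1 d
  zify at hbox hM hx hx2 h0 ⊢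
  push_cast at h1 h3 h5
  nlinarith [h1, h3, h5, hbox, hM, hx, hx2, h0]

theorem perp_le {G W : Submodule K A} : perp G W ≤ G := fun _ h => h.1

theorem mid_dual (ha : 1 ≤ a) (hab : a ≤ b) (hbc : b ≤ c)
    (H : IsCI0 x gr a b c) {e d : ℕ} {V : Submodule K A} (hB : Bad x gr a b c e d V)
    (e' : ℕ) (he : e + e' + 4 = a + b + c) :
    finrank K (sh x (perp (gr e') (sh x V))) + finrank K V ≤ box a b c e ∧
    ∃ d', d ≤ d' ∧ Bad x gr a b c e' d' (perp (gr e') (sh x V)) := by
  obtain ⟨hV, he1, he2, hd, hw, notI, notII⟩ := hB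
  set W := perp (gr e') (sh x V) with hW
  have hWle : W ≤ gr e' := perp_le
  have hdim := H.perp_dim ha (ha.trans hab) (ha.trans (hab.trans hbc)) (i := e') (j := e+1)
    (by omega) (sh x V) (H.sh_le_gr hV)
  have hdim2 := H.perp_dim ha (ha.trans hab) (ha.trans (hab.trans hbc)) (i := e'+1) (j := e)
    (by omega) V hV
  have hle : finrank K (sh x W) ≤ finrank K (perp (gr (e'+1)) V) := by
    haveI := H.fin_of_le (e := e'+1) (V := perp (gr (e'+1)) V) perp_le
    exact Submodule.finrank_mono (H.sh_perp_le V)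
  have hs1 := box_symm a b c e' (e+1) (by omega) ha (ha.trans hab) (ha.trans (hab.trans hbc))
  have hs2 := box_symm a b c (e'+1) e (by omega) ha (ha.trans hab) (ha.trans (hab.trans hbc))
  have hb1 := box_mid ha hab hbc he1 (e := e) (by omega)
  have hb2 := box_mid ha hab hbc (e := e+1) (by omega) (by omega)
  obtain ⟨w, hww⟩ : ∃ w, w + e + 2 = a + b := ⟨a + b - 2 - e, by omega⟩
  obtain ⟨w', hww'⟩ : ∃ w', w' + c = e + 2 := ⟨e + 2 - c, by omega⟩
  rw [show a + b - 1 - e = w + 1 by omega, show e + 2 - c = w' by omega] at hb1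
  rw [show a + b - 1 - (e+1) = w by omega, show e + 1 + 2 - c = w' + 1 by omega] at hb2
  rw [show a + b - 2 - e = w by omega] at hw
  have c1 := choose2_succ w
  have c2 := choose2_succ w'
  rw [← hW] at hdim
  refine ⟨by omega, ?_⟩
  refine ⟨finrank K W + w' - finrank K (sh x W), by omega, ⟨hWle, by omega, by omega, by omega,
    by omega, ?_, ?_⟩⟩
  · intro k hk
    by_contra hcon
    have hdw' : d ≤ w' := by omega
    have h1 := notII (by omega)
    have hk2 : k ≤ w' - d := by omega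
    have h2 := LL_mono (r := e' + 2 - a) hk2
    rw [show e' + 2 - a = b - w' by omega] at h2 hcon
    have := dual_id1 (m := finrank K V) (M := finrank K (sh x V)) (x := finrank K W)
      hww hww' hdw' hbc hab (by omega) hb2 hw (by omega) (by omega)
    rw [show a + b - 1 - e = w + 1 by omega] at h1
    omega
  · intro hd'
    by_contra hcon
    have hdw : d ≤ w := by omega
    have h1 := notI (w - d) (by omega)
    rw [show a + b - 1 - e' = w' + 1 by omega,
      show a + c - 2 - e' + (finrank K W + w' - finrank K (sh x W)) =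
        a - w + (finrank K W + w' - finrank K (sh x W)) by omega] at hcon
    have := dual_id2 (m := finrank K V) (M := finrank K (sh x V)) (x := finrank K W)
      (d' := finrank K W + w' - finrank K (sh x W))
      hww hww' (d := d) (by omega) (by omega) hbc hab (by omega) hb2 hw (by omega) (by omega)
    rw [show e + 2 - a = b - w by omega] at h1
    omega

theorem mid_aux [IsAlgClosed K] (ha : 1 ≤ a) (hab : a ≤ b) (hbc : b ≤ c)
    (H : IsCI0 x gr a b c) (G : Green x gr a b c) (n : ℕ) :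
    ∀ e d, a * b + a + b ≤ n + d → ∀ V : Submodule K A, ¬ Bad x gr a b c e d V := by
  induction n using Nat.strong_induction_on with
  | _ n IH =>
  intro e d hn V hB
  have hmax : ∀ e' d' V', d < d' → ¬ Bad x gr a b c e' d' V' := by
    intro e' d' V' hdd hB'
    -- bound on `d'`
    rcases Nat.eq_zero_or_pos n with hn0 | hn0
    · obtain ⟨hV, he1, he2, hd, hw, -, -⟩ := hB'
      haveI := H.fin e'
      have h1 := Submodule.finrank_mono hV
      rw [H.dim e'] at h1
      have h2 := box_mid ha hab hbc he1 (e := e') (by omega)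
      omega
    · exact IH (n - 1) (by omega) e' d' (by omega) V' hB'
  by_cases hinj : ∃ t0 : Fin 3 → K, ∀ u ∈ sh x V, lin x t0 * u = 0 → u = 0
  · obtain ⟨t0, ht0⟩ := hinj
    exact mid_inj ha hab hbc H hB hmax t0 ht0
  obtain ⟨e', he'⟩ : ∃ e', e + e' + 4 = a + b + c := ⟨a + b + c - 4 - e, by
    have := hB.he1; have := hB.he2; omega⟩
  obtain ⟨hle, d', hdd', hB'⟩ := mid_dual ha hab hbc H hB e' he'
  have hd'd : d' = d := by
    by_contra hne
    exact hmax e' d' _ (by omega) hB'
  subst hd'd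
  by_cases hinj' : ∃ t0 : Fin 3 → K, ∀ u ∈ sh x (perp (gr e') (sh x V)),
      lin x t0 * u = 0 → u = 0
  · obtain ⟨t0, ht0⟩ := hinj'
    exact mid_inj ha hab hbc H hB' hmax t0 ht0
  push Not at hinj hinj'
  obtain ⟨hV, he1, he2, hd, hw, -, -⟩ := hB
  have g1 := G (e+1) (by omega) (by omega) _ (H.sh_le_gr hV) (fun t => by
    obtain ⟨u, hu, h0, hne⟩ := hinj t
    exact ⟨u, hu, hne, h0⟩)
  have g2 := G (e'+1) (by omega) (by omega) _ (H.sh_le_gr hB'.hV) (fun t => by
    obtain ⟨u, hu, h0, hne⟩ := hinj' t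
    exact ⟨u, hu, hne, h0⟩)
  have hb1 := box_mid ha hab hbc he1 (e := e) (by omega)
  have h1 : b * (a + c - 1 - (e+1)) + b * (a + c - 1 - (e'+1)) = b * (a + (c - b)) := by
    rw [← mul_add]; congr 1; omega
  have h2 : a * b ≤ b * (a + (c - b)) := by
    rw [mul_comm a b]; exact Nat.mul_le_mul_left _ (by omega)
  have h3 : (a + b - 1 - e).choose 2 = (a + b - 2 - e).choose 2 + (a + b - 2 - e) := by
    rw [show a + b - 1 - e = (a + b - 2 - e) + 1 by omega, choose2_succ]
  omega

/-- growth in the middle range -/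
theorem growth_mid [IsAlgClosed K] (ha : 1 ≤ a) (hab : a ≤ b) (hbc : b ≤ c)
    (H : IsCI0 x gr a b c) (G : Green x gr a b c) (e : ℕ) (he1 : c ≤ e + 1)
    (he2 : e + 3 ≤ a + b) (V : Submodule K A) (hV : V ≤ gr e) :
    Shadow a b c e (finrank K V) (finrank K (sh x V)) := by
  by_cases htop : finrank K V + (a + b - 2 - e) ≤ finrank K (sh x V)
  · exact shadow_mid_top ha hab hbc he1 he2 htop
  obtain ⟨d, hd⟩ : ∃ d, finrank K (sh x V) + d = finrank K V + (a + b - 2 - e) :=
    ⟨finrank K V + (a + b - 2 - e) - finrank K (sh x V), by omega⟩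
  by_cases hI : ∃ k, k + d = a + b - 2 - e ∧ finrank K V ≤ k * (e + 2 - a) + k.choose 2
  · obtain ⟨k, hk, hk2⟩ := hI
    exact shadow_mid_I ha hab hbc he1 he2 (k := k) (by omega) hk2 (by omega)
  by_cases hII : d ≤ e + 2 - c ∧
      b * (a + c - 2 - e + d) ≤ finrank K V + (a + b - 1 - e).choose 2 + d.choose 2
  · exact shadow_mid_II ha hab hbc he1 he2 hII.1 hII.2 (by omega)
  exfalso
  push Not at hI hII
  exact mid_aux ha hab hbc H G (a * b + a + b) e d (by omega) V
    ⟨hV, he1, he2, by omega, hd, hI, hII⟩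

/-- duality -/
theorem growth_dual (ha : 1 ≤ a) (hab : a ≤ b) (hbc : b ≤ c)
    (H : IsCI0 x gr a b c) (e e' : ℕ) (he : e + e' + 4 = a + b + c)
    (h : ∀ V : Submodule K A, V ≤ gr e' → Shadow a b c e' (finrank K V) (finrank K (sh x V)))
    (V : Submodule K A) (hV : V ≤ gr e) :
    Shadow a b c e (finrank K V) (finrank K (sh x V)) := by
  have hb := ha.trans hab
  have hc := hb.trans hbc
  have hdim := H.perp_dim ha hb hc (i := e') (j := e+1) (by omega) (sh x V) (H.sh_le_gr hV)
  have hdim2 := H.perp_dim ha hb hc (i := e'+1) (j := e) (by omega) V hV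
  have hle : finrank K (sh x (perp (gr e') (sh x V))) ≤ finrank K (perp (gr (e'+1)) V) := by
    haveI := H.fin_of_le (e := e'+1) (V := perp (gr (e'+1)) V) perp_le
    exact Submodule.finrank_mono (H.sh_perp_le V)
  have hs1 := box_symm a b c e' (e+1) (by omega) ha hb hc
  have hs2 := box_symm a b c (e'+1) e (by omega) ha hb hc
  refine shadow_dual ha hb hc he (by omega) (by omega) ?_
  exact (h (perp (gr e') (sh x V)) perp_le).mono (by omega) (by omega)

end Vale.Agent.P200
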