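import Vale.Agent.P200.CIBasic
import Vale.Agent.P200.KLModule

namespace Vale.Agent.P200

open MvPolynomial Module

variable {K : Type*} [Field K]

lemma cid_X0_dvd {p q : S3 K} (h : X 1 * p = X 0 * q) : ∃ r, p = X 0 * r := by
  have h1 : (X 0 : S3 K) ∣ X 1 * p := ⟨q, h⟩
  rcases X_dvd_mul_iff.1 h1 with h2 | h2
  · rw [X_dvd_X] at h2
    exact absurd h2 (by decide)
  · exact h2

/-- a regular sequence of length two has no socle modulo it -/
theorem depth_two {F G u : S3 K} (hF : F ≠ 0) (hFG : ∀ u v, G * u = F * v → ∃ w, u = F * w)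
    (hu : ∀ i, ∃ p q, X i * u = F * p + G * q) : ∃ p q, u = F * p + G * q := by
  obtain ⟨p0, q0, h0⟩ := hu 0
  obtain ⟨p1, q1, h1⟩ := hu 1
  obtain ⟨p2, q2, h2⟩ := hu 2
  obtain ⟨c01, e01⟩ := hFG (X 1 * q0 - X 0 * q1) (X 0 * p1 - X 1 * p0) (by
    linear_combination (X 0 : S3 K) * h1 - (X 1 : S3 K) * h0)
  obtain ⟨c02, e02⟩ := hFG (X 2 * q0 - X 0 * q2) (X 0 * p2 - X 2 * p0) (by
    linear_combination (X 0 : S3 K) * h2 - (X 2 : S3 K) * h0)
  obtain ⟨c12, e12⟩ := hFG (X 2 * q1 - X 1 * q2) (X 1 * p2 - X 2 * p1) (by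
    linear_combination (X 1 : S3 K) * h2 - (X 2 : S3 K) * h1)
  have g01 : X 0 * p1 - X 1 * p0 = G * c01 := by
    apply mul_left_cancel₀ hF
    linear_combination (X 1 : S3 K) * h0 - (X 0 : S3 K) * h1 + G * e01
  have hc : X 0 * c12 + X 1 * (-c02) + X 2 * c01 = 0 := by
    apply mul_left_cancel₀ hF
    linear_combination - (X 0 : S3 K) * e12 + (X 1 : S3 K) * e02 - (X 2 : S3 K) * e01
  obtain ⟨d01, d02, d12, k0, k1, k2⟩ := klm_kos0 _ _ _ hc
  obtain ⟨q, hq⟩ := cid_X0_dvd (p := q0 + F * d12) (q := q1 - F * d02) (by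
    linear_combination e01 + F * k2)
  obtain ⟨p, hp⟩ := cid_X0_dvd (p := p0 - G * d12) (q := p1 + G * d02) (by
    linear_combination - g01 - G * k2)
  refine ⟨p, q, ?_⟩
  apply mul_left_cancel₀ (X_ne_zero (R := K) (0 : Fin 3))
  linear_combination h0 + F * hp + G * hq

lemma cid_two_vars {F u : S3 K} (hF : F ≠ 0) (h0 : ∃ p, X 0 * u = F * p)
    (h1 : ∃ p, X 1 * u = F * p) : ∃ p, u = F * p := by
  obtain ⟨p0, h0⟩ := h0
  obtain ⟨p1, h1⟩ := h1
  obtain ⟨r, hr⟩ := cid_X0_dvd (p := p0) (q := p1) (by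
    apply mul_left_cancel₀ hF
    linear_combination (X 0 : S3 K) * h1 - (X 1 : S3 K) * h0)
  refine ⟨r, ?_⟩
  apply mul_left_cancel₀ (X_ne_zero (R := K) (0 : Fin 3))
  linear_combination h0 + F * hr

theorem depth_one {F u : S3 K} (hF : F ≠ 0) (hu : ∀ i, ∃ p, X i * u = F * p) :
    ∃ p, u = F * p :=
  cid_two_vars hF (hu 0) (hu 1)

/-- finitely many primes cover the zero divisors modulo an ideal -/
lemma cid_ass (J : Ideal (S3 K)) : ∃ Ps : Finset (Ideal (S3 K)),
    (∀ P ∈ Ps, P.IsPrime ∧ ∃ u, u ∉ J ∧ ∀ r, r ∈ P ↔ r * u ∈ J) ∧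
    (∀ q u, q * u ∈ J → u ∉ J → ∃ P ∈ Ps, q ∈ P) := by
  classical
  have hfin := associatedPrimes.finite (S3 K) (S3 K ⧸ J)
  refine ⟨hfin.toFinset, ?_, ?_⟩
  · intro P hP
    rw [Set.Finite.mem_toFinset, AssociatedPrimes.mem_iff, isAssociatedPrime_iff] at hP
    obtain ⟨hP, x, hx⟩ := hP
    obtain ⟨u, rfl⟩ := Ideal.Quotient.mk_surjective x
    have hr : ∀ r, r ∈ P ↔ r * u ∈ J := by
      intro r
      rw [hx, Submodule.mem_colon_singleton, Submodule.mem_bot]
      have h1 : r • (Ideal.Quotient.mk J) u = (Ideal.Quotient.mk J) (r * u) := rfl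
      rw [h1, Ideal.Quotient.eq_zero_iff_mem]
    refine ⟨hP, u, ?_, hr⟩
    intro hu
    exact hP.ne_top ((Ideal.eq_top_iff_one _).2 ((hr 1).2 (by rwa [one_mul])))
  · intro q u hqu hu
    have h1 : q ∈ ⋃ p ∈ associatedPrimes (S3 K) (S3 K ⧸ J), (p : Set (S3 K)) := by
      rw [biUnion_associatedPrimes_eq_zero_divisors]
      refine ⟨Ideal.Quotient.mk J u, ?_, ?_⟩
      · rwa [Ne, Ideal.Quotient.eq_zero_iff_mem]
      · have h1 : q • (Ideal.Quotient.mk J) u = (Ideal.Quotient.mk J) (q * u) := rfl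
        rwa [h1, Ideal.Quotient.eq_zero_iff_mem]
    obtain ⟨P, hP, hq⟩ := Set.mem_iUnion₂.1 h1
    exact ⟨P, by rwa [Set.Finite.mem_toFinset], hq⟩

/-- prime avoidance by subspaces over an infinite field -/
lemma cid_avoid [Infinite K] {E : Type*} [AddCommGroup E] [Module K E] {ι : Type*}
    (s : Finset ι) (p : ι → Submodule K E) (hp : ∀ i ∈ s, ∃ v, v ∉ p i) :
    ∃ v, ∀ i ∈ s, v ∉ p i := by
  classical
  by_contra hcon
  push Not at hcon
  have h1 : ⋃ q ∈ s.image p, (q : Set E) = Set.univ := by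
    rw [Set.eq_univ_iff_forall]
    intro v
    obtain ⟨i, hi, hv⟩ := hcon v
    exact Set.mem_iUnion₂.2 ⟨p i, Finset.mem_image_of_mem p hi, hv⟩
  have h2 := Subspace.top_mem_of_biUnion_eq_univ h1
  obtain ⟨i, hi, hti⟩ := Finset.mem_image.1 h2
  obtain ⟨v, hv⟩ := hp i hi
  exact hv (hti ▸ Submodule.mem_top)

lemma cid_avoid_sub [Infinite K] (W : Submodule K (S3 K)) (Ps : Finset (Ideal (S3 K)))
    (h : ∀ P ∈ Ps, ∃ q ∈ W, q ∉ P) : ∃ q ∈ W, ∀ P ∈ Ps, q ∉ P := by
  obtain ⟨v, hv⟩ := cid_avoid (K := K) Ps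
    (fun P => (P.restrictScalars K).comap W.subtype) (fun P hP => by
      obtain ⟨q, hq, hqP⟩ := h P hP
      exact ⟨⟨q, hq⟩, fun hc => hqP hc⟩)
  exact ⟨v, v.2, fun P hP hc => hv P hP hc⟩

lemma cid_mem1 {F u : S3 K} : u ∈ Ideal.span {F} ↔ ∃ w, u = F * w := by
  rw [Ideal.mem_span_singleton']
  constructor
  · rintro ⟨a, rfl⟩; exact ⟨a, mul_comm _ _⟩
  · rintro ⟨a, rfl⟩; exact ⟨a, mul_comm _ _⟩

lemma cid_mem2 {F G u : S3 K} : u ∈ Ideal.span {F, G} ↔ ∃ p q, u = F * p + G * q := by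
  rw [Ideal.mem_span_pair]
  constructor
  · rintro ⟨a, b, rfl⟩; exact ⟨a, b, by ring⟩
  · rintro ⟨a, b, rfl⟩; exact ⟨a, b, by ring⟩

/-- the finitely many bad primes modulo `F` and modulo `(F, G)` -/
lemma cid_primes {F G : S3 K} (hF : F ≠ 0)
    (hFG : ∀ u v, G * u = F * v → ∃ w, u = F * w) : ∃ Ps : Finset (Ideal (S3 K)),
    (∀ P ∈ Ps, P.IsPrime ∧ ∃ i, (X i : S3 K) ∉ P) ∧
    ∀ q, (∀ P ∈ Ps, q ∉ P) →
      (∀ u v w, q * u = F * v + G * w → ∃ v' w', u = F * v' + G * w') ∧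
      (∀ u v, q * u = F * v → ∃ w, u = F * w) := by
  classical
  obtain ⟨P1, h1, h1'⟩ := cid_ass (Ideal.span {F})
  obtain ⟨P2, h2, h2'⟩ := cid_ass (Ideal.span {F, G})
  refine ⟨P1 ∪ P2, ?_, ?_⟩
  · intro P hP
    rcases Finset.mem_union.1 hP with hP | hP
    · obtain ⟨hp, u, hu, hr⟩ := h1 P hP
      refine ⟨hp, ?_⟩
      by_contra hcon
      push Not at hcon
      refine hu (cid_mem1.2 (depth_one hF fun i => ?_))
      exact cid_mem1.1 ((hr _).1 (hcon i))
    · obtain ⟨hp, u, hu, hr⟩ := h2 P hP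
      refine ⟨hp, ?_⟩
      by_contra hcon
      push Not at hcon
      refine hu (cid_mem2.2 (depth_two hF hFG fun i => ?_))
      exact cid_mem2.1 ((hr _).1 (hcon i))
  · intro q hq
    constructor
    · intro u v w h
      by_contra hcon
      obtain ⟨P, hP, hqP⟩ := h2' q u (cid_mem2.2 ⟨v, w, h⟩) (fun hc => hcon (cid_mem2.1 hc))
      exact hq P (Finset.mem_union_right _ hP) hqP
    · intro u v h
      by_contra hcon
      obtain ⟨P, hP, hqP⟩ := h1' q u (cid_mem1.2 ⟨v, h⟩) (fun hc => hcon (cid_mem1.1 hc))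
      exact hq P (Finset.mem_union_left _ hP) hqP

/-- generic elements are nonzerodivisors -/
theorem exists_nzd_of_span [Infinite K] {F G : S3 K} (hF : F ≠ 0)
    (hFG : ∀ u v, G * u = F * v → ∃ w, u = F * w) (W : Submodule K (S3 K)) (N : ℕ)
    (hW : ∀ i, (X i : S3 K) ^ N ∈ Ideal.span (W : Set (S3 K))) :
    ∃ q ∈ W, (∀ u v w, q * u = F * v + G * w → ∃ v' w', u = F * v' + G * w') ∧
      (∀ u v, q * u = F * v → ∃ w, u = F * w) := by
  obtain ⟨Ps, hP, hq⟩ := cid_primes hF hFG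
  obtain ⟨q, hqW, hqP⟩ := cid_avoid_sub W Ps (fun P hPm => by
    by_contra hcon
    push Not at hcon
    obtain ⟨hp, i, hi⟩ := hP P hPm
    have hle : Ideal.span (W : Set (S3 K)) ≤ P := Ideal.span_le.2 hcon
    exact hi (hp.mem_of_pow_mem _ (hle (hW i))))
  exact ⟨q, hqW, hq q hqP⟩

/-- generic linear forms are nonzerodivisors -/
theorem exists_poly_nzd [Infinite K] {F G : S3 K} (hF : F ≠ 0)
    (hFG : ∀ u v, G * u = F * v → ∃ w, u = F * w) :
    ∃ Q : S3 K, Q ≠ 0 ∧ ∀ t : Fin 3 → K, eval t Q ≠ 0 →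
      (∀ u v w, lin X t * u = F * v + G * w → ∃ v' w', u = F * v' + G * w') ∧
      (∀ u v, lin X t * u = F * v → ∃ w, u = F * w) := by
  classical
  obtain ⟨Ps, hP, hq⟩ := cid_primes hF hFG
  have key : ∀ P ∈ Ps, ∃ L : S3 K, L ≠ 0 ∧ ∀ t : Fin 3 → K, lin X t ∈ P → eval t L = 0 := by
    intro P hPm
    obtain ⟨hp, i, hi⟩ := hP P hPm
    let φ : (Fin 3 → K) →ₗ[K] S3 K := ∑ i, (LinearMap.toSpanSingleton K (S3 K) (X i)) ∘ₗ
      (LinearMap.proj i)
    have hφ : ∀ t, φ t = lin X t := by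
      intro t
      simp [φ, lin, LinearMap.sum_apply]
    have hlt : (P.restrictScalars K).comap φ < ⊤ := by
      rw [lt_top_iff_ne_top]
      intro htop
      apply hi
      have h1 : Pi.single i (1 : K) ∈ (P.restrictScalars K).comap φ := htop ▸ Submodule.mem_top
      rw [Submodule.mem_comap, hφ] at h1
      have h2 : lin (X : Fin 3 → S3 K) (Pi.single i (1 : K)) = X i := by
        rw [lin, Finset.sum_eq_single i]
        · simp
        · intro j _ hj
          rw [Pi.single_eq_of_ne hj, zero_smul]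
        · simp
      rw [h2] at h1
      exact h1
    obtain ⟨f, hf, hfk⟩ := Submodule.exists_le_ker_of_lt_top _ hlt
    refine ⟨∑ i, C (f (Pi.single i 1)) * X i, ?_, ?_⟩
    · intro h0
      apply hf
      apply LinearMap.pi_ext'
      intro j
      ext
      have h1 := congrArg (coeff (Finsupp.single j 1)) h0
      rw [coeff_sum, Finset.sum_eq_single j] at h1
      · rw [coeff_C_mul, coeff_X, if_pos rfl, mul_one, coeff_zero] at h1
        simpa using h1
      · intro i _ hij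
        rw [coeff_C_mul, coeff_X, if_neg, mul_zero]
        intro hc
        exact hij (Finsupp.single_left_injective one_ne_zero hc)
      · simp
    · intro t ht
      have h1 : t ∈ LinearMap.ker f := hfk (by
        rw [Submodule.mem_comap, hφ]; exact ht)
      rw [LinearMap.mem_ker] at h1
      have h2 := congrArg f ((Pi.basisFun K (Fin 3)).sum_repr t)
      rw [map_sum] at h2
      rw [map_sum, ← h1, ← h2]
      refine Finset.sum_congr rfl fun i _ => ?_
      rw [map_mul, eval_C, eval_X, map_smul, smul_eq_mul, mul_comm, Pi.basisFun_repr,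
        Pi.basisFun_apply]
  choose L hL0 hL using key
  refine ⟨∏ P ∈ Ps.attach, L P.1 P.2, ?_, ?_⟩
  · exact Finset.prod_ne_zero_iff.2 fun P _ => hL0 P.1 P.2
  · intro t ht
    apply hq
    intro P hPm hmem
    apply ht
    rw [map_prod]
    exact Finset.prod_eq_zero (Finset.mem_attach Ps ⟨P, hPm⟩) (hL P hPm t hmem)

/-- some element of `(f,g)_b` is coprime to a given `F` -/
theorem exists_coprime [Infinite K] {a b : ℕ} (hab : a ≤ b) {f g F : S3 K} (hF : F ≠ 0)
    (hf : f.IsHomogeneous a) (hg : g.IsHomogeneous b) (hf0 : f ≠ 0)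
    (hfg : ∀ u v, g * u = f * v → ∃ w, u = f * w) :
    ∃ α β : S3 K, α.IsHomogeneous (b - a) ∧ β.IsHomogeneous 0 ∧
      (∀ u v, (α * f + β * g) * u = F * v → ∃ w, u = F * w) := by
  classical
  obtain ⟨Ps, h1, h1'⟩ := cid_ass (Ideal.span {F})
  let φ : (homogeneousSubmodule (Fin 3) K (b - a)) × (homogeneousSubmodule (Fin 3) K 0) →ₗ[K]
      S3 K :=
    LinearMap.coprod
      ((LinearMap.mulRight K f) ∘ₗ (homogeneousSubmodule (Fin 3) K (b - a)).subtype)
      ((LinearMap.mulRight K g) ∘ₗ (homogeneousSubmodule (Fin 3) K 0).subtype)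
  have hφ : ∀ x, φ x = (x.1 : S3 K) * f + (x.2 : S3 K) * g := fun x => by simp [φ]
  obtain ⟨x, hx⟩ := cid_avoid (K := K) Ps
    (fun P => (P.restrictScalars K).comap φ) (fun P hP => by
      by_contra hcon
      push Not at hcon
      obtain ⟨hp, u, hu, hr⟩ := h1 P hP
      have hX : ∀ i : Fin 3, (X i : S3 K) ^ (b - a) * f ∈ P := by
        intro i
        have hh : ((X i : S3 K) ^ (b - a)).IsHomogeneous (b - a) := by
          simpa using (isHomogeneous_X K i).pow (b - a)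
        have h2 := hcon (⟨_, hh⟩, 0)
        rw [Submodule.mem_comap, hφ] at h2
        simpa using h2
      have hgP : g ∈ P := by
        have h2 := hcon (0, ⟨1, isHomogeneous_one _ _⟩)
        rw [Submodule.mem_comap, hφ] at h2
        simpa using h2
      have hfP : f ∉ P := by
        intro hfP
        obtain ⟨v, hv⟩ := cid_mem1.1 ((hr _).1 hfP)
        obtain ⟨v', hv'⟩ := cid_mem1.1 ((hr _).1 hgP)
        obtain ⟨w, hw⟩ := hfg v v' (by
          apply mul_left_cancel₀ hF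
          linear_combination f * hv' - g * hv)
        apply hu
        refine cid_mem1.2 ⟨w, ?_⟩
        apply mul_left_cancel₀ hf0
        linear_combination hv + F * hw
      have hXi : ∀ i : Fin 3, (X i : S3 K) ∈ P := fun i =>
        hp.mem_of_pow_mem _ ((hp.mem_or_mem (hX i)).resolve_right hfP)
      exact hu (cid_mem1.2 (cid_two_vars hF (cid_mem1.1 ((hr _).1 (hXi 0)))
        (cid_mem1.1 ((hr _).1 (hXi 1))))))
  refine ⟨x.1, x.2, x.1.2, x.2.2, fun u v h => ?_⟩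
  by_contra hcon
  obtain ⟨P, hP, hqP⟩ := h1' _ u (cid_mem1.2 ⟨v, h⟩) (fun hc => hcon (cid_mem1.1 hc))
  exact hx P hP (by rw [Submodule.mem_comap, hφ]; exact hqP)

end Vale.Agent.P200
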