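import Vale.Agent.P200.CIBasic
import Vale.Agent.P200.LexBase
import Vale.Agent.P200.FDefs

namespace Vale.Agent.P200

open MvPolynomial Module

variable {K : Type*} [Field K]

/-! ### recursions for the number of monomials in a box -/

lemma mem_boxset {a b c d : ℕ} {p : ℕ × ℕ × ℕ} :
    p ∈ (Finset.range a ×ˢ Finset.range b ×ˢ Finset.range c).filter
      (fun p => p.1 + p.2.1 + p.2.2 = d) ↔ (p.1 < a ∧ p.2.1 < b ∧ p.2.2 < c) ∧
        p.1 + p.2.1 + p.2.2 = d := by
  simp [Finset.mem_product]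

lemma box_rec1 (a A B C d : ℕ) (hA : d < A) :
    box a B C d + (if a ≤ d then box A B C (d - a) else 0) = box A B C d := by
  classical
  unfold box
  rw [← Finset.card_filter_add_card_filter_not (s := (Finset.range A ×ˢ Finset.range B ×ˢ
    Finset.range C).filter (fun p => p.1 + p.2.1 + p.2.2 = d)) (fun p => p.1 < a)]
  congr 1
  · congr 1
    ext p
    rw [mem_boxset, Finset.mem_filter, mem_boxset]
    omega
  · by_cases had : a ≤ d
    · rw [if_pos had]
      refine Finset.card_nbij' (fun p => (p.1 + a, p.2.1, p.2.2))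
        (fun p => (p.1 - a, p.2.1, p.2.2)) ?_ ?_ ?_ ?_
      · intro p hp
        have h1 := mem_boxset.1 hp
        refine Finset.mem_coe.2 (Finset.mem_filter.2 ⟨mem_boxset.2 ?_, ?_⟩)
        · dsimp only; omega
        · dsimp only; omega
      · intro p hp
        obtain ⟨h1, h2⟩ := Finset.mem_filter.1 (Finset.mem_coe.1 hp)
        have h1 := mem_boxset.1 h1
        refine Finset.mem_coe.2 (mem_boxset.2 ?_)
        dsimp only
        omega
      · rintro ⟨i, j, l⟩ hp
        simp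
      · rintro ⟨i, j, l⟩ hp
        obtain ⟨h1, h2⟩ := Finset.mem_filter.1 (Finset.mem_coe.1 hp)
        dsimp only at h2 ⊢
        rw [Nat.sub_add_cancel (by omega)]
    · rw [if_neg had, eq_comm, Finset.card_eq_zero, Finset.filter_eq_empty_iff]
      intro p hp
      have h1 := mem_boxset.1 hp
      omega

lemma box_swap12 (a b c d : ℕ) : box a b c d = box b a c d := by
  unfold box
  refine Finset.card_nbij' (fun p => (p.2.1, p.1, p.2.2))
        (fun p => (p.2.1, p.1, p.2.2)) ?_ ?_ ?_ ?_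
  · intro p hp
    have h1 := mem_boxset.1 hp
    refine Finset.mem_coe.2 (mem_boxset.2 ?_)
    dsimp only; omega
  · intro p hp
    have h1 := mem_boxset.1 hp
    refine Finset.mem_coe.2 (mem_boxset.2 ?_)
    dsimp only; omega
  · rintro ⟨i, j, l⟩ hp; rfl
  · rintro ⟨i, j, l⟩ hp; rfl

lemma box_swap13 (a b c d : ℕ) : box a b c d = box c b a d := by
  unfold box
  refine Finset.card_nbij' (fun p => (p.2.2, p.2.1, p.1))
        (fun p => (p.2.2, p.2.1, p.1)) ?_ ?_ ?_ ?_
  · intro p hp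
    have h1 := mem_boxset.1 hp
    refine Finset.mem_coe.2 (mem_boxset.2 ?_)
    dsimp only; omega
  · intro p hp
    have h1 := mem_boxset.1 hp
    refine Finset.mem_coe.2 (mem_boxset.2 ?_)
    dsimp only; omega
  · rintro ⟨i, j, l⟩ hp; rfl
  · rintro ⟨i, j, l⟩ hp; rfl

lemma box_rec2 (b A B C d : ℕ) (hB : d < B) :
    box A b C d + (if b ≤ d then box A B C (d - b) else 0) = box A B C d := by
  rw [box_swap12 A b, box_swap12 A B C d, box_swap12 A B C (d - b)]
  exact box_rec1 b B A C d hB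

lemma box_rec3 (c A B C d : ℕ) (hC : d < C) :
    box A B c d + (if c ≤ d then box A B C (d - c) else 0) = box A B C d := by
  rw [box_swap13 A B c, box_swap13 A B C d, box_swap13 A B C (d - c)]
  exact box_rec1 c C B A d hC

lemma finrank_homog3 (K : Type*) [Field K] (D d : ℕ) (h : d < D) :
    finrank K (homogeneousSubmodule (Fin 3) K d) = box D D D d := by
  classical
  rw [homogeneousSubmodule_eq_finsupp_supported]
  let e : {x : Fin 3 →₀ ℕ | x.degree = d} ≃ {p : ℕ × ℕ × ℕ //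
      p ∈ (Finset.range D ×ˢ Finset.range D ×ˢ Finset.range D).filter
      (fun p => p.1 + p.2.1 + p.2.2 = d)} :=
    { toFun := fun x => ⟨(x.1 0, x.1 1, x.1 2), by
        have h1 : x.1.degree = d := x.2
        rw [Finsupp.degree_eq_sum, Fin.sum_univ_three] at h1
        rw [mem_boxset]
        dsimp only
        omega⟩
      invFun := fun p => ⟨Finsupp.equivFunOnFinite.symm ![p.1.1, p.1.2.1, p.1.2.2], by
        have h1 := mem_boxset.1 p.2
        rw [Set.mem_ofPred_eq, Finsupp.degree_eq_sum, Fin.sum_univ_three]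
        exact h1.2⟩
      left_inv := fun x => by
        ext i
        fin_cases i <;> rfl
      right_inv := fun p => rfl }
  have : Fintype {x : Fin 3 →₀ ℕ | x.degree = d} := Fintype.ofEquiv _ e.symm
  rw [(AddMonoidAlgebra.supportedEquivFinsupp (R := K) (S := K)
    {x : Fin 3 →₀ ℕ | x.degree = d}).finrank_eq, finrank_finsupp_self, Fintype.card_congr e,
    Fintype.card_coe]
  rfl


/-! ### one step of the Hilbert function computation -/

/-- closed under homogeneous components -/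
def HomI3 (J : Ideal (S3 K)) : Prop := ∀ p ∈ J, ∀ d, homogeneousComponent d p ∈ J

lemma mem_degPart3 {J : Ideal (S3 K)} {d : ℕ} {p : S3 K} :
    p ∈ degPart J d ↔ p ∈ J ∧ p ∈ homogeneousSubmodule (Fin 3) K d := Iff.rfl

lemma homIdeal_bot : HomI3 (⊥ : Ideal (S3 K)) := by
  intro p hp d
  rw [Ideal.mem_bot] at hp ⊢
  rw [hp, map_zero]

lemma mem_sup_span {J : Ideal (S3 K)} {h p : S3 K} :
    p ∈ J ⊔ Ideal.span {h} ↔ ∃ r ∈ J, ∃ u, p = r + h * u := by
  rw [Submodule.mem_sup]
  constructor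
  · rintro ⟨r, hr, z, hz, rfl⟩
    obtain ⟨u, rfl⟩ := Ideal.mem_span_singleton'.1 hz
    exact ⟨r, hr, u, by ring⟩
  · rintro ⟨r, hr, u, rfl⟩
    exact ⟨r, hr, h * u, Ideal.mem_span_singleton'.2 ⟨u, by ring⟩, rfl⟩

lemma homIdeal_sup {J : Ideal (S3 K)} (hJ : HomI3 J) {c : ℕ} {h : S3 K}
    (hh : h.IsHomogeneous c) : HomI3 (J ⊔ Ideal.span {h}) := by
  intro p hp d
  obtain ⟨r, hr, u, rfl⟩ := mem_sup_span.1 hp
  rw [map_add, cib_hc_mul hh]
  split_ifs with h1
  · exact mem_sup_span.2 ⟨_, hJ r hr d, _, rfl⟩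
  · exact mem_sup_span.2 ⟨_, hJ r hr d, 0, by ring⟩

lemma homSub_fin (d : ℕ) : Module.Finite K (homogeneousSubmodule (Fin 3) K d) :=
  Module.Finite.iff_fg.2 (homogeneousSubmodule_fg (Fin 3) K d)

lemma degPart3_fin (J : Ideal (S3 K)) (d : ℕ) : Module.Finite K (degPart J d) := by
  have := homSub_fin (K := K) d
  exact Submodule.finiteDimensional_of_le (S₂ := homogeneousSubmodule (Fin 3) K d) inf_le_right

lemma degPart_step_lt {J : Ideal (S3 K)} (hJ : HomI3 J) {c : ℕ} {h : S3 K}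
    (hh : h.IsHomogeneous c) {d : ℕ} (hd : d < c) :
    degPart (J ⊔ Ideal.span {h}) d = degPart J d := by
  apply le_antisymm
  · rintro p ⟨hp, hpd⟩
    obtain ⟨r, hr, u, rfl⟩ := mem_sup_span.1 hp
    have h1 := homogeneousComponent_eq_self hpd
    rw [map_add, cib_hc_mul hh, if_neg (by omega), add_zero] at h1
    refine ⟨?_, hpd⟩
    rw [← h1]
    exact hJ r hr d
  · rintro p ⟨hp, hpd⟩
    exact ⟨mem_sup_span.2 ⟨p, hp, 0, by ring⟩, hpd⟩

lemma degPart_step_ge {J : Ideal (S3 K)} (hJ : HomI3 J) {c : ℕ} {h : S3 K}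
    (hh : h.IsHomogeneous c) (hz : ∀ u, h * u ∈ J → u ∈ J) {d : ℕ} (hd : c ≤ d) :
    finrank K (degPart (J ⊔ Ideal.span {h}) d) + finrank K (degPart J (d - c)) =
      finrank K (degPart J d) + finrank K (homogeneousSubmodule (Fin 3) K (d - c)) := by
  by_cases h0 : h = 0
  · have hJ1 : ∀ u, u ∈ J := fun u => hz u (by rw [h0, zero_mul]; exact J.zero_mem)
    have hJt : J = ⊤ := by
      rw [Ideal.eq_top_iff_one]; exact hJ1 1
    have h1 : degPart J (d - c) = homogeneousSubmodule (Fin 3) K (d - c) := by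
      apply le_antisymm
      · exact inf_le_right
      · exact fun p hp => ⟨hJ1 p, hp⟩
    rw [h1, hJt, top_sup_eq]
  have e1 : degPart (J ⊔ Ideal.span {h}) d =
      degPart J d ⊔ (homogeneousSubmodule (Fin 3) K (d - c)).map (LinearMap.mulLeft K h) := by
    apply le_antisymm
    · rintro p ⟨hp, hpd⟩
      obtain ⟨r, hr, u, rfl⟩ := mem_sup_span.1 hp
      have h1 := homogeneousComponent_eq_self hpd
      rw [map_add, cib_hc_mul hh, if_pos hd] at h1
      rw [← h1]
      exact Submodule.add_mem_sup ⟨hJ r hr d, homogeneousComponent_mem _ _⟩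
        ⟨_, homogeneousComponent_mem _ _, rfl⟩
    · refine sup_le ?_ ?_
      · rintro p ⟨hp, hpd⟩
        exact ⟨mem_sup_span.2 ⟨p, hp, 0, by ring⟩, hpd⟩
      · rintro _ ⟨u, hu, rfl⟩
        refine ⟨mem_sup_span.2 ⟨0, J.zero_mem, u, by rw [zero_add]; rfl⟩, ?_⟩
        have h1 := hh.mul ((mem_homogeneousSubmodule _ _).1 hu)
        rw [Nat.add_sub_cancel' hd] at h1
        exact h1
  have e2 : degPart J d ⊓ (homogeneousSubmodule (Fin 3) K (d - c)).map (LinearMap.mulLeft K h) =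
      (degPart J (d - c)).map (LinearMap.mulLeft K h) := by
    apply le_antisymm
    · rintro _ ⟨⟨hp, hpd⟩, u, hu, rfl⟩
      exact ⟨u, ⟨hz u hp, hu⟩, rfl⟩
    · rintro _ ⟨u, ⟨hu, hud⟩, rfl⟩
      refine ⟨⟨J.mul_mem_left _ hu, ?_⟩, ⟨u, hud, rfl⟩⟩
      have h1 := hh.mul ((mem_homogeneousSubmodule _ _).1 hud)
      rw [Nat.add_sub_cancel' hd] at h1
      exact h1
  have hinj : Function.Injective (LinearMap.mulLeft K h) := by
    intro x y hxy
    exact mul_left_cancel₀ h0 hxy
  have hfm : ∀ V : Submodule K (S3 K), finrank K (V.map (LinearMap.mulLeft K h)) = finrank K V :=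
    fun V => (Submodule.equivMapOfInjective _ hinj V).finrank_eq.symm
  have := homSub_fin (K := K) (d - c)
  have := degPart3_fin J d
  have h3 := Submodule.finrank_sup_add_finrank_inf_eq (degPart J d)
    ((homogeneousSubmodule (Fin 3) K (d - c)).map (LinearMap.mulLeft K h))
  rw [← e1, e2, hfm, hfm] at h3
  exact h3

/-- the codimension of `J_d` is `B d` for all `d < D` -/
def HF (J : Ideal (S3 K)) (D : ℕ) (B : ℕ → ℕ) : Prop :=
  ∀ d < D, finrank K (degPart J d) + B d = finrank K (homogeneousSubmodule (Fin 3) K d)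

lemma HF.step {J : Ideal (S3 K)} {D : ℕ} {B B' : ℕ → ℕ} (H : HF J D B) (hJ : HomI3 J)
    {c : ℕ} {h : S3 K} (hh : h.IsHomogeneous c) (hz : ∀ u, h * u ∈ J → u ∈ J)
    (hB : ∀ d < D, B' d + (if c ≤ d then B (d - c) else 0) = B d) :
    HF (J ⊔ Ideal.span {h}) D B' := by
  intro d hd
  have h1 := hB d hd
  have h2 := H d hd
  by_cases hc : c ≤ d
  · rw [if_pos hc] at h1
    have h3 := H (d - c) (by omega)
    have h4 := degPart_step_ge hJ hh hz hc
    omega
  · rw [if_neg hc] at h1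
    rw [degPart_step_lt hJ hh (by omega)]
    omega

lemma I3_eq_sup (f g h : S3 K) :
    I3 f g h = ((⊥ ⊔ Ideal.span {f}) ⊔ Ideal.span {g}) ⊔ Ideal.span {h} := by
  unfold I3
  rw [bot_sup_eq, sup_assoc, Ideal.span_insert f {g, h}, Ideal.span_insert g {h}]

lemma homIdeal_I3 {a b c : ℕ} {f g h : S3 K} (H : RegSeq3 a b c f g h) : HomI3 (I3 f g h) := by
  rw [I3_eq_sup]
  exact homIdeal_sup (homIdeal_sup (homIdeal_sup homIdeal_bot H.hf) H.hg) H.hh

/-- the Hilbert function of `(f,g,h)` depends only on the degrees -/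
theorem finrank_degPart_I3 {a b c : ℕ} {f g h : S3 K}
    (H : RegSeq3 a b c f g h) (d : ℕ) :
    finrank K (degPart (I3 f g h) d) + box a b c d =
      finrank K (homogeneousSubmodule (Fin 3) K d) := by
  have m1 : ∀ u, u ∈ (⊥ ⊔ Ideal.span {f} : Ideal (S3 K)) ↔ ∃ w, u = f * w := by
    intro u
    rw [mem_sup_span]
    constructor
    · rintro ⟨r, hr, w, rfl⟩
      rw [Ideal.mem_bot] at hr
      exact ⟨w, by rw [hr, zero_add]⟩
    · rintro ⟨w, rfl⟩
      exact ⟨0, Ideal.zero_mem _, w, by rw [zero_add]⟩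
  have m2 : ∀ u, u ∈ ((⊥ ⊔ Ideal.span {f}) ⊔ Ideal.span {g} : Ideal (S3 K)) ↔
      ∃ v w, u = f * v + g * w := by
    intro u
    rw [mem_sup_span]
    constructor
    · rintro ⟨r, hr, w, rfl⟩
      obtain ⟨v, rfl⟩ := (m1 r).1 hr
      exact ⟨v, w, rfl⟩
    · rintro ⟨v, w, rfl⟩
      exact ⟨f * v, (m1 _).2 ⟨v, rfl⟩, w, rfl⟩
  have s0 : HF (⊥ : Ideal (S3 K)) (d + 1) (fun d' => box (d + 1) (d + 1) (d + 1) d') := by
    intro d' hd'
    have h1 : degPart (⊥ : Ideal (S3 K)) d' = ⊥ := by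
      apply le_antisymm
      · rintro p ⟨hp, _⟩
        exact hp
      · exact bot_le
    rw [h1, finrank_bot, zero_add, finrank_homog3 K (d + 1) d' hd']
  have s1 := s0.step homIdeal_bot H.hf (B' := fun d' => box a (d + 1) (d + 1) d') (fun u hu => by
    rw [Ideal.mem_bot] at hu ⊢
    exact (mul_eq_zero.1 hu).resolve_left H.nf) (fun d' hd' => box_rec1 _ _ _ _ _ hd')
  have s2 := s1.step (homIdeal_sup homIdeal_bot H.hf) H.hg (B' := fun d' => box a b (d + 1) d')
    (fun u hu => by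
      obtain ⟨w, hw⟩ := (m1 _).1 hu
      exact (m1 _).2 (H.rg u w hw)) (fun d' hd' => box_rec2 _ _ _ _ _ hd')
  have s3 := s2.step (homIdeal_sup (homIdeal_sup homIdeal_bot H.hf) H.hg) H.hh
    (B' := fun d' => box a b c d')
    (fun u hu => by
      obtain ⟨v, w, hw⟩ := (m2 _).1 hu
      exact (m2 _).2 (H.rh u v w hw)) (fun d' hd' => box_rec3 _ _ _ _ _ hd')
  rw [← I3_eq_sup] at s3
  exact s3 d (Nat.lt_succ_self d)

/-- Hilbert function -/
theorem gr3_dim {a b c : ℕ} {f g h : S3 K} (H : RegSeq3 a b c f g h) (j : ℕ) :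
    finrank K (gr3 f g h j) = box a b c j := by
  have h1 := finrank_degPart_I3 H j
  have := homSub_fin (K := K) j
  let φ := ((Ideal.Quotient.mkₐ K (I3 f g h)).toLinearMap).domRestrict
    (homogeneousSubmodule (Fin 3) K j)
  have h2 : finrank K (LinearMap.range φ) + finrank K (LinearMap.ker φ) =
      finrank K (homogeneousSubmodule (Fin 3) K j) := LinearMap.finrank_range_add_finrank_ker φ
  have h3 : LinearMap.range φ = gr3 f g h j := by
    rw [LinearMap.range_domRestrict]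
    rfl
  have h4 : (LinearMap.ker φ).map (homogeneousSubmodule (Fin 3) K j).subtype =
      degPart (I3 f g h) j := by
    ext p
    constructor
    · rintro ⟨q, hq, rfl⟩
      exact ⟨Ideal.Quotient.eq_zero_iff_mem.1 hq, q.2⟩
    · rintro ⟨hp, hpj⟩
      exact ⟨⟨p, hpj⟩, Ideal.Quotient.eq_zero_iff_mem.2 hp, rfl⟩
  have h5 : finrank K (LinearMap.ker φ) = finrank K (degPart (I3 f g h) j) := by
    rw [← h4, Submodule.finrank_map_subtype_eq]
  rw [h3, h5] at h2
  rw [← h1] at h2
  omega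

/-- the powers of the variables form a regular sequence -/
theorem regSeq3_X (K : Type*) [Field K] (a : Fin 3 → ℕ) :
    RegSeq3 (a 0) (a 1) (a 2) (X 0 ^ a 0 : S3 K) (X 1 ^ a 1) (X 2 ^ a 2) where
  hf := by simpa using (isHomogeneous_X K (0 : Fin 3)).pow (a 0)
  hg := by simpa using (isHomogeneous_X K (1 : Fin 3)).pow (a 1)
  hh := by simpa using (isHomogeneous_X K (2 : Fin 3)).pow (a 2)
  nf := pow_ne_zero _ (X_ne_zero _)
  rg := by
    intro u v h
    have h1 : (X 0 : S3 K) ^ a 0 ∣ X 1 ^ a 1 * u := ⟨v, h⟩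
    have h2 : ¬ (X 0 : S3 K) ∣ X 1 ^ a 1 := by
      intro hc
      have h3 := (X_prime (R := K) (i := (0 : Fin 3))).dvd_of_dvd_pow hc
      rw [X_dvd_X] at h3
      exact absurd h3 (by decide)
    exact (X_prime (R := K) (i := (0 : Fin 3))).pow_dvd_of_dvd_mul_left _ h2 h1
  rh := by
    classical
    intro u v w h
    have key : ∀ p : S3 K, p ∈ Ideal.span ((fun s => monomial s (1 : K)) ''
        ({Finsupp.single 0 (a 0), Finsupp.single 1 (a 1)} : Set (Fin 3 →₀ ℕ))) ↔
        ∃ v' w', p = X 0 ^ a 0 * v' + X 1 ^ a 1 * w' := by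
      intro p
      rw [Set.image_pair, ← X_pow_eq_monomial, ← X_pow_eq_monomial, Ideal.mem_span_pair]
      constructor
      · rintro ⟨x, y, rfl⟩; exact ⟨x, y, by ring⟩
      · rintro ⟨x, y, rfl⟩; exact ⟨x, y, by ring⟩
    have h1 := (key _).2 ⟨v, w, h⟩
    rw [← key]
    rw [mem_ideal_span_monomial_image] at h1 ⊢
    intro x hx
    have h2 : x + Finsupp.single 2 (a 2) ∈ (X 2 ^ a 2 * u).support := by
      rw [MvPolynomial.mem_support_iff, X_pow_eq_monomial, add_comm, coeff_monomial_mul, one_mul]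
      exact MvPolynomial.mem_support_iff.1 hx
    obtain ⟨s, hs, hle⟩ := h1 _ h2
    refine ⟨s, hs, ?_⟩
    rcases hs with rfl | rfl
    · rw [Finsupp.single_le_iff] at hle ⊢
      simpa using hle
    · rw [Finsupp.single_le_iff] at hle ⊢
      simpa using hle

/-- everything of large degree is in `(f,g,h)` -/
theorem RegSeq3.mem_of_large {a b c : ℕ} {f g h : S3 K} (H : RegSeq3 a b c f g h) {p : S3 K}
    {d : ℕ} (hp : p.IsHomogeneous d) (hd : a + b + c < d + 3) : p ∈ I3 f g h := by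
  have h1 := gr3_dim H d
  have h2 : box a b c d = 0 := by
    unfold box
    rw [Finset.card_eq_zero, Finset.filter_eq_empty_iff]
    intro q hq
    simp only [Finset.mem_product, Finset.mem_range] at hq
    omega
  rw [h2] at h1
  have := gr3_fin f g h d
  have h3 : gr3 f g h d = ⊥ := Submodule.finrank_eq_zero.1 h1
  have h4 : Ideal.Quotient.mk (I3 f g h) p ∈ gr3 f g h d := mem_gr3.2 ⟨p, hp, rfl⟩
  rw [h3, Submodule.mem_bot] at h4
  exact Ideal.Quotient.eq_zero_iff_mem.1 h4

end Vale.Agent.P200
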