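import Vale.Agent.P200.CIBasic
import Vale.Agent.P200.CIDim
import Vale.Agent.P200.CIDepth

namespace Vale.Agent.P200

open MvPolynomial Module

variable {K : Type*} [Field K]

/-- nonvanishing point of a nonzero polynomial -/
lemma cis_exists_eval [Infinite K] {Q : S3 K} (hQ : Q ≠ 0) : ∃ t : Fin 3 → K, eval t Q ≠ 0 := by
  by_contra hcon
  push Not at hcon
  exact hQ (MvPolynomial.funext fun t => by rw [hcon t, map_zero])

/-- there is a linear form which is a nonzerodivisor modulo `(f, g)` and modulo `f` -/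
theorem exists_nzd [Infinite K] {a b c : ℕ} {f g h : S3 K} (H : RegSeq3 a b c f g h) :
    ∃ t : Fin 3 → K, (∀ u v w, lin X t * u = f * v + g * w → ∃ v' w', u = f * v' + g * w') ∧
      (∀ u v, lin X t * u = f * v → ∃ w, u = f * w) := by
  obtain ⟨Q, hQ, hQ2⟩ := exists_poly_nzd H.nf H.rg
  obtain ⟨t, ht⟩ := cis_exists_eval hQ
  exact ⟨t, hQ2 t ht⟩

lemma cis_lin_hom (t : Fin 3 → K) : (lin X t : S3 K).IsHomogeneous 1 := by
  unfold lin
  refine IsHomogeneous.sum _ _ _ fun i _ => ?_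
  exact Submodule.smul_mem (homogeneousSubmodule (Fin 3) K 1) (t i) (isHomogeneous_X K i)

lemma cis_lin_mem {J : Ideal (S3 K)} {u : S3 K} (h : ∀ i, X i * u ∈ J) (t : Fin 3 → K) :
    (lin X t : S3 K) * u ∈ J := by
  unfold lin
  rw [Finset.sum_mul]
  refine J.sum_mem fun i _ => ?_
  rw [smul_mul_assoc, ← C_mul']
  exact J.mul_mem_left _ (h i)

/-- the exchange lemma -/
lemma cis_exchange {J : Ideal (S3 K)} (hJ : HomI3 J) {c j : ℕ} {h u : S3 K} {t : Fin 3 → K}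
    (hh : h.IsHomogeneous c) (hz : ∀ u, h * u ∈ J → u ∈ J)
    (lz : ∀ u, (lin X t : S3 K) * u ∈ J → u ∈ J) (hu : u.IsHomogeneous j)
    (h0 : ∀ i, X i * u ∈ J ⊔ Ideal.span {h}) :
    ∃ v : S3 K, v.IsHomogeneous (j + 1 - c) ∧ (j + 1 < c → v = 0) ∧
      (∀ i, X i * v ∈ J ⊔ Ideal.span {lin X t}) ∧
      (v ∈ J ⊔ Ideal.span {lin X t} → u ∈ J ⊔ Ideal.span {h}) := by
  obtain ⟨r0, hr0, v0, e0⟩ := mem_sup_span.1 (cis_lin_mem h0 t)
  have hlu : homogeneousComponent (j + 1) ((lin X t : S3 K) * u) = (lin X t : S3 K) * u := by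
    have h1 := (cis_lin_hom t).mul hu
    rw [add_comm] at h1
    exact homogeneousComponent_eq_self h1
  rw [e0, map_add, cib_hc_mul hh, ← e0] at hlu
  obtain ⟨r, hr, v, hv, hv0, e⟩ : ∃ r ∈ J, ∃ v : S3 K, v.IsHomogeneous (j + 1 - c) ∧
      (j + 1 < c → v = 0) ∧ (lin X t : S3 K) * u = r + h * v := by
    by_cases hc : c ≤ j + 1
    · rw [if_pos hc] at hlu
      exact ⟨_, hJ _ hr0 (j + 1), _, homogeneousComponent_isHomogeneous _ _,
        fun hcc => absurd hcc (by omega), hlu.symm⟩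
    · rw [if_neg hc] at hlu
      exact ⟨_, hJ _ hr0 (j + 1), 0, isHomogeneous_zero _ _ _, fun _ => rfl, by
        rw [mul_zero]; exact hlu.symm⟩
  refine ⟨v, hv, hv0, ?_, ?_⟩
  · intro i
    obtain ⟨ri, hri, wi, ei⟩ := mem_sup_span.1 (h0 i)
    have h1 : X i * v - (lin X t : S3 K) * wi ∈ J := by
      apply hz
      have h2 : h * (X i * v - (lin X t : S3 K) * wi) = (lin X t : S3 K) * ri - X i * r := by
        linear_combination (lin X t : S3 K) * ei - X i * e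
      rw [h2]
      exact J.sub_mem (J.mul_mem_left _ hri) (J.mul_mem_left _ hr)
    exact mem_sup_span.2 ⟨_, h1, wi, by ring⟩
  · intro hvm
    obtain ⟨r', hr', v', e'⟩ := mem_sup_span.1 hvm
    have h1 : u - h * v' ∈ J := by
      apply lz
      have h2 : (lin X t : S3 K) * (u - h * v') = r + h * r' := by
        linear_combination e + h * e'
      rw [h2]
      exact J.add_mem hr (J.mul_mem_left _ hr')
    exact mem_sup_span.2 ⟨_, h1, v', by ring⟩

lemma cis_mem_pair {F G u : S3 K} :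
    u ∈ Ideal.span {F} ⊔ Ideal.span {G} ↔ ∃ p q, u = F * p + G * q := by
  rw [mem_sup_span]
  constructor
  · rintro ⟨r, hr, w, rfl⟩
    obtain ⟨p, rfl⟩ := cid_mem1.1 hr
    exact ⟨p, w, rfl⟩
  · rintro ⟨p, q, rfl⟩
    exact ⟨_, cid_mem1.2 ⟨p, rfl⟩, q, rfl⟩

lemma cis_homIdeal_span {a : ℕ} {f : S3 K} (hf : f.IsHomogeneous a) :
    HomI3 (Ideal.span {f}) := by
  have h1 := homIdeal_sup (homIdeal_bot (K := K)) hf
  rwa [bot_sup_eq] at h1

/-- socle of the complete intersection, in the polynomial ring -/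
lemma cis_soc [Infinite K] {a b c : ℕ} (ha : 1 ≤ a) {f g h : S3 K} (H : RegSeq3 a b c f g h)
    (j : ℕ) (hj : j + 3 < a + b + c) (u : S3 K) (hu : u.IsHomogeneous j)
    (h0 : ∀ i, X i * u ∈ I3 f g h) : u ∈ I3 f g h := by
  have hI : I3 f g h = (Ideal.span {f} ⊔ Ideal.span {g}) ⊔ Ideal.span {h} := by
    rw [I3_eq_sup, bot_sup_eq]
  rw [hI] at h0 ⊢
  -- the three linear forms
  obtain ⟨t3, z3, z3'⟩ := exists_nzd H
  have l3ne : (lin X t3 : S3 K) ≠ 0 := by
    intro hc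
    obtain ⟨w, hw⟩ := z3' 1 0 (by rw [hc, zero_mul, mul_zero])
    have h1 : homogeneousComponent 0 (1 : S3 K) = 1 :=
      homogeneousComponent_eq_self (isHomogeneous_one _ _)
    rw [hw, cib_hc_mul H.hf, if_neg (by omega), ← hw] at h1
    exact zero_ne_one h1
  have zf3 : ∀ u v, f * u = lin X t3 * v → ∃ w, u = lin X t3 * w := by
    intro u v huv
    obtain ⟨w, hw⟩ := z3' v u huv.symm
    refine ⟨w, ?_⟩
    apply mul_left_cancel₀ H.nf
    linear_combination huv + (lin X t3 : S3 K) * hw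
  obtain ⟨Q1, hQ1, hQ1'⟩ := exists_poly_nzd (F := f) (G := lin X t3) H.nf z3'
  obtain ⟨Q2, hQ2, hQ2'⟩ := exists_poly_nzd (F := lin X t3) (G := f) l3ne zf3
  obtain ⟨t2, ht2⟩ := cis_exists_eval (mul_ne_zero hQ1 hQ2)
  rw [map_mul] at ht2
  obtain ⟨z2, z2'⟩ := hQ1' t2 (left_ne_zero_of_mul ht2)
  obtain ⟨_, y2'⟩ := hQ2' t2 (right_ne_zero_of_mul ht2)
  obtain ⟨Q3, hQ3, hQ3'⟩ := exists_poly_nzd (F := lin X t3) (G := lin X t2) l3ne y2'
  obtain ⟨t1, ht1⟩ := cis_exists_eval hQ3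
  obtain ⟨z1, _⟩ := hQ3' t1 ht1
  -- first exchange
  obtain ⟨v1, hv1, hv1z, hv1m, hv1i⟩ := cis_exchange (J := Ideal.span {f} ⊔ Ideal.span {g})
    (homIdeal_sup (cis_homIdeal_span H.hf) H.hg) H.hh
    (fun u hu => by
      obtain ⟨p, q, hpq⟩ := cis_mem_pair.1 hu
      exact cis_mem_pair.2 (H.rh u p q hpq))
    (fun u hu => by
      obtain ⟨p, q, hpq⟩ := cis_mem_pair.1 hu
      exact cis_mem_pair.2 (z3 u p q hpq)) hu h0
  apply hv1i
  by_cases c1 : j + 1 < c
  · rw [hv1z c1]; exact Ideal.zero_mem _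
  have sw1 : (Ideal.span {f} ⊔ Ideal.span {g}) ⊔ Ideal.span {lin X t3} =
      (Ideal.span {f} ⊔ Ideal.span {lin X t3}) ⊔ Ideal.span {g} := by
    rw [sup_assoc, sup_comm (Ideal.span {g}), ← sup_assoc]
  rw [sw1] at hv1m ⊢
  -- second exchange
  obtain ⟨v2, hv2, hv2z, hv2m, hv2i⟩ := cis_exchange
    (J := Ideal.span {f} ⊔ Ideal.span {lin X t3})
    (homIdeal_sup (cis_homIdeal_span H.hf) (cis_lin_hom t3)) H.hg
    (fun u hu => by
      obtain ⟨v, w, e⟩ := cis_mem_pair.1 hu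
      obtain ⟨p, q, e2⟩ := z3 w (-v) u (by linear_combination -e)
      obtain ⟨s, hs⟩ := H.rg (u - lin X t3 * q) (v + lin X t3 * p) (by
        linear_combination e + (lin X t3 : S3 K) * e2)
      exact cis_mem_pair.2 ⟨s, q, by linear_combination hs⟩)
    (fun u hu => by
      obtain ⟨p, q, hpq⟩ := cis_mem_pair.1 hu
      exact cis_mem_pair.2 (z2 u p q hpq)) hv1 hv1m
  apply hv2i
  by_cases c2 : j + 1 - c + 1 < b
  · rw [hv2z c2]; exact Ideal.zero_mem _
  have sw2 : (Ideal.span {f} ⊔ Ideal.span {lin X t3}) ⊔ Ideal.span {lin X t2} =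
      (Ideal.span {lin X t3} ⊔ Ideal.span {lin X t2}) ⊔ Ideal.span {f} := by
    rw [sup_assoc, sup_comm]
  rw [sw2] at hv2m ⊢
  -- third exchange
  obtain ⟨v3, hv3, hv3z, hv3m, hv3i⟩ := cis_exchange
    (J := Ideal.span {lin X t3} ⊔ Ideal.span {lin X t2})
    (homIdeal_sup (cis_homIdeal_span (cis_lin_hom t3)) (cis_lin_hom t2)) H.hf
    (fun u hu => by
      obtain ⟨v, w, e⟩ := cis_mem_pair.1 hu
      obtain ⟨p, q, e2⟩ := z2 w u (-v) (by linear_combination -e)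
      obtain ⟨s, hs⟩ := z3' (v + lin X t2 * q) (u - lin X t2 * p) (by
        linear_combination -e - (lin X t2 : S3 K) * e2)
      refine cis_mem_pair.2 ⟨s, p, ?_⟩
      apply mul_left_cancel₀ H.nf
      linear_combination e + (lin X t2 : S3 K) * e2 + (lin X t3 : S3 K) * hs)
    (fun u hu => by
      obtain ⟨p, q, hpq⟩ := cis_mem_pair.1 hu
      exact cis_mem_pair.2 (z1 u p q hpq)) hv2 hv2m
  apply hv3i
  rw [hv3z (by omega)]
  exact Ideal.zero_mem _

/-- socle of the complete intersection -/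
theorem gr3_soc [Infinite K] {a b c : ℕ} (ha : 1 ≤ a) (hb : 1 ≤ b) (hc : 1 ≤ c)
    {f g h : S3 K} (H : RegSeq3 a b c f g h) (j : ℕ) (hj : j + 3 < a + b + c)
    (u : S3 K ⧸ I3 f g h) (hu : u ∈ gr3 f g h j) (h0 : ∀ i, x3 f g h i * u = 0) : u = 0 := by
  obtain ⟨p, hp, rfl⟩ := mem_gr3.1 hu
  rw [Ideal.Quotient.eq_zero_iff_mem]
  refine cis_soc ha H j hj p hp fun i => ?_
  have h1 := h0 i
  unfold x3 at h1
  rw [← map_mul, Ideal.Quotient.eq_zero_iff_mem] at h1
  exact h1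

lemma cis_lin_x3 (f g h : S3 K) (t : Fin 3 → K) :
    lin (x3 f g h) t = Ideal.Quotient.mk (I3 f g h) (lin X t) := by
  unfold lin
  rw [map_sum]
  refine Finset.sum_congr rfl fun i _ => ?_
  rfl

theorem gr3_nzd [Infinite K] {a b c : ℕ} (ha : 1 ≤ a) (hb : 1 ≤ b) (hc : 1 ≤ c)
    {f g h : S3 K} (H : RegSeq3 a b c f g h) :
    ∃ t : Fin 3 → K, ∀ j, j + 1 < c → ∀ u ∈ gr3 f g h j, lin (x3 f g h) t * u = 0 → u = 0 := by
  obtain ⟨t, z, _⟩ := exists_nzd H
  refine ⟨t, fun j hj u hu h0 => ?_⟩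
  obtain ⟨p, hp, rfl⟩ := mem_gr3.1 hu
  rw [cis_lin_x3, ← map_mul, Ideal.Quotient.eq_zero_iff_mem] at h0
  have h1 := (cis_lin_hom t).mul hp
  obtain ⟨u', v', w', e, _, _, _, _, _, hw⟩ := H.exists_hom_coeff h1 h0
  rw [hw (by omega), mul_zero, add_zero] at e
  obtain ⟨v'', w'', e'⟩ := z p u' v' e
  rw [Ideal.Quotient.eq_zero_iff_mem]
  exact mem_I3.2 ⟨v'', w'', 0, by rw [e', mul_zero, add_zero]⟩

lemma cis_mul_mem_span {f : S3 K} {J : Ideal (S3 K)} {a c : ℕ} (hac : a ≤ c)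
    (hf : f.IsHomogeneous a) (hfJ : f ∈ J) (m : ℕ) :
    ∀ u : S3 K, u.IsHomogeneous (c - a + m) → f * u ∈ Ideal.span
      ((J.restrictScalars K ⊓ homogeneousSubmodule (Fin 3) K c : Submodule K (S3 K)) :
        Set (S3 K)) := by
  induction m with
  | zero =>
    intro u hu
    refine Ideal.subset_span ⟨J.mul_mem_right _ hfJ, ?_⟩
    have h1 := hf.mul hu
    rw [add_zero, Nat.add_sub_cancel' hac] at h1
    exact h1
  | succ m ih =>
    intro u hu
    obtain ⟨q, hq, rfl⟩ := klm_split (c - a + m) u hu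
    have h1 : ∀ i, f * (X i * q i) ∈ Ideal.span
      ((J.restrictScalars K ⊓ homogeneousSubmodule (Fin 3) K c : Submodule K (S3 K)) :
        Set (S3 K)) := by
      intro i
      rw [mul_left_comm]
      exact Ideal.mul_mem_left _ _ (ih _ (hq i))
    rw [mul_add, mul_add]
    exact Ideal.add_mem _ (Ideal.add_mem _ (h1 0) (h1 1)) (h1 2)

/-- the ideal `(f,g,h)` contains powers of the variables which are generated in degree `c` -/
theorem RegSeq3.pow_mem {a b c : ℕ} (hab : a ≤ b) (hbc : b ≤ c)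
    {f g h : S3 K} (H : RegSeq3 a b c f g h) :
    ∃ N, ∀ i, (X i : S3 K) ^ N ∈ Ideal.span
      (((I3 f g h).restrictScalars K ⊓ homogeneousSubmodule (Fin 3) K c : Submodule K (S3 K)) :
        Set (S3 K)) := by
  refine ⟨a + b + c, fun i => ?_⟩
  have h1 : ((X i : S3 K) ^ (a + b + c)).IsHomogeneous (a + b + c) := by
    simpa using (isHomogeneous_X K i).pow (a + b + c)
  have h2 := H.mem_of_large h1 (by omega)
  obtain ⟨u, v, w, e, hu, hv, hw, _, _, _⟩ := H.exists_hom_coeff h1 h2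
  rw [e]
  have e1 : a + b + c - a = c - a + (a + b) := by omega
  have e2 : a + b + c - b = c - b + (a + b) := by omega
  have e3 : a + b + c - c = c - c + (a + b) := by omega
  rw [e1] at hu
  rw [e2] at hv
  rw [e3] at hw
  have mf : f ∈ I3 f g h := mem_I3.2 ⟨1, 0, 0, by ring⟩
  have mg : g ∈ I3 f g h := mem_I3.2 ⟨0, 1, 0, by ring⟩
  have mh : h ∈ I3 f g h := mem_I3.2 ⟨0, 0, 1, by ring⟩
  exact Ideal.add_mem _ (Ideal.add_mem _ (cis_mul_mem_span (hab.trans hbc) H.hf mf _ u hu)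
    (cis_mul_mem_span hbc H.hg mg _ v hv)) (cis_mul_mem_span le_rfl H.hh mh _ w hw)

/-- base-point-freeness -/
theorem gr3_pts [Infinite K] {a b c : ℕ} (ha : 1 ≤ a) (hab : a ≤ b) (hbc : b ≤ c)
    {f g h : S3 K} (H : RegSeq3 a b c f g h) (T : Finset (Fin 3 → K)) (hT : ∀ p ∈ T, p ≠ 0) :
    ∃ G : S3 K, G.IsHomogeneous c ∧ aeval (x3 f g h) G = 0 ∧ ∀ p ∈ T, eval p G ≠ 0 := by
  obtain ⟨N, hN⟩ := H.pow_mem hab hbc
  let W : Submodule K (S3 K) := (I3 f g h).restrictScalars K ⊓ homogeneousSubmodule (Fin 3) K c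
  obtain ⟨v, hv⟩ := cid_avoid (K := K) (E := W) T
    (fun p => LinearMap.ker ((aeval p : S3 K →ₐ[K] K).toLinearMap ∘ₗ W.subtype)) (fun p hp => by
      by_contra hcon
      push Not at hcon
      apply hT p hp
      have h1 : ∀ q ∈ Ideal.span (W : Set (S3 K)), eval p q = 0 := by
        intro q hq
        induction hq using Submodule.span_induction with
        | mem x hx => 
          have h2 := hcon ⟨x, hx⟩
          rw [LinearMap.mem_ker] at h2
          rw [← coe_aeval_eq_eval]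
          exact h2
        | zero => exact map_zero _
        | add x y _ _ hx hy => rw [map_add, hx, hy, add_zero]
        | smul r x _ hx => rw [smul_eq_mul, map_mul, hx, mul_zero]
      funext i
      have h2 := h1 _ (hN i)
      rw [map_pow, eval_X] at h2
      exact eq_zero_of_pow_eq_zero h2)
  refine ⟨v, v.2.2, ?_, ?_⟩
  · rw [aeval_x3, Ideal.Quotient.eq_zero_iff_mem]
    exact v.2.1
  · intro p hp hc
    apply hv p hp
    rw [LinearMap.mem_ker]
    rw [← coe_aeval_eq_eval] at hc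
    exact hc

end Vale.Agent.P200
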