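import Vale.Agent.P200.CIBasic
import Vale.Agent.P200.CIDim
import Vale.Agent.P200.CIDepth
import Vale.Agent.P200.CISoc
import Vale.Agent.P200.KLStruct

namespace Vale.Agent.P200

open MvPolynomial Module

section pairing
variable {K A : Type*} [Field K] [CommRing A] [Algebra K A] {x : Fin 3 → A}
  {gr : ℕ → Submodule K A}

theorem cia_mem_sh {V : Submodule K A} {i : Fin 3} {v : A} (hv : v ∈ V) : x i * v ∈ sh x V :=
  Submodule.mem_iSup_of_mem i ⟨v, hv, rfl⟩

/-- products of graded pieces -/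
theorem cia_mul_mem (hgen : ∀ j, gr (j+1) = sh x (gr j)) (h0 : gr 0 = Submodule.span K {1})
    {i j : ℕ} {u v : A} (hu : u ∈ gr i) (hv : v ∈ gr j) : u * v ∈ gr (i + j) := by
  induction i generalizing u with
  | zero =>
    rw [h0, Submodule.mem_span_singleton] at hu
    obtain ⟨r, rfl⟩ := hu
    rw [zero_add, smul_mul_assoc, one_mul]
    exact (gr j).smul_mem r hv
  | succ i ih =>
    rw [hgen i] at hu
    have : gr (i + 1 + j) = sh x (gr (i + j)) := by rw [← hgen]; congr 1; omega
    rw [this]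
    unfold sh at hu
    refine Submodule.iSup_induction (fun t => (gr i).map (LinearMap.mulLeft K (x t)))
      (motive := fun u => u * v ∈ sh x (gr (i + j))) hu ?_ ?_ ?_
    · rintro t _ ⟨w, hw, rfl⟩
      show x t * w * v ∈ _
      rw [mul_assoc]
      exact cia_mem_sh (ih hw)
    · rw [zero_mul]; exact Submodule.zero_mem _
    · intro p q hp hq
      rw [add_mul]; exact Submodule.add_mem _ hp hq

/-- nondegeneracy of the product -/
theorem cia_nondeg (hgen : ∀ j, gr (j+1) = sh x (gr j)) (h0 : gr 0 = Submodule.span K {1})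
    (s : ℕ) (hsoc : ∀ j < s, ∀ u ∈ gr j, (∀ i, x i * u = 0) → u = 0) {e j : ℕ} (h : e + j = s)
    {u : A} (hu : u ∈ gr e) (huw : ∀ w ∈ gr j, u * w = 0) : u = 0 := by
  have key : ∀ d, d ≤ j → ∀ w ∈ gr (j - d), u * w = 0 := by
    intro d
    induction d with
    | zero => intro _; simpa using huw
    | succ d ih =>
      intro hd w hw
      refine hsoc (e + (j - (d+1))) (by omega) (u * w) (cia_mul_mem hgen h0 hu hw) fun i => ?_
      rw [mul_left_comm]
      apply ih (by omega)
      have : j - d = j - (d+1) + 1 := by omega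
      rw [this, hgen]
      exact cia_mem_sh hw
  have h1 := key j le_rfl 1 (by
    rw [Nat.sub_self, h0]; exact Submodule.mem_span_singleton_self 1)
  rwa [mul_one] at h1

/-- dimension bound for orthogonal subspaces -/
theorem cia_pairing (hfin : ∀ j, Module.Finite K (gr j))
    (hgen : ∀ j, gr (j+1) = sh x (gr j)) (h0 : gr 0 = Submodule.span K {1})
    (s : ℕ) (hs : finrank K (gr s) = 1)
    (hsoc : ∀ j < s, ∀ u ∈ gr j, (∀ i, x i * u = 0) → u = 0) {e j : ℕ} (h : e + j = s)
    (V Y : Submodule K A) (hV : V ≤ gr e) (hY : Y ≤ gr j) (hVY : ∀ v ∈ V, ∀ y ∈ Y, v * y = 0) :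
    finrank K V + finrank K Y ≤ finrank K (gr j) := by
  classical
  have := hfin
  have hVfin : Module.Finite K V := Submodule.finiteDimensional_of_le hV
  -- a functional which is injective on `gr s`
  obtain ⟨ω, hω⟩ : ∃ ω : A →ₗ[K] K, ∀ u ∈ gr s, ω u = 0 → u = 0 := by
    obtain ⟨g, hg0, hg⟩ := finrank_eq_one_iff'.mp hs
    have hg0' : (g : A) ≠ 0 := fun h => hg0 (Subtype.ext h)
    obtain ⟨ω, hω⟩ : ∃ ω : Module.Dual K A, ω (g : A) ≠ 0 := by
      by_contra hc
      push Not at hc
      exact hg0' ((Module.forall_dual_apply_eq_zero_iff K (g : A)).mp hc)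
    refine ⟨ω, fun u hu h => ?_⟩
    obtain ⟨r, hr⟩ := hg ⟨u, hu⟩
    have hr' : r • (g : A) = u := congrArg Subtype.val hr
    rw [← hr', map_smul, smul_eq_mul] at h
    rcases mul_eq_zero.mp h with h | h
    · rw [← hr', h, zero_smul]
    · exact absurd h hω
  let Y' : Submodule K (gr j) := Y.comap (gr j).subtype
  have hY' : finrank K Y' = finrank K Y := by
    have : Y = Y'.map (gr j).subtype := by
      rw [Submodule.map_comap_subtype]; exact (inf_eq_right.mpr hY).symm
    rw [this, Submodule.finrank_map_subtype_eq]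
  let Φ : V →ₗ[K] Module.Dual K (gr j) :=
    { toFun := fun v => ω ∘ₗ (LinearMap.mulLeft K (v : A)) ∘ₗ (gr j).subtype
      map_add' := by
        intro u v
        ext w
        simp [add_mul]
      map_smul' := by
        intro r v
        ext w
        simp }
  have hΦ : ∀ (v : V) (w : gr j), Φ v w = ω ((v : A) * w) := fun v w => rfl
  have hinj : Function.Injective Φ := by
    rw [← LinearMap.ker_eq_bot, LinearMap.ker_eq_bot']
    intro v hv
    apply Subtype.ext
    refine cia_nondeg hgen h0 s hsoc h (hV v.2) fun w hw => ?_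
    apply hω
    · rw [← h]; exact cia_mul_mem hgen h0 (hV v.2) hw
    · rw [← hΦ v ⟨w, hw⟩, hv]; rfl
  have hran : LinearMap.range Φ ≤ Y'.dualAnnihilator := by
    rintro _ ⟨v, rfl⟩
    rw [Submodule.mem_dualAnnihilator]
    intro w hw
    rw [hΦ, hVY v v.2 w hw, map_zero]
  have h1 : finrank K V = finrank K (LinearMap.range Φ) :=
    (LinearMap.finrank_range_of_inj hinj).symm
  have h2 := Submodule.finrank_mono hran
  have h3 := Subspace.finrank_add_finrank_dualAnnihilator_eq Y'
  omega

end pairing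

/-- arithmetic bound -/
theorem cia_box_bound {a b c e k : ℕ} (ha : 1 ≤ a) (hab : a ≤ b) (hbc : b ≤ c) (hk : 1 ≤ k)
    (he : e + k + 3 ≤ a + b) :
    box k b c (a + b + c - 3 - e) ≤ k * (e + 2 - a) + k.choose 2 := by
  by_cases hea : e + k < a
  · -- the box is empty in this degree
    have : box k b c (a + b + c - 3 - e) = 0 := by
      unfold box
      rw [Finset.card_eq_zero, Finset.filter_eq_empty_iff]
      rintro ⟨p, q, r⟩ hp
      simp only [Finset.mem_product, Finset.mem_range] at hp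
      simp only
      omega
    omega
  · push Not at hea
    rw [box_symm k b c (a + b + c - 3 - e) (e + k - a) (by omega) hk (by omega) (by omega),
      box_eq_sum]
    have hsum : ∀ k : ℕ, ∑ i ∈ Finset.range k, (k - 1 - i) = k.choose 2 := by
      intro k
      rw [Finset.sum_range_reflect (fun i => i) k]
      induction k with
      | zero => rfl
      | succ k ih => rw [Finset.sum_range_succ, ih, Nat.choose_succ_succ' k 1, Nat.choose_one_right,
          add_comm]
    calc ∑ i ∈ (Finset.range k).filter (fun i => i ≤ e + k - a), H2 b c (e + k - a - i)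
        ≤ ∑ i ∈ (Finset.range k).filter (fun i => i ≤ e + k - a), ((e + 2 - a) + (k - 1 - i)) := by
          refine Finset.sum_le_sum fun i hi => ?_
          simp only [Finset.mem_filter, Finset.mem_range] at hi
          rw [H2_eq]
          omega
      _ ≤ ∑ i ∈ Finset.range k, ((e + 2 - a) + (k - 1 - i)) :=
          Finset.sum_le_sum_of_subset (Finset.filter_subset _ _)
      _ = k * (e + 2 - a) + k.choose 2 := by
          rw [Finset.sum_add_distrib, hsum, Finset.sum_const, Finset.card_range, smul_eq_mul]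

variable {K : Type*} [Field K]

/-- top degree has dimension one -/
theorem cia_box_top {a b c : ℕ} (ha : 1 ≤ a) (hb : 1 ≤ b) (hc : 1 ≤ c) :
    box a b c (a + b + c - 3) = 1 := by
  unfold box
  rw [Finset.card_eq_one]
  refine ⟨(a-1, b-1, c-1), ?_⟩
  ext ⟨p, q, r⟩
  simp only [Finset.mem_filter, Finset.mem_product, Finset.mem_range, Finset.mem_singleton,
    Prod.mk.injEq]
  omega

/-- dimension of the annihilator of a form -/
theorem gr3_ann [Infinite K] {a b c : ℕ} (ha : 1 ≤ a) (hab : a ≤ b) (hbc : b ≤ c)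
    {f g h : S3 K} (H : RegSeq3 a b c f g h) (k : ℕ) (F : S3 K) (hF : F.IsHomogeneous k)
    (hF0 : F ≠ 0) (e : ℕ) (he : e + k + 3 ≤ a + b)
    (V : Submodule K (S3 K ⧸ I3 f g h)) (hV : V ≤ gr3 f g h e)
    (hFV : ∀ v ∈ V, aeval (x3 f g h) F * v = 0) :
    finrank K V ≤ k * (e + 2 - a) + k.choose 2 := by
  classical
  rcases Nat.eq_zero_or_pos k with hk0 | hk
  · subst hk0
    have hVbot : V = ⊥ := by
      rw [eq_bot_iff]
      intro v hv
      have h1 := hFV v hv
      have hFC : F = C (coeff 0 F) := by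
        have := (totalDegree_eq_zero_iff_eq_C (p := F)).mp
          (Nat.le_zero.mp hF.totalDegree_le)
        exact this
      rw [hFC, aeval_C] at h1
      have hc : coeff 0 F ≠ 0 := fun h => hF0 (by rw [hFC, h, C_0])
      rw [← Algebra.smul_def] at h1
      exact (smul_eq_zero.mp h1).resolve_left hc
    rw [hVbot, finrank_bot]
    exact Nat.zero_le _
  -- notation
  set j := a + b + c - 3 - e with hj
  have hjk : k ≤ j := by omega
  set Fb := aeval (x3 f g h) F with hFb
  have hFb' : Fb = Ideal.Quotient.mk (I3 f g h) F := aeval_x3 f g h F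
  have hfin := gr3_fin f g h
  let Y : Submodule K (S3 K ⧸ I3 f g h) := (gr3 f g h (j - k)).map (LinearMap.mulLeft K Fb)
  have hYgr : Y ≤ gr3 f g h j := by
    rintro _ ⟨w, hw, rfl⟩
    obtain ⟨p, hp, rfl⟩ := mem_gr3.mp hw
    refine mem_gr3.mpr ⟨F * p, ?_, ?_⟩
    · have := hF.mul hp
      rwa [Nat.add_sub_cancel' hjk] at this
    · rw [map_mul, ← hFb']; rfl
  have hVY : ∀ v ∈ V, ∀ y ∈ Y, v * y = 0 := by
    rintro v hv _ ⟨w, hw, rfl⟩
    show v * (Fb * w) = 0
    rw [← mul_assoc, mul_comm v, hFV v hv, zero_mul]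
  have hpair := cia_pairing hfin (gr3_gen f g h) (gr3_zero f g h) (a + b + c - 3)
    (by rw [gr3_dim H, cia_box_top ha (by omega) (by omega)])
    (fun j hj u hu h0 => gr3_soc ha (by omega) (by omega) H j (by omega) u hu h0)
    (show e + j = a + b + c - 3 by omega) V Y hV hYgr hVY
  -- the auxiliary complete intersection
  obtain ⟨α, β, hα, hβ, hqb⟩ := exists_coprime hab hF0 H.hf H.hg H.nf H.rg
  set qb := α * f + β * g with hqb'
  obtain ⟨N, hN⟩ := H.pow_mem hab hbc
  obtain ⟨qc, hqcW, hqc, -⟩ := exists_nzd_of_span hF0 hqb _ N hN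
  have hqbI : qb ∈ I3 f g h := by
    rw [mem_I3]
    exact ⟨α, β, 0, by rw [hqb']; ring⟩
  have hqcI : qc ∈ I3 f g h := hqcW.1
  have H' : RegSeq3 k b c F qb qc :=
    { hf := hF
      hg := by
        have h1 := hα.mul H.hf
        have h2 := hβ.mul H.hg
        rw [Nat.sub_add_cancel hab] at h1
        rw [zero_add] at h2
        exact h1.add h2
      hh := (mem_homogeneousSubmodule c qc).mp hqcW.2
      nf := hF0
      rg := hqb
      rh := hqc }
  have hSfin : Module.Finite K (homogeneousSubmodule (Fin 3) K j) :=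
    Module.Finite.iff_fg.mpr (homogeneousSubmodule_fg (Fin 3) K j)
  have s1 : finrank K ((homogeneousSubmodule (Fin 3) K j).map
      (Y.mkQ ∘ₗ (Ideal.Quotient.mkₐ K (I3 f g h)).toLinearMap)) +
      finrank K ↥(homogeneousSubmodule (Fin 3) K j ⊓
      LinearMap.ker (Y.mkQ ∘ₗ (Ideal.Quotient.mkₐ K (I3 f g h)).toLinearMap)) =
      finrank K (homogeneousSubmodule (Fin 3) K j) :=
    kls_split (Y.mkQ ∘ₗ (Ideal.Quotient.mkₐ K (I3 f g h)).toLinearMap)
    (homogeneousSubmodule (Fin 3) K j)
  have s2 : finrank K ((homogeneousSubmodule (Fin 3) K j).map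
      (Ideal.Quotient.mkₐ K (I3 F qb qc)).toLinearMap) +
      finrank K ↥(homogeneousSubmodule (Fin 3) K j ⊓
      LinearMap.ker (Ideal.Quotient.mkₐ K (I3 F qb qc)).toLinearMap) =
      finrank K (homogeneousSubmodule (Fin 3) K j) := kls_split (Ideal.Quotient.mkₐ K (I3 F qb qc)).toLinearMap
    (homogeneousSubmodule (Fin 3) K j)
  have s3 := kls_split Y.mkQ (gr3 f g h j)
  have e1 : gr3 f g h j ⊓ LinearMap.ker Y.mkQ = Y := by
    rw [Submodule.ker_mkQ]; exact inf_eq_right.mpr hYgr
  have e2 : (homogeneousSubmodule (Fin 3) K j).map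
      (Y.mkQ ∘ₗ (Ideal.Quotient.mkₐ K (I3 f g h)).toLinearMap) = (gr3 f g h j).map Y.mkQ := by
    rw [Submodule.map_comp]; rfl
  have e3 : finrank K ((homogeneousSubmodule (Fin 3) K j).map
      (Ideal.Quotient.mkₐ K (I3 F qb qc)).toLinearMap) = box k b c j := gr3_dim H' j
  have hle : homogeneousSubmodule (Fin 3) K j ⊓
      LinearMap.ker (Ideal.Quotient.mkₐ K (I3 F qb qc)).toLinearMap ≤
      homogeneousSubmodule (Fin 3) K j ⊓
      LinearMap.ker (Y.mkQ ∘ₗ (Ideal.Quotient.mkₐ K (I3 f g h)).toLinearMap) := by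
    rintro p ⟨hp, hp'⟩
    refine ⟨hp, ?_⟩
    have hpI : p ∈ I3 F qb qc := Ideal.Quotient.eq_zero_iff_mem.mp hp'
    obtain ⟨u, v, w, hpe, hu, -⟩ :=
      H'.exists_hom_coeff ((mem_homogeneousSubmodule j p).mp hp) hpI
    have hmk : Ideal.Quotient.mk (I3 f g h) p = Fb * Ideal.Quotient.mk (I3 f g h) u := by
      rw [hpe, map_add, map_add, map_mul, map_mul, map_mul,
        Ideal.Quotient.eq_zero_iff_mem.mpr hqbI, Ideal.Quotient.eq_zero_iff_mem.mpr hqcI,
        zero_mul, zero_mul, add_zero, add_zero, hFb']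
    show Y.mkQ (Ideal.Quotient.mk (I3 f g h) p) = 0
    rw [Submodule.mkQ_apply, Submodule.Quotient.mk_eq_zero, hmk]
    exact ⟨_, mem_gr3.mpr ⟨u, hu, rfl⟩, rfl⟩
  have hfin2 : Module.Finite K ↥(homogeneousSubmodule (Fin 3) K j ⊓
      LinearMap.ker (Y.mkQ ∘ₗ (Ideal.Quotient.mkₐ K (I3 f g h)).toLinearMap)) :=
    Submodule.finiteDimensional_of_le inf_le_left
  have s4 := Submodule.finrank_mono hle
  have s5 := cia_box_bound ha hab hbc hk he
  rw [e1] at s3
  rw [e2] at s1
  rw [e3] at s2
  rw [← hj] at s5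
  omega

end Vale.Agent.P200
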