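import Vale.Agent.P200.Basic
import Vale.Agent.P200.KLModule

namespace Vale.Agent.P200

open MvPolynomial Module

variable {K : Type*} [Field K]

/-- the ideal `(f,g,h)` -/
noncomputable def I3 (f g h : S3 K) : Ideal (S3 K) := Ideal.span {f, g, h}

/-- graded pieces of `S/(f,g,h)` -/
noncomputable def gr3 (f g h : S3 K) (j : ℕ) : Submodule K (S3 K ⧸ I3 f g h) :=
  (homogeneousSubmodule (Fin 3) K j).map (Ideal.Quotient.mkₐ K (I3 f g h)).toLinearMap

/-- the variables in `S/(f,g,h)` -/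
noncomputable def x3 (f g h : S3 K) (i : Fin 3) : S3 K ⧸ I3 f g h :=
  Ideal.Quotient.mk (I3 f g h) (X i)

theorem mem_I3 {f g h p : S3 K} : p ∈ I3 f g h ↔ ∃ u v w, p = f * u + g * v + h * w := by
  unfold I3
  rw [Ideal.mem_span_insert]
  constructor
  · rintro ⟨u, z, hz, rfl⟩
    obtain ⟨v, w, rfl⟩ := Ideal.mem_span_pair.1 hz
    exact ⟨u, v, w, by ring⟩
  · rintro ⟨u, v, w, rfl⟩
    exact ⟨u, g * v + h * w, Ideal.mem_span_pair.2 ⟨v, w, by ring⟩, by ring⟩

theorem mem_gr3 {f g h : S3 K} {j : ℕ} {u : S3 K ⧸ I3 f g h} :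
    u ∈ gr3 f g h j ↔ ∃ p : S3 K, p.IsHomogeneous j ∧ Ideal.Quotient.mk (I3 f g h) p = u :=
  Iff.rfl

theorem aeval_x3 (f g h p : S3 K) : aeval (x3 f g h) p = Ideal.Quotient.mk (I3 f g h) p := by
  have h1 : aeval (x3 f g h) = Ideal.Quotient.mkₐ K (I3 f g h) := by
    apply MvPolynomial.algHom_ext
    intro i
    rw [aeval_X]
    rfl
  rw [h1]
  rfl

theorem gr3_fin (f g h : S3 K) (j : ℕ) : Module.Finite K (gr3 f g h j) :=
  Module.Finite.iff_fg.2 ((homogeneousSubmodule_fg (Fin 3) K j).map _)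

theorem gr3_gen (f g h : S3 K) (j : ℕ) : gr3 f g h (j+1) = sh (x3 f g h) (gr3 f g h j) := by
  apply le_antisymm
  · rintro _ ⟨p, hp, rfl⟩
    obtain ⟨q, hq, rfl⟩ := klm_split j p hp
    rw [map_add, map_add]
    have h1 : ∀ i, (Ideal.Quotient.mkₐ K (I3 f g h)).toLinearMap (X i * q i) ∈
        sh (x3 f g h) (gr3 f g h j) := by
      intro i
      refine Submodule.mem_iSup_of_mem i ⟨Ideal.Quotient.mk _ (q i), ⟨q i, hq i, rfl⟩, ?_⟩
      rfl
    exact Submodule.add_mem _ (Submodule.add_mem _ (h1 0) (h1 1)) (h1 2)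
  · refine iSup_le fun i => ?_
    rintro _ ⟨_, ⟨p, hp, rfl⟩, rfl⟩
    refine ⟨X i * p, ?_, rfl⟩
    have h1 := (isHomogeneous_X K i).mul ((mem_homogeneousSubmodule _ _).1 hp)
    rw [add_comm] at h1
    exact h1

theorem gr3_zero (f g h : S3 K) : gr3 f g h 0 = Submodule.span K {1} := by
  apply le_antisymm
  · rintro _ ⟨p, hp, rfl⟩
    have h1 := homogeneousComponent_eq_self hp
    rw [homogeneousComponent_zero] at h1
    rw [Submodule.mem_span_singleton]
    refine ⟨coeff 0 p, ?_⟩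
    rw [← h1]
    simp only [coeff_C, if_true]
    rw [← algebraMap_eq, AlgHom.toLinearMap_apply, AlgHom.commutes, Algebra.algebraMap_eq_smul_one]
  · rw [Submodule.span_singleton_le_iff_mem]
    exact ⟨1, isHomogeneous_one _ _, map_one (Ideal.Quotient.mkₐ K (I3 f g h))⟩

/-- homogeneous components of a multiple of a form -/
lemma cib_hc_mul {a d : ℕ} {f : S3 K} (hf : f.IsHomogeneous a) (u : S3 K) :
    homogeneousComponent d (f * u) = if a ≤ d then f * homogeneousComponent (d - a) u else 0 := by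
  classical
  conv_lhs => rw [← sum_homogeneousComponent u, Finset.mul_sum, map_sum]
  have h1 : ∀ i ∈ Finset.range (u.totalDegree + 1),
      homogeneousComponent d (f * homogeneousComponent i u) =
      if i = d - a ∧ a ≤ d then f * homogeneousComponent i u else 0 := by
    intro i _
    rw [homogeneousComponent_of_mem (n := a + i) (hf.mul (homogeneousComponent_isHomogeneous i u))]
    by_cases h : d = a + i
    · rw [if_pos h, if_pos (by omega)]
    · rw [if_neg h, if_neg (by omega)]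
  rw [Finset.sum_congr rfl h1]
  by_cases had : a ≤ d
  · simp only [had, and_true, if_true]
    rw [Finset.sum_ite_eq' (Finset.range (u.totalDegree + 1)) (d - a)
      (fun i => f * homogeneousComponent i u)]
    by_cases hm : d - a ∈ Finset.range (u.totalDegree + 1)
    · rw [if_pos hm]
    · rw [if_neg hm]
      rw [Finset.mem_range, not_lt] at hm
      rw [homogeneousComponent_eq_zero (d - a) u (by omega), mul_zero]
  · simp [had]

/-- a homogeneous combination of forms has homogeneous coefficients; degree `d` part of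
`(f,g,h)` -/
theorem RegSeq3.exists_hom_coeff {a b c : ℕ} {f g h : S3 K} (H : RegSeq3 a b c f g h) {p : S3 K}
    {d : ℕ} (hp : p.IsHomogeneous d) (hI : p ∈ I3 f g h) :
    ∃ u v w, p = f * u + g * v + h * w ∧ u.IsHomogeneous (d - a) ∧ v.IsHomogeneous (d - b) ∧
      w.IsHomogeneous (d - c) ∧ (d < a → u = 0) ∧ (d < b → v = 0) ∧ (d < c → w = 0) := by
  obtain ⟨u, v, w, h1⟩ := mem_I3.1 hI
  have h2 := homogeneousComponent_eq_self hp
  have h3 : ∀ (e : ℕ) (q r : S3 K), q.IsHomogeneous e → ∃ r', homogeneousComponent d (q * r) = q * r' ∧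
      r'.IsHomogeneous (d - e) ∧ (d < e → r' = 0) := by
    intro e q r hq
    rw [cib_hc_mul hq]
    by_cases hed : e ≤ d
    · rw [if_pos hed]
      exact ⟨_, rfl, homogeneousComponent_isHomogeneous _ _, fun h => absurd h (by omega)⟩
    · rw [if_neg hed]
      exact ⟨0, by rw [mul_zero], isHomogeneous_zero _ _ _, fun _ => rfl⟩
  obtain ⟨u', eu, hu, hu0⟩ := h3 a f u H.hf
  obtain ⟨v', ev, hv, hv0⟩ := h3 b g v H.hg
  obtain ⟨w', ew, hw, hw0⟩ := h3 c h w H.hh
  refine ⟨u', v', w', ?_, hu, hv, hw, hu0, hv0, hw0⟩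
  rw [← eu, ← ev, ← ew, ← map_add, ← map_add, ← h1, h2]

end Vale.Agent.P200
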