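import Vale.Agent.P200.Basic

namespace Vale.Agent.P200

open MvPolynomial Module

variable {K A : Type*} [Field K] [CommRing A] [Algebra K A]

/-- evaluation of a polynomial with coefficients in `A` at a scalar point -/
noncomputable def evA {σ : Type*} (t : σ → K) (F : MvPolynomial σ A) : A :=
  eval (fun i => algebraMap K A (t i)) F

theorem evA_exists {σ : Type*} (φ : A →ₗ[K] K) (F : MvPolynomial σ A) :
    ∃ p : MvPolynomial σ K, ∀ t : σ → K, eval t p = φ (evA t F) := by
  induction F using MvPolynomial.induction_on' with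
  | monomial s a =>
    refine ⟨monomial s (φ a), fun t => ?_⟩
    unfold evA
    rw [eval_monomial, eval_monomial]
    have : a * (s.prod fun n e => (algebraMap K A (t n)) ^ e) =
        (s.prod fun n e => t n ^ e) • a := by
      rw [Algebra.smul_def, mul_comm, Finsupp.prod, Finsupp.prod, map_prod]
      simp only [map_pow]
    rw [this, map_smul, smul_eq_mul, mul_comm]
  | add p q hp hq =>
    obtain ⟨p', hp'⟩ := hp
    obtain ⟨q', hq'⟩ := hq
    refine ⟨p' + q', fun t => ?_⟩
    have : evA t (p + q) = evA t p + evA t q := map_add _ _ _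
    rw [map_add, hp', hq', this, map_add]

/-- lower semicontinuity: linear independence is an open condition -/
theorem evA_open {σ : Type*} {n : ℕ} (q : Fin n → MvPolynomial σ A) (t0 : σ → K)
    (h : LinearIndependent K (fun a => evA t0 (q a))) :
    ∃ P : MvPolynomial σ K, eval t0 P ≠ 0 ∧
      ∀ t : σ → K, eval t P ≠ 0 → LinearIndependent K (fun a => evA t (q a)) := by
  classical
  obtain ⟨g, hg⟩ := LinearMap.exists_leftInverse_of_injective
    (Fintype.linearCombination K (fun a => evA t0 (q a)))
    (by rw [LinearMap.ker_eq_bot]; exact h.fintypeLinearCombination_injective)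
  have hgv : ∀ b, g (evA t0 (q b)) = Pi.single b 1 := by
    intro b
    have := congrArg (fun f => f (Pi.single b (1:K))) hg
    simpa using this
  choose p hp using fun a b => evA_exists (LinearMap.proj a ∘ₗ g) (q b)
  have hdet : ∀ t, eval t (Matrix.det (Matrix.of p)) =
      Matrix.det (Matrix.of fun a b => g (evA t (q b)) a) := by
    intro t
    rw [RingHom.map_det]
    congr 1
    ext a b
    simp only [RingHom.mapMatrix_apply, Matrix.map_apply, Matrix.of_apply]
    rw [hp]; rfl
  refine ⟨Matrix.det (Matrix.of p), ?_, ?_⟩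
  · rw [hdet]
    have : (Matrix.of fun a b => g (evA t0 (q b)) a) = 1 := by
      ext a b
      rw [Matrix.of_apply, hgv, Matrix.one_apply, Pi.single_apply]
    rw [this, Matrix.det_one]
    exact one_ne_zero
  · intro t ht
    rw [hdet] at ht
    have := Matrix.linearIndependent_cols_of_det_ne_zero ht
    apply LinearIndependent.of_comp g
    exact this

/-- the rank of a polynomial family: bound -/
theorem evA_rank {n : ℕ} (w : Fin n → A) (V : Submodule K A) [Module.Finite K V]
    (hw : LinearIndependent K w) (hV : ∀ a, w a ∈ V) : n ≤ finrank K V := by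
  have h : LinearIndependent K (fun a => (⟨w a, hV a⟩ : V)) := by
    apply LinearIndependent.of_comp V.subtype
    exact hw
  have := h.fintype_card_le_finrank
  simpa using this

/-- a basis of the image of a submodule under multiplication -/
theorem map_basis (X : Submodule K A) [Module.Finite K X] (z : A) :
    ∃ (r : ℕ) (v : Fin r → A), r = finrank K (X.map (LinearMap.mulLeft K z)) ∧ (∀ j, v j ∈ X) ∧
      LinearIndependent K (fun j => z * v j) ∧
      Submodule.span K (Set.range (fun j => z * v j)) = X.map (LinearMap.mulLeft K z) := by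
  have b := finBasis K (X.map (LinearMap.mulLeft K z))
  have hv : ∀ j, ∃ v ∈ X, z * v = (b j : A) := fun j => by
    obtain ⟨v, hv, hv'⟩ := (b j).2
    exact ⟨v, hv, hv'⟩
  choose v hvX hv' using hv
  refine ⟨_, v, rfl, hvX, ?_, ?_⟩
  · have : (fun j => z * v j) = (X.map (LinearMap.mulLeft K z)).subtype ∘ b := by
      ext j; exact hv' j
    rw [this]
    exact b.linearIndependent.map' _ (Submodule.ker_subtype _)
  · have : (fun j => z * v j) = (X.map (LinearMap.mulLeft K z)).subtype ∘ b := by
      ext j; exact hv' j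
    rw [this, Set.range_comp, Submodule.span_image, b.span_eq, Submodule.map_top,
      Submodule.range_subtype]

theorem lin_eq (x : Fin 3 → A) (t : Fin 3 → K) :
    evA t (∑ i, C (x i) * X i : MvPolynomial (Fin 3) A) = lin x t := by
  unfold evA lin
  rw [map_sum]
  refine Finset.sum_congr rfl fun i _ => ?_
  rw [map_mul, eval_C, eval_X, Algebra.smul_def, mul_comm]

/-- polynomial describing the points of maximal rank -/
theorem rank_generic (x : Fin 3 → A) (V : Submodule K A) [Module.Finite K V] (n : ℕ) :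
    ∃ P : S3 K, P ≠ 0 ∧ ∀ t : Fin 3 → K, eval t P ≠ 0 → ∀ t' : Fin 3 → K,
      finrank K (V.map (LinearMap.mulLeft K ((lin x t') ^ n))) ≤
      finrank K (V.map (LinearMap.mulLeft K ((lin x t) ^ n))) := by
  classical
  -- maximal rank
  have hb : ∀ t : Fin 3 → K, finrank K (V.map (LinearMap.mulLeft K ((lin x t) ^ n))) ≤ finrank K V :=
    fun t => Submodule.finrank_map_le _ _
  obtain ⟨t0, ht0⟩ : ∃ t0 : Fin 3 → K, ∀ t' : Fin 3 → K,
      finrank K (V.map (LinearMap.mulLeft K ((lin x t') ^ n))) ≤
      finrank K (V.map (LinearMap.mulLeft K ((lin x t0) ^ n))) := by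
    have hex : ∃ m, ∀ t : Fin 3 → K,
        finrank K (V.map (LinearMap.mulLeft K ((lin x t) ^ n))) ≤ m := ⟨_, hb⟩
    by_contra hcon
    push Not at hcon
    have h1 := Nat.find_spec hex
    have hpos : 0 < Nat.find hex := by
      obtain ⟨t', ht'⟩ := hcon 0
      exact lt_of_le_of_lt (Nat.zero_le _) (lt_of_lt_of_le ht' (h1 t'))
    have h2 := Nat.find_min hex (m := Nat.find hex - 1) (by omega)
    push Not at h2
    obtain ⟨t, ht⟩ := h2
    obtain ⟨t', ht'⟩ := hcon t
    have := h1 t'
    omega
  obtain ⟨r, v, hr, hvV, hli, -⟩ := map_basis V ((lin x t0) ^ n)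
  let q : Fin r → MvPolynomial (Fin 3) A :=
    fun j => (∑ i, C (x i) * X i) ^ n * C (v j)
  have hq : ∀ (t : Fin 3 → K) (j : Fin r), evA t (q j) = (lin x t) ^ n * v j := by
    intro t j
    have : evA t (q j) = (evA t (∑ i, C (x i) * X i : MvPolynomial (Fin 3) A)) ^ n * v j := by
      unfold evA
      rw [map_mul, map_pow, eval_C]
    rw [this, lin_eq]
  obtain ⟨P, hP0, hP⟩ := evA_open q t0 (by simpa only [hq] using hli)
  refine ⟨P, fun h => hP0 (by rw [h, map_zero]), fun t ht t' => (ht0 t').trans ?_⟩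
  rw [← hr]
  have := hP t ht
  simp only [hq] at this
  exact evA_rank _ _ this (fun a => ⟨v a, hvV a, rfl⟩)

/-- the derivative argument at a point of maximal rank -/
theorem deriv_step [Infinite K] (V : Submodule K A) [Module.Finite K V] (n : ℕ)
    (hn : ((n + 1 : ℕ) : K) ≠ 0) (l y : A)
    (hmax : ∀ τ : K, finrank K (V.map (LinearMap.mulLeft K ((l + τ • y) ^ (n+1)))) ≤
      finrank K (V.map (LinearMap.mulLeft K (l ^ (n+1)))))
    (v : A) (hv : v ∈ V) (hlv : l ^ (n+1) * v = 0) :
    ∃ v' ∈ V, y * (l ^ n * v) = l ^ (n+1) * v' := by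
  classical
  by_contra hcon
  have hnot : y * (l ^ n * v) ∉ V.map (LinearMap.mulLeft K (l ^ (n+1))) := by
    rintro ⟨v', hv', h⟩
    exact hcon ⟨v', hv', h.symm⟩
  obtain ⟨r, b, hr, hbV, hli, hspan⟩ := map_basis V (l ^ (n+1))
  -- expansion
  obtain ⟨kk, hkk⟩ := Polynomial.powAddExpansion (C l : MvPolynomial Unit A) (C y * X ()) (n+1)
  let g : MvPolynomial Unit A := C (((n+1 : ℕ) : A) * (y * (l ^ n * v))) + X () * (kk * C (y ^ 2 * v))
  let q : Fin (r+1) → MvPolynomial Unit A :=
    Fin.cons g (fun j => (C l + C y * X ()) ^ (n+1) * C (b j))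
  have hg0 : evA (fun _ => (0:K)) g = ((n+1 : ℕ) : K) • (y * (l ^ n * v)) := by
    unfold evA
    simp only [g]
    rw [map_add, eval_C, map_mul (eval _) (X ()) _, eval_X, map_zero, zero_mul, add_zero,
      Algebra.smul_def, map_natCast]
  have hgt : ∀ τ : K, (l + τ • y) ^ (n+1) * v = τ • evA (fun _ => τ) g := by
    intro τ
    have h1 := congrArg (evA (fun _ => τ)) hkk
    have h2 : evA (fun _ => τ) ((C l + C y * X () : MvPolynomial Unit A) ^ (n+1)) =
        (l + τ • y) ^ (n+1) := by
      unfold evA
      rw [map_pow, map_add, map_mul, eval_C, eval_C, eval_X, Algebra.smul_def, mul_comm y]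
    have h3 : evA (fun _ => τ) ((C l : MvPolynomial Unit A) ^ (n+1) + ((n+1 : ℕ) : MvPolynomial Unit A) * (C l) ^ (n+1-1) * (C y * X ()) + kk * (C y * X ()) ^ 2) =
        l ^ (n+1) + ((n+1 : ℕ) : A) * l ^ n * (y * algebraMap K A τ) +
        (evA (fun _ => τ) kk) * (y * algebraMap K A τ) ^ 2 := by
      unfold evA
      simp only [map_add, map_mul, map_pow, eval_C, eval_X, map_natCast, Nat.add_sub_cancel]
    rw [h2, h3] at h1
    have h4 : evA (fun _ => τ) g = ((n+1 : ℕ) : A) * (y * (l ^ n * v)) +
        algebraMap K A τ * (evA (fun _ => τ) kk * (y ^ 2 * v)) := by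
      unfold evA
      simp only [g, map_add, map_mul, map_pow, eval_C, eval_X, map_natCast]
    rw [h1, h4, Algebra.smul_def]
    linear_combination hlv
  have hqt : ∀ (τ : K) (j : Fin r), evA (fun _ => τ) (q j.succ) = (l + τ • y) ^ (n+1) * b j := by
    intro τ j
    simp only [q, Fin.cons_succ]
    unfold evA
    rw [map_mul, map_pow, map_add, map_mul, eval_C, eval_C, eval_X, eval_C, Algebra.smul_def,
      mul_comm y]
  have h0 : LinearIndependent K (fun a => evA (fun _ => (0:K)) (q a)) := by
    have : (fun a => evA (fun _ => (0:K)) (q a)) =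
        (Fin.cons (((n+1 : ℕ) : K) • (y * (l ^ n * v))) (fun j => l ^ (n+1) * b j) :
          Fin (r+1) → A) := by
      funext a
      refine Fin.cases ?_ (fun j => ?_) a
      · simp only [q, Fin.cons_zero]; exact hg0
      · rw [hqt, zero_smul, add_zero, Fin.cons_succ]
    rw [this]
    refine linearIndependent_finCons.mpr ⟨hli, ?_⟩
    rw [hspan]
    intro hmem
    apply hnot
    have := (V.map (LinearMap.mulLeft K (l ^ (n+1)))).smul_mem ((((n+1 : ℕ) : K))⁻¹) hmem
    rwa [smul_smul, inv_mul_cancel₀ hn, one_smul] at this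
  obtain ⟨P, hP0, hP⟩ := evA_open q (fun _ => (0:K)) h0
  -- choose τ ≠ 0
  obtain ⟨s, hs⟩ : ∃ s : Unit → K, eval s (P * X ()) ≠ 0 := by
    by_contra hc
    push Not at hc
    have : P * X () = 0 := MvPolynomial.funext (fun s => by rw [hc s, map_zero])
    rcases mul_eq_zero.mp this with h | h
    · exact hP0 (by rw [h, map_zero])
    · exact (X_ne_zero ()) h
  have hs' : s = fun _ => s () := by funext u; cases u; rfl
  set τ := s () with hτ
  rw [hs', map_mul, eval_X] at hs
  have hPτ : eval (fun _ => τ) P ≠ 0 := left_ne_zero_of_mul hs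
  have hτ0 : τ ≠ 0 := right_ne_zero_of_mul hs
  have hli' := hP _ hPτ
  have := evA_rank _ (V.map (LinearMap.mulLeft K ((l + τ • y) ^ (n+1)))) hli' (fun a => by
    refine Fin.cases ?_ (fun j => ?_) a
    · simp only [q, Fin.cons_zero]
      refine ⟨τ⁻¹ • v, V.smul_mem _ hv, ?_⟩
      show (l + τ • y) ^ (n+1) * (τ⁻¹ • v) = _
      rw [mul_smul_comm, hgt, smul_smul, inv_mul_cancel₀ hτ0, one_smul]
    · rw [hqt]
      exact ⟨b j, hbV j, rfl⟩)
  have := hmax τ
  omega

/-- derivative lemma: for generic `t` the multiplication `l^(k+1)` has maximal rank on `X`,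
hence `x i * l^k` maps its kernel to its image -/
theorem green_deriv [Infinite K] (x : Fin 3 → A) (X : Submodule K A) [Module.Finite K X] (N : ℕ)
    (hN : ∀ n : ℕ, 0 < n → n ≤ N → (n : K) ≠ 0) :
    ∃ P : S3 K, P ≠ 0 ∧ ∀ t : Fin 3 → K, eval t P ≠ 0 → ∀ k < N, ∀ v ∈ X,
      (lin x t) ^ (k+1) * v = 0 → ∀ i, ∃ v' ∈ X,
        x i * ((lin x t) ^ k * v) = (lin x t) ^ (k+1) * v' := by
  classical
  choose P hP0 hP using fun n => rank_generic x X n
  refine ⟨∏ k ∈ Finset.range N, P (k+1), Finset.prod_ne_zero_iff.mpr fun k _ => hP0 _, ?_⟩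
  intro t ht k hk v hv hlv i
  have hPk : eval t (P (k+1)) ≠ 0 := by
    rw [map_prod] at ht
    exact Finset.prod_ne_zero_iff.mp ht k (Finset.mem_range.mpr hk)
  refine deriv_step X k (hN (k+1) (by omega) (by omega)) (lin x t) (x i) (fun τ => ?_) v hv hlv
  have h1 : lin x t + τ • x i = lin x (t + Pi.single i τ) := by
    unfold lin
    simp only [Pi.add_apply, add_smul, Finset.sum_add_distrib]
    congr 1
    rw [Finset.sum_eq_single i]
    · rw [Pi.single_eq_same]
    · intro j _ hj
      rw [Pi.single_eq_of_ne hj, zero_smul]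
    · intro h; exact absurd (Finset.mem_univ i) h
  rw [h1]
  exact hP (k+1) t hPk _

/-- the space `S_k v0` -/
noncomputable def cyc (x : Fin 3 → A) (v0 : A) (k : ℕ) : Submodule K A :=
  (homogeneousSubmodule (Fin 3) K k).map
    ((LinearMap.mulRight K v0).comp (aeval x : S3 K →ₐ[K] A).toLinearMap)

/-- `S_k v0` is contained in any family of subspaces closed under the `x i` -/
theorem cyc_le (x : Fin 3 → A) (v0 : A) (N : ℕ) (Y : ℕ → Submodule K A) (h0 : v0 ∈ Y 0)
    (hY : ∀ k < N, ∀ w ∈ Y k, ∀ i, x i * w ∈ Y (k+1)) (k : ℕ) (hk : k ≤ N) :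
    cyc (K := K) x v0 k ≤ Y k := by
  have hmon : ∀ k ≤ N, ∀ s : Fin 3 →₀ ℕ, s.degree = k →
      aeval x (monomial s (1:K)) * v0 ∈ Y k := by
    intro k
    induction k with
    | zero =>
      intro _ s hs
      have : s = 0 := (Finsupp.degree_eq_zero_iff s).mp hs
      rw [this]
      simpa using h0
    | succ k ih =>
      intro hk s hs
      have hs0 : s ≠ 0 := by
        rintro rfl
        simp at hs
      obtain ⟨i, hi⟩ : ∃ i, s i ≠ 0 := by
        by_contra hc
        push Not at hc
        exact hs0 (Finsupp.ext hc)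
      have hsi : s = Finsupp.single i 1 + (s - Finsupp.single i 1) := by
        rw [add_tsub_cancel_of_le]
        rw [Finsupp.single_le_iff]; omega
      have hdeg : (s - Finsupp.single i 1).degree = k := by
        have := congrArg Finsupp.degree hsi
        rw [map_add, Finsupp.degree_single] at this
        omega
      have h1 := ih (by omega) _ hdeg
      have h2 := hY k (by omega) _ h1 i
      have h3 : (monomial s (1:K)) = X i * monomial (s - Finsupp.single i 1) (1:K) := by
        conv_lhs => rw [hsi]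
        rw [X, monomial_mul, one_mul]
      rw [h3, map_mul, aeval_X, mul_assoc]
      exact h2
  rintro _ ⟨F, hF, rfl⟩
  have hF' : F.IsHomogeneous k := (mem_homogeneousSubmodule k F).mp hF
  show aeval x F * v0 ∈ Y k
  rw [F.as_sum, map_sum, Finset.sum_mul]
  refine (Y k).sum_mem fun s hs => ?_
  have hd : s.degree = k := by
    have := hF' (mem_support_iff.mp hs)
    rw [Finsupp.degree_eq_weight_one]
    exact this
  have : monomial s (coeff s F) = (coeff s F) • monomial s (1:K) := by
    rw [smul_monomial, smul_eq_mul, mul_one]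
  rw [this, map_smul, smul_mul_assoc]
  exact (Y k).smul_mem _ (hmon k hk s hd)

/-- telescoping -/
theorem green_sum (x : Fin 3 → A) (X : Submodule K A) [Module.Finite K X] (N : ℕ) (l : A)
    (hl : ∀ k < N, ∀ v ∈ X, l ^ (k+1) * v = 0 → ∀ i, ∃ v' ∈ X,
        x i * (l ^ k * v) = l ^ (k+1) * v')
    (v0 : A) (hv0 : v0 ∈ X) (hl0 : l * v0 = 0) :
    ∑ k ∈ Finset.range (N + 1), finrank K (cyc (K := K) x v0 k) ≤ finrank K X := by
  classical
  let E : ℕ → Submodule K A := fun k => X.map (LinearMap.mulLeft K (l ^ k))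
  let Y : ℕ → Submodule K A := fun k => E k ⊓ LinearMap.ker (LinearMap.mulLeft K l)
  have hE : ∀ k, E (k+1) = (E k).map (LinearMap.mulLeft K l) := by
    intro k
    show X.map (LinearMap.mulLeft K (l ^ (k+1))) =
      (X.map (LinearMap.mulLeft K (l ^ k))).map (LinearMap.mulLeft K l)
    rw [← Submodule.map_comp]
    congr 1
    ext a
    show l ^ (k+1) * a = l * (l ^ k * a)
    ring
  have hE0 : E 0 = X := by
    show X.map (LinearMap.mulLeft K (l ^ 0)) = X
    rw [pow_zero, LinearMap.mulLeft_one, Submodule.map_id]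
  have hsplit : ∀ k, finrank K (E (k+1)) + finrank K (Y k) = finrank K (E k) := by
    intro k
    rw [hE k]
    have h := LinearMap.finrank_range_add_finrank_ker ((LinearMap.mulLeft K l).domRestrict (E k))
    have h1 : LinearMap.range ((LinearMap.mulLeft K l).domRestrict (E k)) =
        (E k).map (LinearMap.mulLeft K l) := by
      rw [LinearMap.domRestrict, LinearMap.range_comp, Submodule.range_subtype]
    have h2 : finrank K (LinearMap.ker ((LinearMap.mulLeft K l).domRestrict (E k))) =
        finrank K (Y k) := by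
      rw [LinearMap.ker_domRestrict]
      have : Y k = (Submodule.comap (E k).subtype
          (LinearMap.ker (LinearMap.mulLeft K l))).map (E k).subtype := by
        rw [Submodule.map_comap_subtype]
      rw [this, Submodule.finrank_map_subtype_eq]
    rw [h1, h2] at h
    exact h
  have hsum : ∀ n, ∑ k ∈ Finset.range n, finrank K (Y k) + finrank K (E n) = finrank K X := by
    intro n
    induction n with
    | zero => rw [Finset.range_zero, Finset.sum_empty, zero_add, hE0]
    | succ n ih =>
      rw [Finset.sum_range_succ]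
      have := hsplit n
      omega
  have hY : ∀ k < N, ∀ w ∈ Y k, ∀ i, x i * w ∈ Y (k+1) := by
    rintro k hk _ ⟨⟨v, hv, rfl⟩, hw⟩ i
    have hw' : l * (l ^ k * v) = 0 := hw
    have hlv : l ^ (k+1) * v = 0 := by rw [pow_succ', mul_assoc]; exact hw'
    obtain ⟨v', hv', h⟩ := hl k hk v hv hlv i
    refine ⟨⟨v', hv', h.symm⟩, ?_⟩
    show l * (x i * (l ^ k * v)) = 0
    rw [mul_left_comm, hw', mul_zero]
  have h0 : v0 ∈ Y 0 := ⟨by rw [hE0]; exact hv0, hl0⟩
  have hYfin : ∀ k, Module.Finite K (Y k) := fun k =>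
    Submodule.finiteDimensional_of_le (inf_le_left : Y k ≤ E k)
  have hle : ∀ k ∈ Finset.range (N+1), finrank K (cyc (K := K) x v0 k) ≤ finrank K (Y k) := by
    intro k hk
    have := cyc_le x v0 N Y h0 hY k (by have := Finset.mem_range.mp hk; omega)
    exact Submodule.finrank_mono this
  have := hsum (N+1)
  have := Finset.sum_le_sum hle
  omega

end Vale.Agent.P200
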