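import Vale.Agent.P200.CIDim
import Vale.Agent.P200.CIDepth
import Vale.Agent.P200.CISoc
import Vale.Agent.P200.GreenA
import Vale.Agent.P200.KLModule

namespace Vale.Agent.P200

open MvPolynomial Module

section GreenGeneric

/-- combinatorics of the Hilbert function of a cyclic module in two variables -/
theorem grn_seq (D : ℕ → ℕ) (σ u : ℕ) (hu : 1 ≤ u) (hσ2 : u - 1 ≤ σ)
    (h1 : ∀ i, D (i+1) ≤ D i + 1)
    (h2 : ∀ i, 1 ≤ i → i ≤ σ → D i + 1 ≤ D (i+1) → D (i-1) + 1 ≤ D i)
    (h0 : 1 ≤ D 0)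
    (hsym : ∀ i ≤ σ, D i = D (σ - i))
    (hD : u ≤ D (u - 1)) :
    ∀ i ≤ σ, i + 1 ≤ D i ∨ u ≤ D i ∨ σ - i + 1 ≤ D i := by
  -- small range
  have hstep : ∀ k i, D (i + k) ≤ D i + k := by
    intro k
    induction k with
    | zero => intro i; simp
    | succ k ih => intro i; have := h1 (i + k); have := ih i; rw [← add_assoc]; omega
  have hsmall : ∀ i ≤ u - 1, i + 1 ≤ D i := by
    intro i hi
    have := hstep (u - 1 - i) i
    rw [show i + (u - 1 - i) = u - 1 by omega] at this
    omega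
  intro i hi
  by_cases c1 : i ≤ u - 1
  · exact Or.inl (hsmall i c1)
  by_cases c2 : σ - i ≤ u - 1
  · have := hsmall (σ - i) c2
    right; right
    rw [hsym i hi]; exact this
  right; left
  by_contra hcon
  push Not at c1 c2 hcon
  -- some increment before `i` is not positive
  have hex : ∃ k < i, D (k+1) ≤ D k := by
    by_contra hno
    push Not at hno
    have : ∀ k ≤ i, k + 1 ≤ D k := by
      intro k
      induction k with
      | zero => intro _; exact h0
      | succ k ih => intro hk; have := hno k (by omega); have := ih (by omega); omega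
    have := this i le_rfl
    omega
  obtain ⟨k, hk, hkD⟩ := hex
  have hnoninc : ∀ m, k ≤ m → m ≤ σ → D (m+1) ≤ D m := by
    intro m hkm
    induction m, hkm using Nat.le_induction with
    | base => intro _; exact hkD
    | succ m hm ih =>
      intro hmσ
      have h3 := ih (by omega)
      by_contra hcc
      push Not at hcc
      have h4 := h2 (m+1) (by omega) hmσ hcc
      simp only [Nat.add_sub_cancel] at h4
      omega
  have hdec : ∀ m, i ≤ m → m ≤ σ → D m ≤ D i := by
    intro m him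
    induction m, him using Nat.le_induction with
    | base => intro _; exact le_rfl
    | succ m hm ih =>
      intro hmσ
      exact (hnoninc m (by omega) (by omega)).trans (ih (by omega))
  have h5 := hdec (σ - (u - 1)) (by omega) (by omega)
  rw [← hsym (u-1) hσ2] at h5
  omega

theorem grn_count (D : ℕ → ℕ) (σ u b : ℕ) (hσ : σ + 2 = b + u)
    (h : ∀ i ≤ σ, i + 1 ≤ D i ∨ u ≤ D i ∨ σ - i + 1 ≤ D i) :
    b * u ≤ ∑ i ∈ Finset.range (σ + 1), D i := by
  have h1 : (Finset.range b ×ˢ Finset.range u).card = b * u := by simp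
  rw [← h1]
  have h2 : ∀ p ∈ Finset.range b ×ˢ Finset.range u, (fun p : ℕ × ℕ => p.1 + p.2) p ∈
      Finset.range (σ + 1) := by
    intro p hp
    simp only [Finset.mem_product, Finset.mem_range] at hp ⊢
    omega
  rw [Finset.card_eq_sum_card_fiberwise h2]
  refine Finset.sum_le_sum fun i hi => ?_
  rw [Finset.mem_range] at hi
  rcases h i (by omega) with h3 | h3 | h3
  · refine le_trans ?_ h3
    calc _ ≤ (Finset.range (i+1)).card := by
          refine Finset.card_le_card_of_injOn (fun p => p.2) ?_ ?_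
          · intro p hp
            simp only [Finset.coe_filter, Finset.mem_product, Finset.mem_range,
              Set.mem_ofPred_eq] at hp
            simp only [Finset.coe_range, Set.mem_Iio]; omega
          · intro p hp q hq hpq
            simp only [Finset.coe_filter, Finset.mem_product, Finset.mem_range,
              Set.mem_ofPred_eq] at hp hq hpq
            ext <;> omega
      _ = i + 1 := by simp
  · refine le_trans ?_ h3
    calc _ ≤ (Finset.range u).card := by
          refine Finset.card_le_card_of_injOn (fun p => p.2) ?_ ?_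
          · intro p hp
            simp only [Finset.coe_filter, Finset.mem_product, Finset.mem_range,
              Set.mem_ofPred_eq] at hp
            simp only [Finset.coe_range, Set.mem_Iio]; omega
          · intro p hp q hq hpq
            simp only [Finset.coe_filter, Finset.mem_product, Finset.mem_range,
              Set.mem_ofPred_eq] at hp hq hpq
            ext <;> omega
      _ = u := by simp
  · refine le_trans ?_ h3
    calc _ ≤ (Finset.Ico (b - 1 - (σ - i)) b).card := by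
          refine Finset.card_le_card_of_injOn (fun p => p.1) ?_ ?_
          · intro p hp
            simp only [Finset.coe_filter, Finset.mem_product, Finset.mem_range,
              Set.mem_ofPred_eq] at hp
            simp only [Finset.coe_Ico, Set.mem_Ico]; omega
          · intro p hp q hq hpq
            simp only [Finset.coe_filter, Finset.mem_product, Finset.mem_range,
              Set.mem_ofPred_eq] at hp hq hpq
            ext <;> omega
      _ ≤ σ - i + 1 := by simp; omega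

end GreenGeneric

section GreenAlg

variable {K A : Type*} [Field K] [CommRing A] [Algebra K A]

theorem grn_map_le (V : Submodule K A) [Module.Finite K V] (m : A) :
    finrank K (V.map (LinearMap.mulLeft K m)) ≤ finrank K V :=
  Submodule.finrank_map_le _ _

theorem grn_inj_of_le (V : Submodule K A) [Module.Finite K V] (m : A)
    (h : finrank K V ≤ finrank K (V.map (LinearMap.mulLeft K m))) :
    ∀ n ∈ V, m * n = 0 → n = 0 := by
  intro n hn hmn
  have h1 := LinearMap.finrank_range_add_finrank_ker ((LinearMap.mulLeft K m).domRestrict V)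
  rw [LinearMap.range_domRestrict] at h1
  have h2 : finrank K (LinearMap.ker ((LinearMap.mulLeft K m).domRestrict V)) = 0 := by omega
  rw [Submodule.finrank_eq_zero] at h2
  have h3 : (⟨n, hn⟩ : V) ∈ LinearMap.ker ((LinearMap.mulLeft K m).domRestrict V) := by
    rw [LinearMap.mem_ker]
    exact hmn
  rw [h2, Submodule.mem_bot] at h3
  exact congrArg Subtype.val h3

theorem grn_map_eq_of_inj (V : Submodule K A) [Module.Finite K V] (m : A)
    (h : ∀ n ∈ V, m * n = 0 → n = 0) :
    finrank K (V.map (LinearMap.mulLeft K m)) = finrank K V := by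
  have h1 := LinearMap.finrank_range_add_finrank_ker ((LinearMap.mulLeft K m).domRestrict V)
  rw [LinearMap.range_domRestrict] at h1
  have h2 : LinearMap.ker ((LinearMap.mulLeft K m).domRestrict V) = ⊥ := by
    rw [LinearMap.ker_eq_bot']
    rintro ⟨n, hn⟩ hmn
    exact Subtype.ext (h n hn hmn)
  rw [h2, finrank_bot] at h1
  omega

theorem grn_struct (V : ℕ → Submodule K A) (m m' v0 : A)
    (hV0 : V 0 = Submodule.span K {v0})
    (hV : ∀ i, V (i+1) = (V i).map (LinearMap.mulLeft K m) ⊔ (V i).map (LinearMap.mulLeft K m'))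
    (i : ℕ) : V (i+1) = (V i).map (LinearMap.mulLeft K m) ⊔
      Submodule.span K {m' ^ (i+1) * v0} := by
  induction i with
  | zero =>
    rw [hV, hV0, Submodule.map_span, Submodule.map_span]
    simp
  | succ i ih =>
    apply le_antisymm
    · rw [hV (i+1)]
      refine sup_le le_sup_left ?_
      conv_lhs => rw [ih]
      rw [Submodule.map_sup, Submodule.map_span]
      refine sup_le ?_ ?_
      · refine le_trans ?_ le_sup_left
        rintro _ ⟨_, ⟨n, hn, rfl⟩, rfl⟩
        refine ⟨m' * n, ?_, ?_⟩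
        · rw [hV i]
          exact Submodule.mem_sup_right ⟨n, hn, rfl⟩
        · simp only [LinearMap.mulLeft_apply]; ring
      · refine le_trans ?_ le_sup_right
        simp only [Set.image_singleton, LinearMap.mulLeft_apply]
        rw [pow_succ' m' (i+1), mul_assoc]
    · refine sup_le ?_ ?_
      · rw [hV (i+1)]; exact le_sup_left
      · rw [Submodule.span_singleton_le_iff_mem, hV (i+1)]
        refine Submodule.mem_sup_right ⟨m' ^ (i+1) * v0, ?_, ?_⟩
        · rw [ih]; exact Submodule.mem_sup_right (Submodule.mem_span_singleton_self _)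
        · simp only [LinearMap.mulLeft_apply]; ring

theorem grn_le (V : ℕ → Submodule K A) (hfin : ∀ i, Module.Finite K (V i)) (m m' v0 : A)
    (hV0 : V 0 = Submodule.span K {v0})
    (hV : ∀ i, V (i+1) = (V i).map (LinearMap.mulLeft K m) ⊔ (V i).map (LinearMap.mulLeft K m'))
    (i : ℕ) : finrank K (V (i+1)) ≤ finrank K ((V i).map (LinearMap.mulLeft K m)) + 1 := by
  have := hfin i
  rw [grn_struct V m m' v0 hV0 hV i]
  refine (Submodule.finrank_add_le_finrank_add_finrank _ _).trans ?_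
  gcongr
  exact (finrank_span_le_card _).trans (by simp)

theorem grn_step (V : ℕ → Submodule K A) (hfin : ∀ i, Module.Finite K (V i)) (m m' v0 : A)
    (hV0 : V 0 = Submodule.span K {v0})
    (hV : ∀ i, V (i+1) = (V i).map (LinearMap.mulLeft K m) ⊔ (V i).map (LinearMap.mulLeft K m'))
    (p : ℕ) (hsoc : ∀ n ∈ V p, m * n = 0 → m' * n = 0 → n = 0)
    (h : finrank K (V (p+1)) + 1 ≤ finrank K (V (p+2))) :
    finrank K (V p) + 1 ≤ finrank K (V (p+1)) := by
  have := hfin p
  have := hfin (p+1)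
  have := hfin (p+2)
  have h1 : finrank K (V (p+2)) ≤ finrank K ((V (p+1)).map (LinearMap.mulLeft K m)) + 1 :=
    grn_le V hfin m m' v0 hV0 hV (p+1)
  have hinj := grn_inj_of_le (V (p+1)) m (by omega)
  have hnot : m' ^ (p+2) * v0 ∉ (V (p+1)).map (LinearMap.mulLeft K m) := by
    intro hmem
    have h2 := grn_struct V m m' v0 hV0 hV (p+1)
    rw [sup_eq_left.mpr (by rwa [Submodule.span_singleton_le_iff_mem])] at h2
    have h3 := grn_map_le (V (p+1)) m
    rw [← h2] at h3
    have : p + 1 + 1 = p + 2 := rfl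
    rw [this] at h3
    omega
  have hmV : ∀ n ∈ V p, m' * n ∈ V (p+1) := by
    intro n hn
    rw [hV p]
    exact Submodule.mem_sup_right ⟨n, hn, rfl⟩
  have hnot2 : m' ^ (p+1) * v0 ∉ (V p).map (LinearMap.mulLeft K m) := by
    rintro ⟨n, hn, hn2⟩
    apply hnot
    refine ⟨m' * n, hmV n hn, ?_⟩
    simp only [LinearMap.mulLeft_apply] at hn2 ⊢
    rw [show m * (m' * n) = m' * (m * n) by ring, hn2]
    ring
  have hinj2 : ∀ n ∈ V p, m * n = 0 → n = 0 := by
    intro n hn hmn
    refine hsoc n hn hmn (hinj _ (hmV n hn) ?_)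
    rw [show m * (m' * n) = m' * (m * n) by ring, hmn, mul_zero]
  rw [← grn_map_eq_of_inj (V p) m hinj2, Nat.add_one_le_iff]
  apply Submodule.finrank_lt_finrank_of_lt
  rw [hV p]
  refine lt_of_le_of_ne le_sup_left ?_
  intro heq
  apply hnot2
  rw [heq, ← hV p, grn_struct V m m' v0 hV0 hV p]
  exact Submodule.mem_sup_right (Submodule.mem_span_singleton_self _)


theorem grn_mem_cyc {x : Fin 3 → A} {v0 : A} {k : ℕ} {n : A} :
    n ∈ cyc (K := K) x v0 k ↔ ∃ F : S3 K, F.IsHomogeneous k ∧ aeval x F * v0 = n := by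
  constructor
  · rintro ⟨F, hF, rfl⟩; exact ⟨F, hF, rfl⟩
  · rintro ⟨F, hF, rfl⟩; exact ⟨F, hF, rfl⟩

theorem grn_cyc_zero (x : Fin 3 → A) (v0 : A) :
    cyc (K := K) x v0 0 = Submodule.span K {v0} := by
  ext n
  rw [grn_mem_cyc, Submodule.mem_span_singleton]
  constructor
  · rintro ⟨F, hF, rfl⟩
    rw [← totalDegree_zero_iff_isHomogeneous, totalDegree_eq_zero_iff_eq_C] at hF
    refine ⟨coeff 0 F, ?_⟩
    conv_rhs => rw [hF, aeval_C, ← Algebra.smul_def]
  · rintro ⟨r, rfl⟩
    exact ⟨C r, isHomogeneous_C _ r, by rw [aeval_C, Algebra.smul_def]⟩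

/-- a form of degree `k+1` is a combination of the variables with coefficients of degree `k` -/
theorem grn_hom_succ (F : S3 K) (k : ℕ) (hF : F.IsHomogeneous (k+1)) :
    ∃ G : Fin 3 → S3 K, (∀ i, (G i).IsHomogeneous k) ∧ F = ∑ i, X i * G i := by
  obtain ⟨q, hq, h⟩ := klm_split k F hF
  exact ⟨q, hq, by rw [h, Fin.sum_univ_three]⟩

theorem grn_cyc_succ (x : Fin 3 → A) (v0 : A) (k : ℕ) :
    cyc (K := K) x v0 (k+1) = ⨆ i, (cyc (K := K) x v0 k).map (LinearMap.mulLeft K (x i)) := by
  apply le_antisymm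
  · intro n hn
    obtain ⟨F, hF, rfl⟩ := grn_mem_cyc.mp hn
    obtain ⟨G, hG, rfl⟩ := grn_hom_succ F k hF
    rw [map_sum, Finset.sum_mul]
    refine Submodule.sum_mem _ fun i _ => ?_
    refine Submodule.mem_iSup_of_mem i ⟨aeval x (G i) * v0, grn_mem_cyc.mpr ⟨G i, hG i, rfl⟩, ?_⟩
    rw [LinearMap.mulLeft_apply, map_mul, aeval_X]
    ring
  · refine iSup_le fun i => ?_
    rintro _ ⟨n, hn, rfl⟩
    obtain ⟨F, hF, rfl⟩ := grn_mem_cyc.mp hn
    refine grn_mem_cyc.mpr ⟨X i * F, ?_, ?_⟩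
    · rw [add_comm k 1]; exact (isHomogeneous_X K i).mul hF
    · rw [map_mul, aeval_X, LinearMap.mulLeft_apply]
      ring

theorem grn_cyc_fin (x : Fin 3 → A) (v0 : A) (k : ℕ) : Module.Finite K (cyc (K := K) x v0 k) := by
  induction k with
  | zero => rw [grn_cyc_zero]; infer_instance
  | succ k ih => rw [grn_cyc_succ]; infer_instance

theorem grn_dual (x : Fin 3 → A) (v0 : A) (i k : ℕ) (φ : A →ₗ[K] K)
    (hφ : ∀ n ∈ cyc (K := K) x v0 i,
      (∀ G : S3 K, G.IsHomogeneous k → φ (aeval x G * n) = 0) → n = 0) :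
    finrank K (cyc (K := K) x v0 i) ≤ finrank K (cyc (K := K) x v0 k) := by
  have hfi := grn_cyc_fin (K := K) x v0 i
  have hfk := grn_cyc_fin (K := K) x v0 k
  -- linear section
  let f : homogeneousSubmodule (Fin 3) K i →ₗ[K] cyc (K := K) x v0 i :=
    (((LinearMap.mulRight K v0).comp (aeval x : S3 K →ₐ[K] A).toLinearMap).domRestrict
      (homogeneousSubmodule (Fin 3) K i)).codRestrict _ (fun F => ⟨F.1, F.2, rfl⟩)
  have hf : LinearMap.range f = ⊤ := by
    rw [LinearMap.range_eq_top]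
    rintro ⟨n, F, hF, hFn⟩
    exact ⟨⟨F, hF⟩, Subtype.ext hFn⟩
  obtain ⟨g, hg⟩ := f.exists_rightInverse_of_surjective hf
  have hg' : ∀ n : cyc (K := K) x v0 i, aeval x ((g n : homogeneousSubmodule (Fin 3) K i) : S3 K)
      * v0 = n := by
    intro n
    have := congrArg Subtype.val (LinearMap.congr_fun hg n)
    exact this
  let Θ : cyc (K := K) x v0 i →ₗ[K] Module.Dual K (cyc (K := K) x v0 k) :=
    { toFun := fun n => (φ.comp (LinearMap.mulLeft K
        (aeval x ((g n : homogeneousSubmodule (Fin 3) K i) : S3 K)))).domRestrict _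
      map_add' := fun n n' => by
        ext m
        simp [add_mul]
      map_smul' := fun r n => by
        ext m
        simp }
  have hΘ : Function.Injective Θ := by
    rw [injective_iff_map_eq_zero]
    rintro n hn
    apply Subtype.ext
    refine hφ n.1 n.2 fun G hG => ?_
    have h1 := LinearMap.congr_fun hn ⟨aeval x G * v0, grn_mem_cyc.mpr ⟨G, hG, rfl⟩⟩
    have h2 : φ (aeval x ((g n : homogeneousSubmodule (Fin 3) K i) : S3 K) *
        (aeval x G * v0)) = 0 := h1
    rw [← hg' n]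
    rw [← h2]
    congr 1
    ring
  have h3 := LinearMap.finrank_le_finrank_of_injective hΘ
  rwa [Subspace.dual_finrank_eq] at h3

end GreenAlg



section GreenCI

variable {K : Type*} [Field K]

theorem grn_sum3 {B : Type*} [AddCommMonoid B] (F : Fin 3 → B) (k : Fin 3) :
    ∑ i, F i = F k + F (k+1) + F (k+2) := by
  rw [Fin.sum_univ_three]
  fin_cases k
  · rfl
  · show F 0 + F 1 + F 2 = F 1 + F 2 + F 0
    abel
  · show F 0 + F 1 + F 2 = F 2 + F 0 + F 1
    abel

theorem grn_fin3 (k i : Fin 3) : i = k ∨ i = k + 1 ∨ i = k + 2 := by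
  revert k i; decide

theorem grn_ne1 (k : Fin 3) : k + 1 ≠ k := by revert k; decide
theorem grn_ne2 (k : Fin 3) : k + 2 ≠ k := by revert k; decide
theorem grn_ne3 (k : Fin 3) : k + 1 ≠ k + 2 := by revert k; decide

theorem grn_box_zero {a b c : ℕ} (ha : 1 ≤ a) (hb : 1 ≤ b) (hc : 1 ≤ c) : box a b c 0 = 1 := by
  unfold box
  rw [Finset.card_eq_one]
  refine ⟨(0, 0, 0), ?_⟩
  ext ⟨p, q, r⟩
  simp only [Finset.mem_filter, Finset.mem_product, Finset.mem_range, Finset.mem_singleton,
    Prod.mk.injEq]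
  omega

theorem grn_mul_mem {f g h : S3 K} {j k : ℕ} {n : S3 K ⧸ I3 f g h} (hn : n ∈ gr3 f g h j)
    {G : S3 K} (hG : G.IsHomogeneous k) : aeval (x3 f g h) G * n ∈ gr3 f g h (j + k) := by
  obtain ⟨p, hp, rfl⟩ := mem_gr3.mp hn
  rw [aeval_x3, ← map_mul]
  exact mem_gr3.mpr ⟨G * p, by rw [add_comm]; exact hG.mul hp, rfl⟩

theorem grn_soc [Infinite K] {a b c : ℕ} (ha : 1 ≤ a) (hab : a ≤ b) (hbc : b ≤ c)
    {f g h : S3 K} (H : RegSeq3 a b c f g h) (k j : ℕ) (hjk : j + k + 3 ≤ a + b + c)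
    (n : S3 K ⧸ I3 f g h) (hn : n ∈ gr3 f g h j)
    (h0 : ∀ G : S3 K, G.IsHomogeneous k → aeval (x3 f g h) G * n = 0) : n = 0 := by
  induction k with
  | zero =>
    have := h0 1 (isHomogeneous_one _ _)
    rwa [map_one, one_mul] at this
  | succ k ih =>
    refine ih (by omega) fun G hG => ?_
    refine gr3_soc ha (ha.trans hab) (ha.trans (hab.trans hbc)) H (j + k) (by omega) _
      (grn_mul_mem hn hG) fun i => ?_
    have h1 := h0 (X i * G) (by rw [add_comm k 1]; exact (isHomogeneous_X K i).mul hG)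
    rw [map_mul, aeval_X, mul_assoc] at h1
    exact h1

theorem grn_phi {a b c : ℕ} (ha : 1 ≤ a) (hb : 1 ≤ b) (hc : 1 ≤ c)
    {f g h : S3 K} (H : RegSeq3 a b c f g h) (s : ℕ) (hs : s + 3 = a + b + c) :
    ∃ φ : (S3 K ⧸ I3 f g h) →ₗ[K] K, ∀ n ∈ gr3 f g h s, φ n = 0 → n = 0 := by
  have h1 : finrank K (gr3 f g h s) = finrank K K := by
    rw [gr3_dim H, box_symm a b c s 0 (by omega) ha hb hc, grn_box_zero ha hb hc, finrank_self]
  have := gr3_fin f g h s
  let e : gr3 f g h s ≃ₗ[K] K := LinearEquiv.ofFinrankEq _ _ h1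
  obtain ⟨φ, hφ⟩ := LinearMap.exists_extend (e : gr3 f g h s →ₗ[K] K)
  refine ⟨φ, fun n hn hφn => ?_⟩
  have h2 := LinearMap.congr_fun hφ ⟨n, hn⟩
  have h3 : e ⟨n, hn⟩ = 0 := by
    rw [← hφn]; exact h2.symm
  have h4 := (LinearEquiv.map_eq_zero_iff e).mp h3
  exact congrArg Subtype.val h4

theorem grn_lin_hom (t : Fin 3 → K) : (lin (X : Fin 3 → S3 K) t).IsHomogeneous 1 := by
  unfold lin
  refine IsHomogeneous.sum _ _ _ fun i _ => ?_
  rw [smul_eq_C_mul]
  have := (isHomogeneous_C (Fin 3) (t i)).mul (isHomogeneous_X K i)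
  rwa [zero_add] at this

theorem grn_lin_coeff (t : Fin 3 → K) (k : Fin 3) :
    coeff (Finsupp.single k 1) (lin (X : Fin 3 → S3 K) t) = t k := by
  unfold lin
  rw [coeff_sum, Finset.sum_eq_single k]
  · rw [coeff_smul, coeff_X, if_pos rfl, smul_eq_mul, mul_one]
  · intro i _ hi
    rw [coeff_smul, coeff_X, if_neg, smul_zero]
    intro h
    exact hi (Finsupp.single_left_injective one_ne_zero h)
  · intro h; exact absurd (Finset.mem_univ _) h

theorem grn_lin_ne {t : Fin 3 → K} {k : Fin 3} (hk : t k ≠ 0) :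
    lin (X : Fin 3 → S3 K) t ≠ 0 := by
  intro h
  have := grn_lin_coeff t k
  rw [h, coeff_zero] at this
  exact hk this.symm

theorem grn_lin_prime {t : Fin 3 → K} {k : Fin 3} (hk : t k ≠ 0) :
    Prime (lin (X : Fin 3 → S3 K) t) := by
  have h1 : Irreducible (lin (X : Fin 3 → S3 K) t) := by
    refine irreducible_of_totalDegree_eq_one
      ((grn_lin_hom t).totalDegree (grn_lin_ne hk)) fun x hx => ?_
    have h2 := hx (Finsupp.single k 1)
    rw [grn_lin_coeff] at h2
    exact isUnit_of_dvd_unit h2 (isUnit_iff_ne_zero.mpr hk)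
  exact h1.prime

/-- substitution killing the linear form -/
noncomputable def grnPi (t : Fin 3 → K) (k : Fin 3) : S3 K →ₐ[K] S3 K :=
  aeval fun i => if i = k then -(t k)⁻¹ • (t (k+1) • X (k+1) + t (k+2) • X (k+2)) else X i

theorem grnPi_lin {t : Fin 3 → K} {k : Fin 3} (hk : t k ≠ 0) :
    grnPi t k (lin (X : Fin 3 → S3 K) t) = 0 := by
  unfold lin
  rw [grn_sum3 _ k, map_add, map_add, map_smul, map_smul, map_smul]
  unfold grnPi
  rw [aeval_X, aeval_X, aeval_X, if_pos rfl, if_neg (grn_ne1 k), if_neg (grn_ne2 k)]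
  rw [smul_smul, mul_neg, mul_inv_cancel₀ hk, neg_one_smul, add_assoc, neg_add_cancel]

/-- a form in the two variables other than `X k` -/
noncomputable def grnF (k : Fin 3) (p : ℕ) (c : Fin (p+1) → K) : S3 K :=
  ∑ a : Fin (p+1), c a • ((X (k+1) : S3 K) ^ (a : ℕ) * X (k+2) ^ (p - (a : ℕ)))

theorem grnF_hom (k : Fin 3) (p : ℕ) (c : Fin (p+1) → K) : (grnF k p c).IsHomogeneous p := by
  unfold grnF
  refine IsHomogeneous.sum _ _ _ fun a _ => ?_
  rw [smul_eq_C_mul]
  have h1 := (isHomogeneous_C (Fin 3) (c a)).mul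
    (((isHomogeneous_X K (k+1)).pow (a : ℕ)).mul ((isHomogeneous_X K (k+2)).pow (p - (a:ℕ))))
  have h2 : 0 + (1 * (a:ℕ) + 1 * (p - (a:ℕ))) = p := by omega
  rwa [h2] at h1

theorem grnF_ne (k : Fin 3) (p : ℕ) (c : Fin (p+1) → K) (a : Fin (p+1)) (ha : c a ≠ 0) :
    grnF k p c ≠ 0 := by
  intro h
  have h1 : coeff (Finsupp.single (k+1) (a:ℕ) + Finsupp.single (k+2) (p - (a:ℕ))) (grnF k p c)
      = c a := by
    unfold grnF
    rw [coeff_sum, Finset.sum_eq_single a]
    · rw [coeff_smul, X_pow_eq_monomial, X_pow_eq_monomial, monomial_mul, coeff_monomial,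
        if_pos rfl, mul_one, smul_eq_mul, mul_one]
    · intro b _ hb
      rw [coeff_smul, X_pow_eq_monomial, X_pow_eq_monomial, monomial_mul, coeff_monomial,
        if_neg, smul_zero]
      intro h2
      apply hb
      have h3 := congrArg (fun m : Fin 3 →₀ ℕ => m (k+1)) h2
      simp only [Finsupp.add_apply, Finsupp.single_eq_same] at h3
      rw [Finsupp.single_eq_of_ne (grn_ne3 k), Finsupp.single_eq_of_ne (grn_ne3 k)] at h3
      exact Fin.ext (by omega)
    · intro h; exact absurd (Finset.mem_univ _) h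
  rw [h, coeff_zero] at h1
  exact ha h1.symm

theorem grnPi_F (t : Fin 3 → K) (k : Fin 3) (p : ℕ) (c : Fin (p+1) → K) :
    grnPi t k (grnF k p c) = grnF k p c := by
  unfold grnF grnPi
  rw [map_sum]
  refine Finset.sum_congr rfl fun a _ => ?_
  rw [map_smul, map_mul, map_pow, map_pow, aeval_X, aeval_X, if_neg (grn_ne1 k),
    if_neg (grn_ne2 k)]

theorem grn_not_dvd {t : Fin 3 → K} {k : Fin 3} (hk : t k ≠ 0) (p : ℕ) (c : Fin (p+1) → K)
    (a : Fin (p+1)) (ha : c a ≠ 0) : ¬ lin (X : Fin 3 → S3 K) t ∣ grnF k p c := by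
  rintro ⟨G, hG⟩
  apply grnF_ne k p c a ha
  rw [← grnPi_F t, hG, map_mul, grnPi_lin hk, zero_mul]

theorem grn_regSeq {a b c : ℕ} {f g h : S3 K} (H : RegSeq3 a b c f g h) {t : Fin 3 → K}
    {k : Fin 3} (hk : t k ≠ 0)
    (ht1 : ∀ u v w, lin X t * u = f * v + g * w → ∃ v' w', u = f * v' + g * w')
    (ht2 : ∀ u v, lin X t * u = f * v → ∃ w, u = f * w) :
    RegSeq3 1 a b (lin (X : Fin 3 → S3 K) t) f g where
  hf := grn_lin_hom t
  hg := H.hf
  hh := H.hg
  nf := grn_lin_ne hk
  rg := by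
    intro u v huv
    obtain ⟨w, rfl⟩ := ht2 v u huv.symm
    refine ⟨w, ?_⟩
    have h1 : f * (u - lin X t * w) = 0 := by rw [mul_sub, huv]; ring
    rcases mul_eq_zero.mp h1 with h2 | h2
    · exact absurd h2 H.nf
    · exact sub_eq_zero.mp h2
  rh := by
    intro u v w huvw
    obtain ⟨v', w', hvw⟩ := ht1 v (-w) u (by rw [huvw]; ring)
    have h1 : g * (u - lin X t * w') = f * (lin X t * v' + w) := by
      rw [mul_sub, huvw, hvw]; ring
    obtain ⟨w'', hw⟩ := H.rg _ _ h1
    exact ⟨w', w'', by rw [← hw]; ring⟩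

theorem grn_first [Infinite K] {a b c : ℕ} (ha : 1 ≤ a) (hab : a ≤ b) (hbc : b ≤ c)
    {f g h : S3 K} (H : RegSeq3 a b c f g h) (t : Fin 3 → K) (k : Fin 3) (hk : t k ≠ 0)
    (ht1 : ∀ u v w, lin X t * u = f * v + g * w → ∃ v' w', u = f * v' + g * w')
    (ht2 : ∀ u v, lin X t * u = f * v → ∃ w, u = f * w)
    (j σ p : ℕ) (hσ : j + σ + 3 = a + b + c) (hp : p + b < σ + 2)
    (v0 : S3 K ⧸ I3 f g h) (hv0 : v0 ∈ gr3 f g h j) (hne : v0 ≠ 0)
    (hl : lin (x3 f g h) t * v0 = 0) :
    p + 1 ≤ finrank K (cyc (K := K) (x3 f g h) v0 p) := by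
  by_contra hcon
  push Not at hcon
  have hfin := grn_cyc_fin (K := K) (x3 f g h) v0 p
  let w : Fin (p+1) → cyc (K := K) (x3 f g h) v0 p := fun a =>
    ⟨aeval (x3 f g h) ((X (k+1) : S3 K) ^ (a : ℕ) * X (k+2) ^ (p - (a : ℕ))) * v0,
      grn_mem_cyc.mpr ⟨_, by
        have h1 := ((isHomogeneous_X K (k+1)).pow (a : ℕ)).mul
          ((isHomogeneous_X K (k+2)).pow (p - (a:ℕ)))
        have h2 : (1 * (a:ℕ) + 1 * (p - (a:ℕ))) = p := by omega
        rwa [h2] at h1, rfl⟩⟩
  have hw : ¬ LinearIndependent K w := by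
    intro hli
    have := hli.fintype_card_le_finrank
    rw [Fintype.card_fin] at this
    omega
  rw [Fintype.not_linearIndependent_iff] at hw
  obtain ⟨cc, hcc, a0, ha0⟩ := hw
  have hFv : aeval (x3 f g h) (grnF k p cc) * v0 = 0 := by
    have h1 := congrArg Subtype.val hcc
    rw [AddSubmonoidClass.coe_finsetSum] at h1
    unfold grnF
    rw [map_sum, Finset.sum_mul]
    refine Eq.trans ?_ h1
    refine Finset.sum_congr rfl fun a _ => ?_
    rw [map_smul, smul_mul_assoc]
    rfl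
  have hnd := grn_not_dvd hk p cc a0 ha0
  set l : S3 K := lin (X : Fin 3 → S3 K) t with hldef
  have hlp : Prime l := grn_lin_prime hk
  have hFG : ∀ u v, grnF k p cc * u = l * v → ∃ w, u = l * w := by
    intro u v huv
    rcases hlp.dvd_or_dvd (Dvd.intro v huv.symm) with h1 | h1
    · exact absurd h1 hnd
    · exact h1
  have HR := grn_regSeq H hk ht1 ht2
  obtain ⟨N, hN⟩ := RegSeq3.pow_mem ha hab HR
  obtain ⟨q, hqW, hq1, hq2⟩ := exists_nzd_of_span (grn_lin_ne hk) hFG _ N hN
  have HR2 : RegSeq3 1 p b l (grnF k p cc) q :=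
    { hf := grn_lin_hom t
      hg := grnF_hom k p cc
      hh := hqW.2
      nf := grn_lin_ne hk
      rg := hFG
      rh := hq1 }
  have hlv : Ideal.Quotient.mk (I3 f g h) l * v0 = 0 := by
    rw [← hl, ← aeval_x3, hldef]
    congr 1
    unfold lin
    rw [map_sum]
    refine Finset.sum_congr rfl fun i _ => ?_
    rw [map_smul, aeval_X]
  have hf0 : Ideal.Quotient.mk (I3 f g h) f = 0 :=
    Ideal.Quotient.eq_zero_iff_mem.mpr (mem_I3.mpr ⟨1, 0, 0, by ring⟩)
  have hg0 : Ideal.Quotient.mk (I3 f g h) g = 0 :=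
    Ideal.Quotient.eq_zero_iff_mem.mpr (mem_I3.mpr ⟨0, 1, 0, by ring⟩)
  have hqv : Ideal.Quotient.mk (I3 f g h) q * v0 = 0 := by
    obtain ⟨u1, u2, u3, hu⟩ := mem_I3.mp (show q ∈ I3 l f g from hqW.1)
    rw [hu, map_add, map_add, map_mul, map_mul, map_mul, hf0, hg0, zero_mul, zero_mul, add_zero,
      add_zero, mul_comm (Ideal.Quotient.mk (I3 f g h) l), mul_assoc, hlv, mul_zero]
  apply hne
  refine grn_soc ha hab hbc H σ j (by omega) v0 hv0 fun G hG => ?_
  obtain ⟨u1, u2, u3, hu⟩ := mem_I3.mp (HR2.mem_of_large hG (by omega))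
  rw [aeval_x3] at hFv ⊢
  rw [hu, map_add, map_add, map_mul, map_mul, map_mul, add_mul, add_mul,
    mul_comm (Ideal.Quotient.mk (I3 f g h) l), mul_assoc, hlv,
    mul_comm (Ideal.Quotient.mk (I3 f g h) (grnF k p cc)), mul_assoc _ _ v0, hFv,
    mul_comm (Ideal.Quotient.mk (I3 f g h) q), mul_assoc _ _ v0, hqv]
  simp

end GreenCI

variable {K : Type*} [Field K]

/-- lower bound for the cyclic module generated by an element killed by a linear form -/
theorem cyc_bound [Infinite K] {a b c : ℕ} (ha : 1 ≤ a) (hab : a ≤ b) (hbc : b ≤ c)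
    {f g h : S3 K} (H : RegSeq3 a b c f g h) (t : Fin 3 → K)
    (ht1 : ∀ u v w, lin X t * u = f * v + g * w → ∃ v' w', u = f * v' + g * w')
    (ht2 : ∀ u v, lin X t * u = f * v → ∃ w, u = f * w)
    (j σ : ℕ) (hj1 : c ≤ j) (hj2 : j + 2 ≤ a + b) (hσ : j + σ + 3 = a + b + c)
    (v0 : S3 K ⧸ I3 f g h) (hv0 : v0 ∈ gr3 f g h j) (hne : v0 ≠ 0)
    (hl : lin (x3 f g h) t * v0 = 0) :
    b * (a + c - 1 - j) ≤ ∑ k ∈ Finset.range (σ + 1), finrank K (cyc (K := K) (x3 f g h) v0 k) := by
  -- `t ≠ 0`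
  obtain ⟨k, hk⟩ : ∃ k, t k ≠ 0 := by
    by_contra hno
    push Not at hno
    have h0 : lin (X : Fin 3 → S3 K) t = 0 := by
      unfold lin
      simp [hno]
    obtain ⟨w, hw⟩ := ht2 1 0 (by rw [h0]; ring)
    have hfu : IsUnit f := IsUnit.of_mul_eq_one w hw.symm
    have h1 : f.totalDegree = a := H.hf.totalDegree H.nf
    have h2 := MvPolynomial.isUnit_iff_totalDegree_of_isReduced.mp hfu
    omega
  have hfin := grn_cyc_fin (K := K) (x3 f g h) v0
  have hx : ∀ n : S3 K ⧸ I3 f g h, lin (x3 f g h) t * n = 0 →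
      x3 f g h k * n = -(t k)⁻¹ • (t (k+1) • (x3 f g h (k+1) * n)
        + t (k+2) • (x3 f g h (k+2) * n)) := by
    intro n hn
    unfold lin at hn
    rw [grn_sum3 _ k, add_mul, add_mul, smul_mul_assoc, smul_mul_assoc, smul_mul_assoc,
      add_assoc] at hn
    have h1 := eq_neg_of_add_eq_zero_left hn
    have h2 : (t k)⁻¹ • (t k • (x3 f g h k * n)) = x3 f g h k * n := by
      rw [smul_smul, inv_mul_cancel₀ hk, one_smul]
    rw [← h2, h1, smul_neg, neg_smul]
  have hlcyc : ∀ i, ∀ n ∈ cyc (K := K) (x3 f g h) v0 i, lin (x3 f g h) t * n = 0 := by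
    intro i n hn
    obtain ⟨F, hF, rfl⟩ := grn_mem_cyc.mp hn
    rw [mul_comm (aeval (x3 f g h) F) v0, ← mul_assoc, hl, zero_mul]
  have hV : ∀ i, cyc (K := K) (x3 f g h) v0 (i+1) =
      (cyc (K := K) (x3 f g h) v0 i).map (LinearMap.mulLeft K (x3 f g h (k+1))) ⊔
      (cyc (K := K) (x3 f g h) v0 i).map (LinearMap.mulLeft K (x3 f g h (k+2))) := by
    intro i
    rw [grn_cyc_succ]
    apply le_antisymm
    · refine iSup_le fun i' => ?_
      rcases grn_fin3 k i' with rfl | rfl | rfl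
      · rintro _ ⟨n, hn, rfl⟩
        rw [LinearMap.mulLeft_apply, hx n (hlcyc i n hn)]
        refine Submodule.smul_mem _ _ (Submodule.add_mem _ ?_ ?_)
        · exact Submodule.smul_mem _ _ (Submodule.mem_sup_left ⟨n, hn, rfl⟩)
        · exact Submodule.smul_mem _ _ (Submodule.mem_sup_right ⟨n, hn, rfl⟩)
      · exact le_sup_left
      · exact le_sup_right
    · exact sup_le (le_iSup (fun i' => (cyc (K := K) (x3 f g h) v0 i).map
        (LinearMap.mulLeft K (x3 f g h i'))) (k+1))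
        (le_iSup (fun i' => (cyc (K := K) (x3 f g h) v0 i).map
        (LinearMap.mulLeft K (x3 f g h i'))) (k+2))
  have hmem : ∀ i, ∀ n ∈ cyc (K := K) (x3 f g h) v0 i, n ∈ gr3 f g h (j + i) := by
    intro i n hn
    obtain ⟨F, hF, rfl⟩ := grn_mem_cyc.mp hn
    exact grn_mul_mem hv0 hF
  obtain ⟨φ, hφ⟩ := grn_phi ha (ha.trans hab) (ha.trans (hab.trans hbc)) H (j + σ) hσ
  have hle : ∀ i ≤ σ, finrank K (cyc (K := K) (x3 f g h) v0 i) ≤
      finrank K (cyc (K := K) (x3 f g h) v0 (σ - i)) := by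
    intro i hi
    refine grn_dual (x3 f g h) v0 i (σ - i) φ fun n hn h0 => ?_
    refine grn_soc ha hab hbc H (σ - i) (j + i) (by omega) n (hmem i n hn) fun G hG => ?_
    refine hφ _ ?_ (h0 G hG)
    have := grn_mul_mem (hmem i n hn) hG
    rwa [show j + i + (σ - i) = j + σ by omega] at this
  set D : ℕ → ℕ := fun i => finrank K (cyc (K := K) (x3 f g h) v0 i) with hD
  have hD0 : D 0 = 1 := by
    simp only [hD]
    rw [grn_cyc_zero, finrank_span_singleton hne]
  set u := a + c - 1 - j with hu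
  rw [mul_comm b u, mul_comm u b]
  refine grn_count D σ u b (by omega) ?_
  refine grn_seq D σ u (by omega) (by omega) ?_ ?_ (by omega) ?_ ?_
  · intro i
    refine (grn_le _ hfin _ _ v0 (grn_cyc_zero _ _) hV i).trans ?_
    have := grn_map_le (cyc (K := K) (x3 f g h) v0 i) (x3 f g h (k+1))
    simp only [hD]; omega
  · intro i hi hiσ hstep
    obtain ⟨p, rfl⟩ : ∃ p, i = p + 1 := ⟨i - 1, by omega⟩
    rw [Nat.add_sub_cancel]
    refine grn_step _ hfin _ _ v0 (grn_cyc_zero _ _) hV p ?_ hstep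
    intro n hn h1 h2
    refine gr3_soc ha (ha.trans hab) (ha.trans (hab.trans hbc)) H (j + p) (by omega) n
      (hmem p n hn) fun i' => ?_
    rcases grn_fin3 k i' with rfl | rfl | rfl
    · rw [hx n (hlcyc p n hn), h1, h2]; simp
    · exact h1
    · exact h2
  · intro i hi
    refine le_antisymm (hle i hi) ?_
    have := hle (σ - i) (by omega)
    rwa [show σ - (σ - i) = i by omega] at this
  · have := grn_first ha hab hbc H t k hk ht1 ht2 j σ (u - 1) hσ (by omega) v0 hv0 hne hl
    simp only [hD]; omega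

/-- Green type bound; only here the characteristic matters -/
theorem RegSeq3.green [Infinite K] {a b c : ℕ} (ha : 1 ≤ a) (hab : a ≤ b) (hbc : b ≤ c)
    (hchar : ∀ n : ℕ, 0 < n → n + 3 ≤ a + b → (n : K) ≠ 0)
    {f g h : S3 K} (H : RegSeq3 a b c f g h) : Green (x3 f g h) (gr3 f g h) a b c := by
  intro j hj1 hj2 X hX ht
  obtain ⟨σ, hσ⟩ : ∃ σ, j + σ + 3 = a + b + c := ⟨a + b + c - 3 - j, by omega⟩
  have hXfin : Module.Finite K X := by
    have := gr3_fin f g h j
    exact Submodule.finiteDimensional_of_le hX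
  obtain ⟨P, hP0, hP⟩ := green_deriv (K := K) (x3 f g h) X σ (fun n hn hn2 => hchar n hn (by omega))
  obtain ⟨Q, hQ0, hQ⟩ := exists_poly_nzd H.nf H.rg
  obtain ⟨t, htPQ⟩ : ∃ t : Fin 3 → K, eval t (P * Q) ≠ 0 := by
    by_contra hno
    push Not at hno
    exact mul_ne_zero hP0 hQ0 (MvPolynomial.funext fun t => by rw [hno t, map_zero])
  rw [map_mul] at htPQ
  obtain ⟨ht1, ht2⟩ := hQ t (right_ne_zero_of_mul htPQ)
  obtain ⟨v0, hv0X, hv0, hlv0⟩ := ht t
  have h1 := green_sum (K := K) (x3 f g h) X σ (lin (x3 f g h) t)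
    (hP t (left_ne_zero_of_mul htPQ)) v0 hv0X hlv0
  exact (cyc_bound ha hab hbc H t ht1 ht2 j σ hj1 hj2 hσ v0 (hX hv0X) hv0 hlv0).trans h1

end Vale.Agent.P200
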