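import Vale.Agent.P200.CIBasic
import Vale.Agent.P200.CIDim
import Vale.Agent.P200.CISoc
import Vale.Agent.P200.CIAnn
import Vale.Agent.P200.Green

namespace Vale.Agent.P200

open MvPolynomial Module

variable {K : Type*} [Field K]

theorem RegSeq3.isCI0 [Infinite K] {a b c : ℕ} (ha : 1 ≤ a) (hab : a ≤ b) (hbc : b ≤ c)
    {f g h : S3 K} (H : RegSeq3 a b c f g h) : IsCI0 (x3 f g h) (gr3 f g h) a b c where
  fin := gr3_fin f g h
  gen := gr3_gen f g h
  gr0 := gr3_zero f g h
  dim := gr3_dim H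
  soc := fun j hj u hu h0 => gr3_soc ha (ha.trans hab) (ha.trans (hab.trans hbc)) H j hj u hu h0
  pts := gr3_pts ha hab hbc H
  ann := fun k F hF hF0 e he V hV hFV => gr3_ann ha hab hbc H k F hF hF0 e he V hV hFV
  nzd := gr3_nzd ha (ha.trans hab) (ha.trans (hab.trans hbc)) H

end Vale.Agent.P200
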