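import Vale.Agent.P200.Growth
import Vale.Agent.P200.CF.Pencil
import Vale.Agent.P200.CF.Zero
import Vale.Agent.P200.CF.Tors

namespace Vale.Agent.P200

open MvPolynomial Module
open Vale.Agent.P200.CF

variable {K A : Type*} [Field K] [CommRing A] [Algebra K A] {x : Fin 3 → A}
  {gr : ℕ → Submodule K A} {a b c : ℕ}

theorem IsCI0.chg_mul (H : IsCI0 x gr a b c) (M : Matrix (Fin 3) (Fin 3) K) :
    ∀ j i, ∀ u ∈ gr j, chg M x i * u ∈ gr (j+1) := fun j i u hu =>
  chg_mul_mem M x (fun i v hv => H.mul_mem' j i v hv) i u hu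

theorem IsCI0.chg_soc (H : IsCI0 x gr a b c) {M N : Matrix (Fin 3) (Fin 3) K} (h : N * M = 1) :
    ∀ j < a + b + c - 3, ∀ u ∈ gr j, (∀ i, chg M x i * u = 0) → u = 0 := by
  intro j hj u hu h0
  refine H.soc j (by omega) u hu fun i => ?_
  have h1 : chg N (chg M x) i * u = 0 := by
    rw [chg, Finset.sum_mul]
    exact Finset.sum_eq_zero fun j _ => by rw [smul_mul_assoc, h0 j, smul_zero]
  rwa [chg_chg, h, chg_one] at h1

theorem IsCI0.chg_pts (H : IsCI0 x gr a b c) {M N : Matrix (Fin 3) (Fin 3) K} (h : N * M = 1) :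
    ∀ T : Finset (Fin 3 → K), (∀ p ∈ T, p ≠ 0) →
      ∃ G : S3 K, G.IsHomogeneous c ∧ aeval (chg M x) G = 0 ∧ ∀ p ∈ T, eval p G ≠ 0 := by
  classical
  have h' : M * N = 1 := mul_eq_one_comm.1 h
  intro T hT
  obtain ⟨G, hG, hG0, hGT⟩ := H.pts (T.image fun p => N.mulVec p) (by
    intro p hp hp0
    obtain ⟨p', hp', rfl⟩ := Finset.mem_image.1 hp
    apply hT p' hp'
    have := congrArg (fun q => M.mulVec q) hp0
    simpa [Matrix.mulVec_mulVec, h'] using this)
  refine ⟨aeval (chg N (X : Fin 3 → S3 K)) G, chg_hom _ hG, ?_, ?_⟩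
  · rw [← aeval_chg, chg_chg, h, chg_one, hG0]
  · intro p hp
    rw [eval_chg]
    exact hGT _ (Finset.mem_image_of_mem _ hp)

theorem finrank_map_add_ker {K M N : Type*} [Field K] [AddCommGroup M]
    [Module K M] [AddCommGroup N] [Module K N] (φ : M →ₗ[K] N) (W : Submodule K M)
    [Module.Finite K W] :
    finrank K (W.map φ) + finrank K (↥(W ⊓ LinearMap.ker φ)) = finrank K W := by
  have h1 := LinearMap.finrank_range_add_finrank_ker (φ.domRestrict W)
  rw [LinearMap.range_domRestrict] at h1
  have h2 : finrank K (LinearMap.ker (φ.domRestrict W)) =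
      finrank K (↥(W ⊓ LinearMap.ker φ)) := by
    have e : (LinearMap.ker (φ.domRestrict W)).map W.subtype = W ⊓ LinearMap.ker φ := by
      ext p
      constructor
      · rintro ⟨q, hq, rfl⟩
        exact ⟨q.2, hq⟩
      · intro hp
        exact ⟨⟨p, hp.1⟩, hp.2, rfl⟩
    rw [← e]
    exact (LinearEquiv.finrank_eq (Submodule.equivMapOfInjective _ W.injective_subtype _))
  rw [h2] at h1
  exact h1

/-- (F1) -/
theorem Bad.f1 (hab : a ≤ b) (hbc : b ≤ c) {e d : ℕ} {V : Submodule K A}
    (H : IsCI0 x gr a b c) (hB : Bad x gr a b c e d V)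
    (hmax : ∀ e' d' V', d < d' → ¬ Bad x gr a b c e' d' V') {V1 : Submodule K A}
    (hV1 : V1 ≤ V) (hne : V1 ≠ ⊥)
    (hD : finrank K (sh x V1) + d < finrank K V1 + (a + b - 2 - e)) :
    ∃ k1, 1 ≤ k1 ∧ finrank K (sh x V1) = finrank K V1 + k1 ∧
      finrank K V1 ≤ k1 * (e + 2 - a) + k1.choose 2 := by
  obtain ⟨hV, he1, he2, hd, hw, notI, notII⟩ := hB
  haveI := H.fin_of_le hV
  haveI := H.fin_of_le (hV1.trans hV)
  have hle : finrank K V1 ≤ finrank K V := Submodule.finrank_mono hV1
  have hpos : 0 < finrank K V1 := by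
    rw [Module.finrank_pos_iff]
    exact Submodule.nontrivial_iff_ne_bot.2 hne
  by_contra hcon
  push Not at hcon
  refine hmax e (finrank K V1 + (a + b - 2 - e) - finrank K (sh x V1)) V1 (by omega)
    ⟨hV1.trans hV, he1, he2, by omega, by omega, ?_, ?_⟩
  · intro k' hk'
    rcases Nat.eq_zero_or_pos k' with h0 | h0
    · subst h0
      simpa using hpos
    · exact hcon k' h0 (by omega)
  · intro hd'
    have h4 := notII (by omega)
    have h5 := quad_mono (b := b)
      (show d ≤ finrank K V1 + (a + b - 2 - e) - finrank K (sh x V1) by omega) (by omega)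
    rw [mul_add] at h4 ⊢
    omega

/-- the growth statement in degree `a + b - 2` -/
def HEnd (x : Fin 3 → A) (gr : ℕ → Submodule K A) (a b c : ℕ) : Prop :=
  ∀ V : Submodule K A, V ≤ gr (a + b - 2) → ∀ d, 1 ≤ d →
    finrank K (sh x V) + d = finrank K V →
    d ≤ a + b - c ∧ b * (c - b + d) ≤ finrank K V + d.choose 2

/-- (F2) -/
theorem Bad.f2 (hab : a ≤ b) (hbc : b ≤ c) {e d : ℕ} {V : Submodule K A}
    (H : IsCI0 x gr a b c) (hEnd : HEnd x gr a b c) (hB : Bad x gr a b c e d V)
    (hmax : ∀ e' d' V', d < d' → ¬ Bad x gr a b c e' d' V') :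
    2 * finrank K (sh x V) ≤ finrank K (sh x (sh x V)) + finrank K V + 1 := by
  obtain ⟨hV, he1, he2, hd, hw, notI, notII⟩ := hB
  by_contra h1
  rcases Nat.lt_or_ge (e + 3) (a + b) with he3 | he3
  · refine hmax (e+1) (finrank K (sh x V) + (a + b - 3 - e) - finrank K (sh x (sh x V)))
      (sh x V) (by omega) ⟨H.sh_le_gr hV, by omega, by omega,
      by omega, by omega, ?_, ?_⟩
    · intro k'' hk''
      by_contra hcon
      have h0 := notI (a + b - 2 - e - d) (by omega)
      have h5 : k'' * (e + 1 + 2 - a) = k'' * (e + 2 - a) + k'' := by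
        rw [show e + 1 + 2 - a = e + 2 - a + 1 by omega]; ring
      have h6 := LL_mono (r := e + 2 - a) (show k'' ≤ a + b - 2 - e - d by omega)
      omega
    · intro hd'
      have h4 := notII (by omega)
      have h5 := quad_mono (b := b) (show d + 1 ≤
        finrank K (sh x V) + (a + b - 3 - e) - finrank K (sh x (sh x V)) by omega) (by omega)
      have h6 : (a + b - 1 - e).choose 2 = (a + b - 1 - (e+1)).choose 2 + (a + b - 2 - e) := by
        rw [show a + b - 1 - e = (a + b - 2 - e) + 1 by omega, choose2_succ,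
          show a + b - 1 - (e+1) = a + b - 2 - e by omega]
      rw [choose2_succ] at h5
      have h7 : b * (a + c - 2 - e + d) = b * (a + c - 2 - (e+1)) + b * (d+1) := by
        rw [← mul_add]; congr 1; omega
      rw [mul_add b (a + c - 2 - (e + 1))]
      rw [h7, h6] at h4
      omega
  · have hE := hEnd (sh x V) (by
      have := H.sh_le_gr hV
      rwa [show e + 1 = a + b - 2 by omega] at this)
      (finrank K (sh x V) - finrank K (sh x (sh x V))) (by omega) (by omega)
    have h4 := notII (by omega)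
    have h5 := quad_mono (b := b) (show d + 1 ≤
        finrank K (sh x V) - finrank K (sh x (sh x V)) by omega) (by omega)
    have h6 : (a + b - 1 - e).choose 2 = 1 := by
      rw [show a + b - 1 - e = 2 by omega]; rfl
    rw [choose2_succ] at h5
    have h7 : b * (a + c - 2 - e + d) = b * (c - b) + b * (d+1) := by
      rw [← mul_add]; congr 1; omega
    have h8 := hE.2
    rw [mul_add] at h8
    rw [h7, h6] at h4
    omega

theorem sh_bot' : sh x (⊥ : Submodule K A) = ⊥ := by
  rw [eq_bot_iff]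
  refine sh_le fun i v hv => ?_
  rw [Submodule.mem_bot] at hv
  rw [hv, mul_zero]
  exact Submodule.zero_mem _

/-- (P): the shadow is generated by a pencil -/
theorem Bad.pencil [Infinite K] (hab : a ≤ b) (hbc : b ≤ c) {e d : ℕ} {V : Submodule K A}
    (H : IsCI0 x gr a b c) (hB : Bad x gr a b c e d V)
    (hmax : ∀ e' d' V', d < d' → ¬ Bad x gr a b c e' d' V') :
    ∃ M N : Matrix (Fin 3) (Fin 3) K, N * M = 1 ∧
      V.map (LinearMap.mulLeft K (chg M x 0)) ⊔ V.map (LinearMap.mulLeft K (chg M x 1)) =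
        sh (chg M x) V := by
  have f1 := fun V1 h1 h2 h3 => hB.f1 hab hbc H hmax (V1 := V1) h1 h2 h3
  obtain ⟨hV, he1, he2, hd, hw, notI, notII⟩ := hB
  haveI := H.fin_of_le hV
  haveI := H.fin_of_le (H.sh_le_gr hV)
  by_cases hex : ∃ t : K, V.map (LinearMap.mulLeft K (x 0)) ⊔
      V.map (LinearMap.mulLeft K (x 1 + t • x 2)) = sh x V
  · obtain ⟨t, ht⟩ := hex
    let M2 : Matrix (Fin 3) (Fin 3) K := !![1, 0, 0; 0, 1, t; 0, 0, 1]
    let N2 : Matrix (Fin 3) (Fin 3) K := !![1, 0, 0; 0, 1, -t; 0, 0, 1]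
    have hN2M2 : N2 * M2 = 1 := by
      ext i j
      fin_cases i <;> fin_cases j <;> simp [N2, M2, Matrix.mul_apply, Fin.sum_univ_three]
    refine ⟨M2, N2, hN2M2, ?_⟩
    have hz0 : chg M2 x 0 = x 0 := by simp [chg, M2, Fin.sum_univ_three]
    have hz1 : chg M2 x 1 = x 1 + t • x 2 := by simp [chg, M2, Fin.sum_univ_three]
    rw [hz0, hz1, ht, sh_chg hN2M2]
  exfalso
  push Not at hex
  obtain ⟨V1, hV1, h1, h2⟩ := cf_pencil x V ((finrank K (sh x V) : ℤ) - finrank K V) (by ring)
    hex
  set z := finrank K (kerOn (x 0) V) with hz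
  have hw' : (finrank K (sh x V) : ℤ) + d = finrank K V + ((a + b - 2 - e : ℕ) : ℤ) := by
    exact_mod_cast hw
  have hzle : z ≤ finrank K V := Submodule.finrank_mono inf_le_left
  have hne : V1 ≠ ⊥ := by
    rintro rfl
    rw [finrank_bot] at h1
    rw [sh_bot', finrank_bot] at h2
    -- `1 ≤ k`
    have hzb : z ≤ 1 * (e + 2 - a) + (1 : ℕ).choose 2 := by
      refine H.ann 1 (X 0) (isHomogeneous_X K 0) (X_ne_zero 0) e (by omega) _
        (inf_le_left.trans hV) ?_
      intro v hv
      rw [aeval_X]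
      exact hv.2
    have hzb' : z ≤ e + 2 - a := by simpa using hzb
    have h3 := notI (a + b - 2 - e - d) (by omega)
    obtain ⟨k, hk⟩ : ∃ k, a + b - 2 - e - d = k + 1 := ⟨a + b - 2 - e - d - 1, by omega⟩
    rw [hk] at h3
    have h5 : (k + 1) * (e + 2 - a) = k * (e + 2 - a) + (e + 2 - a) := by ring
    have h6 : k ≤ k * (e + 2 - a) := Nat.le_mul_of_pos_right k (by omega)
    omega
  obtain ⟨k1, hk1, hk2, hk3⟩ := f1 V1 hV1 hne (by omega)
  have hzb : z ≤ 1 * (e + 2 - a) + (1 : ℕ).choose 2 := by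
    refine H.ann 1 (X 0) (isHomogeneous_X K 0) (X_ne_zero 0) e (by omega) _
      (inf_le_left.trans hV) ?_
    intro v hv
    rw [aeval_X]
    exact hv.2
  have hzb' : z ≤ e + 2 - a := by simpa using hzb
  obtain ⟨k, hk⟩ : ∃ k, a + b - 2 - e - d = k + 1 := ⟨a + b - 2 - e - d - 1, by omega⟩
  have h3 := notI (a + b - 2 - e - d) (by omega)
  rw [hk, choose2_succ, add_mul, one_mul] at h3
  have h4 := LL_mono (r := e + 2 - a) (show k1 ≤ k by omega)
  omega

theorem sh_kerOn_le (y : Fin 3 → A) (l : A) (V : Submodule K A) :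
    sh y (kerOn l V) ≤ kerOn l (sh y V) := by
  refine sh_le fun i v hv => ⟨mem_sh i hv.1, ?_⟩
  have h0 : l * v = 0 := hv.2
  show l * (y i * v) = 0
  rw [mul_left_comm, h0, mul_zero]

theorem map_sh_mul (y : Fin 3 → A) (l : A) (V : Submodule K A) :
    sh y (V.map (LinearMap.mulLeft K l)) = (sh y V).map (LinearMap.mulLeft K l) := by
  refine le_antisymm (sh_le fun i v hv => ?_) ?_
  · obtain ⟨v, hv, rfl⟩ := hv
    refine ⟨y i * v, mem_sh i hv, ?_⟩
    show l * (y i * v) = y i * (l * v)
    ring
  · rintro _ ⟨u, hu, rfl⟩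
    obtain ⟨v0, h0, v1, h1, v2, h2, rfl⟩ := mem_sh_iff.1 hu
    refine mem_sh_iff.2 ⟨l * v0, ⟨v0, h0, rfl⟩, l * v1, ⟨v1, h1, rfl⟩, l * v2, ⟨v2, h2, rfl⟩, ?_⟩
    show l * _ = _
    ring

/-- the main step: a maximal bad space has strictly decreasing shadows -/
theorem Bad.step [IsAlgClosed K] (hab : a ≤ b) (hbc : b ≤ c) {e d : ℕ} {V : Submodule K A}
    (H : IsCI0 x gr a b c) (hEnd : HEnd x gr a b c) (hB : Bad x gr a b c e d V)
    (hmax : ∀ e' d' V', d < d' → ¬ Bad x gr a b c e' d' V') :
    a + b - 2 - e < d ∧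
      finrank K (sh x (sh x V)) + d + 1 = finrank K (sh x V) + (a + b - 2 - e) := by
  have f1 := fun V1 h1 h2 h3 => hB.f1 hab hbc H hmax (V1 := V1) h1 h2 h3
  have f2 := hB.f2 hab hbc H hEnd hmax
  obtain ⟨M, N, hNM, hgen⟩ := hB.pencil hab hbc H hmax
  obtain ⟨hV, he1, he2, hd, hw, notI, notII⟩ := hB
  haveI := H.fin_of_le hV
  haveI := H.fin_of_le (H.sh_le_gr hV)
  have hshy : ∀ W : Submodule K A, sh (chg M x) W = sh x W := sh_chg hNM x
  set y := chg M x with hy
  have hymul := H.chg_mul M
  have hysoc := H.chg_soc hNM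
  have hypts := H.chg_pts hNM
  -- coordinates with first coordinate `y 0 + t y 1`
  have hMt : ∀ t : K, ∃ M' N' : Matrix (Fin 3) (Fin 3) K, N' * M' = 1 ∧
      chg M' x 0 = y 0 + t • y 1 ∧ chg M' x 1 = y 1 := by
    intro t
    let M3 : Matrix (Fin 3) (Fin 3) K := !![1, t, 0; 0, 1, 0; 0, 0, 1]
    let N3 : Matrix (Fin 3) (Fin 3) K := !![1, -t, 0; 0, 1, 0; 0, 0, 1]
    have hN3M3 : N3 * M3 = 1 := by
      ext i j
      fin_cases i <;> fin_cases j <;> simp [N3, M3, Matrix.mul_apply, Fin.sum_univ_three]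
    refine ⟨M3 * M, N * N3, ?_, ?_, ?_⟩
    · rw [Matrix.mul_assoc, ← Matrix.mul_assoc N3, hN3M3, Matrix.one_mul, hNM]
    · rw [← chg_chg, ← hy]; simp [chg, M3, Fin.sum_univ_three]
    · rw [← chg_chg, ← hy]; simp [chg, M3, Fin.sum_univ_three]
  -- generation is independent of `t`
  have hgent : ∀ t : K, V.map (LinearMap.mulLeft K (y 0 + t • y 1)) ⊔
      V.map (LinearMap.mulLeft K (y 1)) = sh x V := by
    intro t
    rw [← hshy V, ← hgen]
    refine le_antisymm (sup_le ?_ le_sup_right) (sup_le ?_ le_sup_right)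
    · rintro _ ⟨v, hv, rfl⟩
      have : (LinearMap.mulLeft K (y 0 + t • y 1)) v = y 0 * v + y 1 * (t • v) := by
        show (y 0 + t • y 1) * v = _
        rw [add_mul, smul_mul_assoc, mul_smul_comm]
      rw [this]
      exact Submodule.add_mem_sup ⟨v, hv, rfl⟩ ⟨t • v, V.smul_mem t hv, rfl⟩
    · rintro _ ⟨v, hv, rfl⟩
      have : (LinearMap.mulLeft K (y 0)) v = (y 0 + t • y 1) * v + y 1 * (-(t • v)) := by
        show y 0 * v = _
        rw [add_mul, smul_mul_assoc, mul_neg, mul_smul_comm]; abel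
      rw [this]
      exact Submodule.add_mem_sup ⟨v, hv, rfl⟩ ⟨-(t • v), V.neg_mem (V.smul_mem t hv), rfl⟩
  -- the consequence of the torsion lemma
  have hts : (∀ t : K, finrank K (kerOn (y 0 + t • y 1) V) + 1 ≤
      finrank K (kerOn (y 0 + t • y 1) (sh y V))) →
      ∃ t : K, ∃ V1 ≤ V, V1 ≠ ⊥ ∧
        finrank K (sh x V1) + finrank K (kerOn (y 0 + t • y 1) V) ≤ finrank K V1 := by
    intro hz
    obtain ⟨t, V1, hV1, hne, hker, hsh⟩ := cf_ts y V
      ((finrank K (sh y V) : ℤ) - finrank K V) (by ring) hgen (by rw [hshy, hshy]; omega) hz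
    refine ⟨t, V1, hV1, hne, ?_⟩
    haveI := H.fin_of_le (hV1.trans hV)
    have h1 := finrank_map_add_ker (LinearMap.mulLeft K (y 0 + t • y 1)) V1
    have h2 : finrank K (sh y V1) ≤ finrank K (V1.map (LinearMap.mulLeft K (y 0 + t • y 1))) :=
      Submodule.finrank_mono hsh
    have h3 : finrank K (kerOn (y 0 + t • y 1) V) ≤
        finrank K (↥(V1 ⊓ LinearMap.ker (LinearMap.mulLeft K (y 0 + t • y 1)))) := by
      refine Submodule.finrank_mono fun v hv => ⟨hker hv, hv.2⟩
    rw [hshy] at h2
    omega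
  rcases Nat.lt_or_ge d (a + b - 2 - e) with hdw | hdw
  · -- `k ≥ 1`
    exfalso
    have hF : ∀ V1 ≤ V, V1 ≠ ⊥ → finrank K V1 + 1 ≤ finrank K (sh x V1) := by
      intro V1 hV1 hne
      by_contra hcon
      obtain ⟨k1, hk1, hk2, -⟩ := f1 V1 hV1 hne (by omega)
      omega
    by_cases hinj : ∃ t : K, ∀ u ∈ sh x V, (y 0 + t • y 1) * u = 0 → u = 0
    · obtain ⟨t, ht⟩ := hinj
      obtain ⟨M', N', hN', h0, h1⟩ := hMt t
      have hshz : ∀ W : Submodule K A, sh (chg M' x) W = sh x W := sh_chg hN' x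
      obtain ⟨k, hk⟩ : ∃ k, finrank K (sh x V) = finrank K V + k :=
        ⟨finrank K (sh x V) - finrank K V, by omega⟩
      obtain ⟨k1, hk1, F, hF', hF0, hFV⟩ := key_lemma (chg M' x) gr (H.chg_mul M')
        (a + b + c - 3) c e k (by omega) (H.chg_soc hN') (H.chg_pts hN') V hV
        (by rw [hshz, hk]) (by rw [h0, h1, hshz]; exact hgent t)
        (by rw [hshz, h0]; exact ht) (by rw [hshz, hshz]; omega) (by omega)
      have hfin := H.ann k1 _ (chg_hom M' hF') (chg_ne_zero hN' hF0) e (by omega) V hV (by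
        intro v hv
        rw [← aeval_chg]
        exact hFV v hv)
      have h2 := notI k (by omega)
      have h3 := LL_mono (r := e + 2 - a) hk1
      omega
    · push Not at hinj
      obtain ⟨t, V1, hV1, hne, h1⟩ := hts (by
        intro t
        have hfin1 : Module.Finite K (kerOn (y 0 + t • y 1) (sh y V)) := by
          rw [hshy]
          exact Submodule.finiteDimensional_of_le (inf_le_left : _ ≤ sh x V)
        by_cases hb : kerOn (y 0 + t • y 1) V = ⊥
        · rw [hb, finrank_bot]
          obtain ⟨u, hu, h0, hne⟩ := hinj t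
          have : 0 < finrank K (kerOn (y 0 + t • y 1) (sh y V)) := by
            rw [Module.finrank_pos_iff]
            refine Submodule.nontrivial_iff_ne_bot.2 fun hbot => hne ?_
            have : u ∈ kerOn (y 0 + t • y 1) (sh y V) := ⟨by rw [hshy]; exact hu, h0⟩
            rwa [hbot, Submodule.mem_bot] at this
          omega
        · have h1 : finrank K (kerOn (y 0 + t • y 1) V) + 1 ≤
              finrank K (sh x (kerOn (y 0 + t • y 1) V)) := hF _ inf_le_left hb
          have h2 : finrank K (sh x (kerOn (y 0 + t • y 1) V)) ≤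
              finrank K (kerOn (y 0 + t • y 1) (sh y V)) := by
            rw [← hshy]
            exact Submodule.finrank_mono (sh_kerOn_le y _ V)
          omega)
      have h2 := hF V1 hV1 hne
      omega
  · -- `k ≤ 0`
    by_cases hinj : ∃ t : K, ∀ v ∈ V, (y 0 + t • y 1) * v = 0 → v = 0
    · exfalso
      obtain ⟨t, ht⟩ := hinj
      obtain ⟨M', N', hN', h0, h1⟩ := hMt t
      have hshz : ∀ W : Submodule K A, sh (chg M' x) W = sh x W := sh_chg hN' x
      have hle : V.map (LinearMap.mulLeft K (y 0 + t • y 1)) ≤ sh x V := by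
        rw [← hgent t]; exact le_sup_left
      have hdim := finrank_map_add_ker (LinearMap.mulLeft K (y 0 + t • y 1)) V
      have hker : V ⊓ LinearMap.ker (LinearMap.mulLeft K (y 0 + t • y 1)) = ⊥ := by
        rw [eq_bot_iff]
        intro v hv
        exact ht v hv.1 hv.2
      rw [hker, finrank_bot] at hdim
      have hle' := Submodule.finrank_mono hle
      have heq : V.map (LinearMap.mulLeft K (y 0 + t • y 1)) = sh x V :=
        Submodule.eq_of_le_of_finrank_le hle (by omega)
      have hV0 := cf_key_zero (chg M' x) gr (H.chg_mul M') (a + b + c - 3) c e (by omega)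
        (H.chg_soc hN') (H.chg_pts hN') V hV (by rw [h0, hshz, heq]) (by rw [h0]; exact ht)
        (by rw [hshz, hshz]; omega) (by omega)
      have h2 := notI 0 (by omega)
      rw [hV0, finrank_bot] at h2
      omega
    · push Not at hinj
      -- kernels grow
      have hz : ∀ t : K, 1 ≤ finrank K (kerOn (y 0 + t • y 1) V) ∧
          finrank K (kerOn (y 0 + t • y 1) V) + 1 ≤
            finrank K (kerOn (y 0 + t • y 1) (sh y V)) := by
        intro t
        have hfin1 : Module.Finite K (kerOn (y 0 + t • y 1) (sh y V)) := by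
          rw [hshy]
          exact Submodule.finiteDimensional_of_le (inf_le_left : _ ≤ sh x V)
        have hfin2 : Module.Finite K (kerOn (y 0 + t • y 1) V) :=
          Submodule.finiteDimensional_of_le (inf_le_left : _ ≤ V)
        obtain ⟨v, hv, h0, hne⟩ := hinj t
        have hb : kerOn (y 0 + t • y 1) V ≠ ⊥ := by
          intro hbot
          have : v ∈ kerOn (y 0 + t • y 1) V := ⟨hv, h0⟩
          rw [hbot, Submodule.mem_bot] at this
          exact hne this
        obtain ⟨M', N', hN', h0', h1'⟩ := hMt t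
        have hshz : ∀ W : Submodule K A, sh (chg M' x) W = sh x W := sh_chg hN' x
        have h1 := cf_zl (chg M' x) gr (H.chg_mul M') (a + b + c - 3) c e (by omega)
          (H.chg_soc hN') (H.chg_pts hN') (kerOn (y 0 + t • y 1) V)
          (inf_le_left.trans hV) hb (by rw [h0']; exact fun u hu => hu.2) (by omega)
        have h2 : finrank K (sh x (kerOn (y 0 + t • y 1) V)) ≤
            finrank K (kerOn (y 0 + t • y 1) (sh y V)) := by
          rw [← hshy]
          exact Submodule.finrank_mono (sh_kerOn_le y _ V)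
        rw [hshz] at h1
        refine ⟨?_, by omega⟩
        have : 0 < finrank K (kerOn (y 0 + t • y 1) V) := by
          rw [Module.finrank_pos_iff]
          exact Submodule.nontrivial_iff_ne_bot.2 hb
        omega
      obtain ⟨t, V1, hV1, hne, h1⟩ := hts fun t => (hz t).2
      obtain ⟨hz1, hz2⟩ := hz t
      have hF : ¬ (finrank K (sh x V1) + d < finrank K V1 + (a + b - 2 - e)) := by
        intro hcon
        obtain ⟨k1, hk1, hk2, -⟩ := f1 V1 hV1 hne hcon
        omega
      have hle : V.map (LinearMap.mulLeft K (y 0 + t • y 1)) ≤ sh x V := by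
        rw [← hgent t]; exact le_sup_left
      have hdim := finrank_map_add_ker (LinearMap.mulLeft K (y 0 + t • y 1)) V
      have hdim' : finrank K (V.map (LinearMap.mulLeft K (y 0 + t • y 1))) +
          finrank K (kerOn (y 0 + t • y 1) V) = finrank K V := hdim
      have hle' := Submodule.finrank_mono hle
      have heq : V.map (LinearMap.mulLeft K (y 0 + t • y 1)) = sh x V :=
        Submodule.eq_of_le_of_finrank_le hle (by omega)
      have hdim2 : finrank K ((sh x V).map (LinearMap.mulLeft K (y 0 + t • y 1))) +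
          finrank K (kerOn (y 0 + t • y 1) (sh x V)) = finrank K (sh x V) :=
        finrank_map_add_ker _ _
      have hss : sh x (sh x V) = (sh x V).map (LinearMap.mulLeft K (y 0 + t • y 1)) := by
        conv_lhs => rw [← heq]
        rw [map_sh_mul]
      rw [hshy] at hz2
      rw [← hss] at hdim2
      refine ⟨by omega, by omega⟩


theorem mid_aux_free [IsAlgClosed K] (ha : 1 ≤ a) (hab : a ≤ b) (hbc : b ≤ c)
    (H : IsCI0 x gr a b c) (hEnd : HEnd x gr a b c) (n : ℕ) :
    ∀ d, a * b + a + b ≤ n + d → ∀ e, ∀ V : Submodule K A, ¬ Bad x gr a b c e d V := by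
  induction n using Nat.strong_induction_on with
  | _ n IH =>
  intro d hn
  have hmax : ∀ e' d' V', d < d' → ¬ Bad x gr a b c e' d' V' := by
    intro e' d' V' hdd hB'
    rcases Nat.eq_zero_or_pos n with hn0 | hn0
    · obtain ⟨hV, he1, he2, hd, hw, -, -⟩ := hB'
      haveI := H.fin e'
      have h1 := Submodule.finrank_mono hV
      rw [H.dim e'] at h1
      have h2 := box_mid ha hab hbc he1 (e := e') (by omega)
      omega
    · exact IH (n - 1) (by omega) d' (by omega) e' V' hB'
  -- induction on `e`, downwards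
  have main : ∀ m e, a + b ≤ e + m → ∀ V : Submodule K A, ¬ Bad x gr a b c e d V := by
    intro m
    induction m with
    | zero =>
      intro e he V hB
      have := hB.he2
      omega
    | succ m ihm =>
      intro e he V hB
      obtain ⟨hw1, hw2⟩ := hB.step hab hbc H hEnd hmax
      obtain ⟨e', he'⟩ : ∃ e', e + e' + 4 = a + b + c := ⟨a + b + c - 4 - e, by
        have := hB.he1; have := hB.he2; omega⟩
      obtain ⟨-, d', hdd', hB'⟩ := mid_dual ha hab hbc H hB e' he'
      have hd'd : d' = d := by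
        by_contra hne
        exact hmax e' d' _ (by omega) hB'
      subst hd'd
      obtain ⟨hw3, hw4⟩ := hB'.step hab hbc H hEnd hmax
      obtain ⟨hV, he1, he2, hd, hw, notI, notII⟩ := hB
      -- the shadow is not everything
      have hperp := H.perp_dim ha (ha.trans hab) (ha.trans (hab.trans hbc)) (i := e')
        (j := e + 1) (by omega) (sh x V) (H.sh_le_gr hV)
      have hs1 := box_symm a b c e' (e+1) (by omega) ha (ha.trans hab)
        (ha.trans (hab.trans hbc))
      have hpos : 0 < finrank K (perp (gr e') (sh x V)) := by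
        rcases Nat.eq_zero_or_pos (finrank K (perp (gr e') (sh x V))) with h0 | h0
        · exfalso
          have h1 := hB'.hw
          omega
        · exact h0
      have hb2 := box_mid ha hab hbc (e := e+1) (by omega) (by omega)
      rcases Nat.lt_or_ge (e + 3) (a + b) with he3 | he3
      · refine ihm (e+1) (by omega) (sh x V) ⟨H.sh_le_gr hV, by omega, by omega, hd, by omega,
          fun k hk => by omega, fun hd' => ?_⟩
        have hdeq : d' = e + 1 + 2 - c := by omega
        rw [← hdeq] at hb2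
        have h1 : b * (a + c - 2 - (e + 1) + d') = a * b := by
          rw [show a + c - 2 - (e + 1) + d' = a by omega, mul_comm]
        omega
      · have hE := hEnd (sh x V) (by
          have := H.sh_le_gr hV
          rwa [show e + 1 = a + b - 2 by omega] at this) d' hd (by omega)
        have hdeq : d' = e + 1 + 2 - c := by omega
        rw [← hdeq] at hb2
        have h1 : b * (c - b + d') = a * b := by
          rw [show c - b + d' = a by omega, mul_comm]
        have h2 := hE.2
        rw [h1] at h2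
        have h3 : (a + b - 1 - (e + 1)).choose 2 = 0 := by
          rw [show a + b - 1 - (e+1) = 1 by omega]; rfl
        omega
  intro e V
  exact main (a + b) e (by omega) V

/-- growth in the middle range, any characteristic -/
theorem growth_mid_free [IsAlgClosed K] (ha : 1 ≤ a) (hab : a ≤ b) (hbc : b ≤ c)
    (H : IsCI0 x gr a b c) (hEnd : HEnd x gr a b c) (e : ℕ) (he1 : c ≤ e + 1)
    (he2 : e + 3 ≤ a + b) (V : Submodule K A) (hV : V ≤ gr e) :
    Shadow a b c e (finrank K V) (finrank K (sh x V)) := by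
  by_cases htop : finrank K V + (a + b - 2 - e) ≤ finrank K (sh x V)
  · exact shadow_mid_top ha hab hbc he1 he2 htop
  obtain ⟨d, hd⟩ : ∃ d, finrank K (sh x V) + d = finrank K V + (a + b - 2 - e) :=
    ⟨finrank K V + (a + b - 2 - e) - finrank K (sh x V), by omega⟩
  by_cases hI : ∃ k, k + d = a + b - 2 - e ∧ finrank K V ≤ k * (e + 2 - a) + k.choose 2
  · obtain ⟨k, hk, hk2⟩ := hI
    exact shadow_mid_I ha hab hbc he1 he2 (k := k) (by omega) hk2 (by omega)
  by_cases hII : d ≤ e + 2 - c ∧
      b * (a + c - 2 - e + d) ≤ finrank K V + (a + b - 1 - e).choose 2 + d.choose 2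
  · exact shadow_mid_II ha hab hbc he1 he2 hII.1 hII.2 (by omega)
  exfalso
  push Not at hI hII
  exact mid_aux_free ha hab hbc H hEnd (a * b + a + b) d (by omega) e V
    ⟨hV, he1, he2, by omega, hd, hI, hII⟩

end Vale.Agent.P200
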