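import Vale.Agent.P200.GrowthPoly
import Vale.Agent.P200.GrowthFree

namespace Vale.Agent.P200

open MvPolynomial Module

variable {K : Type*} [Field K]

/-- numerical growth bound in degree `c - 2` -/
theorem low_numeric [IsAlgClosed K] {a b c : ℕ} (ha : 1 ≤ a) (hab : a ≤ b) (hbc : b ≤ c)
    {f g h : S3 K} (H : RegSeq3 a b c f g h) (e : ℕ) (he : e + 2 ≤ c)
    (V : Submodule K (S3 K ⧸ I3 f g h)) (hV : V ≤ gr3 f g h e) :
    ∃ k, finrank K (sh (x3 f g h) V) = finrank K V + k ∧
      (k + 1 ≤ H2 a b (e+1) → finrank K V ≤ k * (e + 2 - a) + k.choose 2) := by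
  have hc : 1 ≤ c := ha.trans (hab.trans hbc)
  obtain ⟨N, hN⟩ : ∃ N, N = e + a + 3 := ⟨_, rfl⟩
  have hcN : c ≤ c * N := Nat.le_mul_of_pos_right c (by omega)
  have hNc : N ≤ c * N := Nat.le_mul_of_pos_left N (by omega)
  have H' := H.pow N
  have hle : I3 f g (h ^ N) ≤ I3 f g h := by
    intro p hp
    obtain ⟨u, v, w, rfl⟩ := mem_I3.1 hp
    refine mem_I3.2 ⟨u, v, h ^ (N - 1) * w, ?_⟩
    rw [← mul_assoc, ← pow_succ', show N - 1 + 1 = N by omega]
  obtain ⟨V', hV', e1, e2⟩ := transfer_low hle e (fun j hj p hp h0 => by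
    obtain ⟨u, v, w, h1, -, -, -, -, -, h2⟩ := H.exists_hom_coeff hp h0
    refine mem_I3.2 ⟨u, v, 0, ?_⟩
    rw [h1, h2 (by omega)]; ring) V hV
  have HC := H'.isCI0 ha hab (hbc.trans hcN)
  obtain ⟨t0, ht0⟩ := HC.nzd
  haveI := HC.fin_of_le hV'
  have h3 : finrank K V' ≤ finrank K (sh (x3 f g (h ^ N)) V') :=
    finrank_le_of_inj t0 fun v hv => ht0 e (by omega) v (hV' hv)
  obtain ⟨k, hk⟩ := Nat.exists_eq_add_of_le h3
  refine ⟨k, by rw [← e1, ← e2, hk], fun hkH => ?_⟩
  rw [← e1]
  have hHa : H2 a b (e+1) ≤ a := by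
    rw [H2_eq]; omega
  exact low_aux ha hab (hbc.trans hcN) HC k e (by omega) V' hV' hk hkH

/-- growth in degree `a + b - 2` -/
theorem high_end [IsAlgClosed K] {a b c : ℕ} (ha : 1 ≤ a) (hab : a ≤ b) (hbc : b ≤ c)
    (hcab : c + 2 ≤ a + b) {f g h : S3 K} (H : RegSeq3 a b c f g h) :
    HEnd (x3 f g h) (gr3 f g h) a b c := by
  intro V hV d hd hVd
  have HC := H.isCI0 ha hab hbc
  have hb := ha.trans hab
  have hc := hb.trans hbc
  obtain ⟨e, he⟩ : ∃ e, e + 2 = a + b := ⟨a + b - 2, by omega⟩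
  obtain ⟨e', he'⟩ : ∃ e', e' + 2 = c := ⟨c - 2, by omega⟩
  rw [show a + b - 2 = e by omega] at hV
  have hdim := HC.perp_dim ha hb hc (i := e') (j := e+1) (by omega) (sh (x3 f g h) V)
    (HC.sh_le_gr hV)
  have hdim2 := HC.perp_dim ha hb hc (i := e'+1) (j := e) (by omega) V hV
  have hle : finrank K (sh (x3 f g h) (perp (gr3 f g h e') (sh (x3 f g h) V))) ≤
      finrank K (perp (gr3 f g h (e'+1)) V) := by
    haveI := HC.fin_of_le (e := e'+1) (V := perp (gr3 f g h (e'+1)) V) perp_le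
    exact Submodule.finrank_mono (HC.sh_perp_le V)
  have hs1 := box_symm a b c e' (e+1) (by omega) ha hb hc
  have hs2 := box_symm a b c (e'+1) e (by omega) ha hb hc
  -- values of `box`
  have hb1 := box_mid ha hab hbc (e := e'+1) (by omega) (by omega)
  have hb0 := box_mid ha hab hbc (e := e) (by omega) (by omega)
  rw [show a + b - 1 - e = 1 by omega, show e + 2 - c = a + b - c by omega] at hb0
  -- `box (c-1) = box (c-2) + (a + b - c)`
  have hstep : box a b c (e'+1) = box a b c e' + (a + b - c) := by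
    have h1 : ∀ r, r ≤ a → Lam a b c (e'+1) r = Lam a b c e' r +
        ((min r (a + b - c)) - 0) := by
      intro r
      induction r with
      | zero => intro _; rw [Lam_zero, Lam_zero]; omega
      | succ r ih =>
        intro hr
        have := ih (by omega)
        rw [Lam_succ (by omega), Lam_succ (by omega), this, H2_eq, H2_eq]
        split_ifs <;> omega
    have h2 := h1 a le_rfl
    rw [Lam_self, Lam_self] at h2
    omega
  obtain ⟨k, hk, hk2⟩ := low_numeric ha hab hbc H e' (by omega)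
    (perp (gr3 f g h e') (sh (x3 f g h) V)) perp_le
  have hH2 : H2 a b (e'+1) = a + b - c := by rw [H2_eq]; omega
  rw [hH2] at hk2
  have hdle : d ≤ a + b - c := by omega
  refine ⟨hdle, ?_⟩
  have hx := hk2 (by omega)
  have hx2 := LL_mono (r := e' + 2 - a) (show k ≤ a + b - c - d by omega)
  have h0 : (0 : ℕ).choose 2 = 0 := rfl
  have key := dual_id1 (a := a) (b := b) (c := c) (e := e) (d := d) (w := 0)
    (w' := a + b - c) (h' := box a b c (e+1)) (m := finrank K V)
    (M := finrank K (sh (x3 f g h) V))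
    (x := finrank K (perp (gr3 f g h e') (sh (x3 f g h) V)))
    (by omega) (by omega) hdle hbc hab (by omega)
    (by
      rw [choose2_succ]
      have h11 : (1 : ℕ).choose 2 = 0 := rfl
      omega) (by omega) (by omega)
    (by rw [show b - (a + b - c) = e' + 2 - a by omega]; omega)
  have h11 : (0 + 1 : ℕ).choose 2 = 0 := rfl
  rw [show a + c - 2 - e + d = c - b + d by omega, h11] at key
  omega

end Vale.Agent.P200
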