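import Vale.Agent.P200.Growth
import Vale.Agent.P200.CIFacts
import Vale.Agent.P200.FDefs

namespace Vale.Agent.P200

open MvPolynomial Module

variable {K : Type*} [Field K]

theorem RegSeq3.pow {a b c : ℕ} {f g h : S3 K} (H : RegSeq3 a b c f g h) (N : ℕ) :
    RegSeq3 a b (c * N) f g (h ^ N) where
  hf := H.hf
  hg := H.hg
  hh := H.hh.pow N
  nf := H.nf
  rg := H.rg
  rh := by
    induction N with
    | zero => intro u v w huvw; exact ⟨v, w, by simpa using huvw⟩
    | succ N ih =>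
      intro u v w huvw
      rw [pow_succ', mul_assoc] at huvw
      obtain ⟨v', w', h'⟩ := H.rh _ _ _ huvw
      exact ih u v' w' h'

theorem finrank_map_of_inj {A B : Type*} [AddCommGroup A] [Module K A] [AddCommGroup B]
    [Module K B] (φ : A →ₗ[K] B) (W : Submodule K A) (h : ∀ u ∈ W, φ u = 0 → u = 0) :
    finrank K (W.map φ) = finrank K W := by
  have h1 : ∀ u : W, φ.domRestrict W u = 0 → u = 0 := fun u hu => Subtype.ext (h u u.2 hu)
  have h2 : finrank K (LinearMap.range (φ.domRestrict W)) = finrank K W :=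
    LinearMap.finrank_range_of_inj ((LinearMap.ker_eq_bot.1 (LinearMap.ker_eq_bot'.2 h1)))
  rw [LinearMap.range_domRestrict] at h2
  exact h2

theorem map_sh {A B : Type*} [CommRing A] [Algebra K A] [CommRing B] [Algebra K B]
    (φ : A →ₐ[K] B) (x : Fin 3 → A) (y : Fin 3 → B) (hxy : ∀ i, φ (x i) = y i)
    (V : Submodule K A) :
    (sh x V).map φ.toLinearMap = sh y (V.map φ.toLinearMap) := by
  refine le_antisymm ?_ ?_
  · rintro _ ⟨u, hu, rfl⟩
    obtain ⟨v0, h0, v1, h1, v2, h2, rfl⟩ := mem_sh_iff.1 hu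
    refine mem_sh_iff.2 ⟨φ v0, ⟨v0, h0, rfl⟩, φ v1, ⟨v1, h1, rfl⟩, φ v2, ⟨v2, h2, rfl⟩, ?_⟩
    simp [hxy]
  · refine sh_le fun i v hv => ?_
    obtain ⟨v, hv, rfl⟩ := hv
    exact ⟨x i * v, mem_sh i hv, by simp [hxy]⟩

/-- transfer of dimensions along a surjection which is injective in two degrees -/
theorem transfer_low {f g h h' : S3 K} (hle : I3 f g h' ≤ I3 f g h) (e : ℕ)
    (hinj : ∀ j, j ≤ e + 1 → ∀ p : S3 K, p.IsHomogeneous j → p ∈ I3 f g h → p ∈ I3 f g h')
    (V : Submodule K (S3 K ⧸ I3 f g h)) (hV : V ≤ gr3 f g h e) :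
    ∃ V' : Submodule K (S3 K ⧸ I3 f g h'), V' ≤ gr3 f g h' e ∧ finrank K V' = finrank K V ∧
      finrank K (sh (x3 f g h') V') = finrank K (sh (x3 f g h) V) := by
  let φ : (S3 K ⧸ I3 f g h') →ₐ[K] (S3 K ⧸ I3 f g h) := Ideal.Quotient.factorₐ K hle
  have hφ : ∀ p : S3 K, φ (Ideal.Quotient.mk _ p) = Ideal.Quotient.mk _ p := fun p => rfl
  have hinj : ∀ j, j ≤ e + 1 → ∀ u ∈ gr3 f g h' j, φ u = 0 → u = 0 := by
    intro j hj u hu h0
    obtain ⟨p, hp, rfl⟩ := mem_gr3.1 hu
    rw [hφ, Ideal.Quotient.eq_zero_iff_mem] at h0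
    rw [Ideal.Quotient.eq_zero_iff_mem]
    exact hinj j hj p hp h0
  let V' : Submodule K (S3 K ⧸ I3 f g h') := gr3 f g h' e ⊓ V.comap φ.toLinearMap
  have hV'V : V'.map φ.toLinearMap = V := by
    refine le_antisymm ?_ ?_
    · rintro _ ⟨u, hu, rfl⟩
      exact hu.2
    · intro v hv
      obtain ⟨p, hp, hpv⟩ := mem_gr3.1 (hV hv)
      refine ⟨Ideal.Quotient.mk _ p, ⟨mem_gr3.2 ⟨p, hp, rfl⟩, ?_⟩, hpv⟩
      show φ (Ideal.Quotient.mk _ p) ∈ V
      rw [hφ, hpv]; exact hv
  have e1 : finrank K V' = finrank K V := by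
    rw [← hV'V]
    refine (finrank_map_of_inj _ _ fun u hu h0 => ?_).symm
    have hu' : u ∈ V' := hu
    exact hinj e (by omega) u hu'.1 h0
  have hx : ∀ i, φ (x3 f g h' i) = x3 f g h i := fun i => hφ _
  have e2 : finrank K (sh (x3 f g h') V') = finrank K (sh (x3 f g h) V) := by
    have h1 := map_sh φ (x3 f g h') (x3 f g h) hx V'
    rw [hV'V] at h1
    rw [← h1]
    refine (finrank_map_of_inj _ _ fun u hu h0 => hinj (e+1) le_rfl u ?_ h0).symm
    rw [gr3_gen]
    exact sh_mono inf_le_left hu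
  exact ⟨V', inf_le_left, e1, e2⟩

/-- low degrees -/
theorem growth_ci_low [IsAlgClosed K] {a b c : ℕ} (ha : 1 ≤ a) (hab : a ≤ b) (hbc : b ≤ c)
    {f g h : S3 K} (H : RegSeq3 a b c f g h) (e : ℕ) (he : e + 2 ≤ c)
    (V : Submodule K (S3 K ⧸ I3 f g h)) (hV : V ≤ gr3 f g h e) :
    Shadow a b c e (finrank K V) (finrank K (sh (x3 f g h) V)) := by
  have hc : 1 ≤ c := ha.trans (hab.trans hbc)
  obtain ⟨N, hN⟩ : ∃ N, N = e + a + 3 := ⟨_, rfl⟩
  have hcN : c ≤ c * N := Nat.le_mul_of_pos_right c (by omega)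
  have hNc : N ≤ c * N := Nat.le_mul_of_pos_left N (by omega)
  have H' := H.pow N
  have hle : I3 f g (h ^ N) ≤ I3 f g h := by
    intro p hp
    obtain ⟨u, v, w, rfl⟩ := mem_I3.1 hp
    refine mem_I3.2 ⟨u, v, h ^ (N - 1) * w, ?_⟩
    rw [← mul_assoc, ← pow_succ', show N - 1 + 1 = N by omega]
  obtain ⟨V', hV', e1, e2⟩ := transfer_low hle e (fun j hj p hp h0 => by
    obtain ⟨u, v, w, h1, -, -, -, -, -, h2⟩ := H.exists_hom_coeff hp h0
    refine mem_I3.2 ⟨u, v, 0, ?_⟩
    rw [h1, h2 (by omega)]; ring) V hV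
  have h1 := growth_low ha hab (hbc.trans hcN) (H'.isCI0 ha hab (hbc.trans hcN)) e (by omega)
    V' hV'
  rw [e1, e2] at h1
  exact shadow_change_c he hcN h1

/-- growth for all subspaces of all graded pieces of a complete intersection -/
theorem growth_ci [IsAlgClosed K] {a b c : ℕ} (ha : 1 ≤ a) (hab : a ≤ b) (hbc : b ≤ c)
    (hchar : ∀ n : ℕ, 0 < n → n + 3 ≤ a + b → (n : K) ≠ 0)
    {f g h : S3 K} (H : RegSeq3 a b c f g h) (e : ℕ)
    (V : Submodule K (S3 K ⧸ I3 f g h)) (hV : V ≤ gr3 f g h e) :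
    Shadow a b c e (finrank K V) (finrank K (sh (x3 f g h) V)) := by
  rcases Nat.lt_or_ge (e + 1) c with h1 | h1
  · exact growth_ci_low ha hab hbc H e (by omega) V hV
  rcases Nat.lt_or_ge (e + 2) (a + b) with h2 | h2
  · exact growth_mid ha hab hbc (H.isCI0 ha hab hbc) (H.green ha hab hbc hchar) e h1 (by omega)
      V hV
  rcases Nat.lt_or_ge (a + b + c) (e + 4) with h3 | h3
  · intro i j l hb _
    obtain ⟨hi, hj, hl, hs⟩ := hb
    refine ⟨?_, ?_, ?_⟩
    · rintro ⟨hi', -, -, -⟩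
      omega
    · rintro ⟨-, hj', -, -⟩
      omega
    · rintro ⟨-, -, hl', -⟩
      omega
  · exact growth_dual ha hab hbc (H.isCI0 ha hab hbc) e (a + b + c - 4 - e) (by omega)
      (fun V' hV' => growth_ci_low ha hab hbc H _ (by omega) V' hV') V hV

theorem finrank_image {I J : Ideal (S3 K)} (hJI : J ≤ I) (d : ℕ) :
    finrank K ((degPart I d).map (Ideal.Quotient.mkₐ K J).toLinearMap) =
      finrank K (degPart I d) - finrank K (degPart J d) := by
  haveI : Module.Finite K (homogeneousSubmodule (Fin 3) K d) :=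
    Module.Finite.iff_fg.2 (homogeneousSubmodule_fg (Fin 3) K d)
  haveI : Module.Finite K (degPart I d) := Submodule.finiteDimensional_of_le inf_le_right
  haveI : Module.Finite K (degPart J d) := Submodule.finiteDimensional_of_le inf_le_right
  let φ := (Ideal.Quotient.mkₐ K J).toLinearMap.domRestrict (degPart I d)
  have h1 := LinearMap.finrank_range_add_finrank_ker φ
  have h2 : LinearMap.range φ = (degPart I d).map (Ideal.Quotient.mkₐ K J).toLinearMap :=
    LinearMap.range_domRestrict _ _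
  have h3 : finrank K (LinearMap.ker φ) = finrank K (degPart J d) := by
    have e : (LinearMap.ker φ).map (degPart I d).subtype = degPart J d := by
      ext p
      constructor
      · rintro ⟨q, hq, rfl⟩
        exact ⟨Ideal.Quotient.eq_zero_iff_mem.1 hq, q.2.2⟩
      · intro hp
        exact ⟨⟨p, hJI hp.1, hp.2⟩, Ideal.Quotient.eq_zero_iff_mem.2 hp.1, rfl⟩
    rw [← e]
    exact (finrank_map_of_inj _ _ fun u _ h0 => Subtype.ext h0).symm
  have h4 : finrank K ((degPart I d).map (Ideal.Quotient.mkₐ K J).toLinearMap) +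
      finrank K (degPart J d) = finrank K (degPart I d) := by
    rw [← h3, ← h2]; exact h1
  omega

/-- growth for ideals containing a complete intersection, `K` algebraically closed -/
theorem growth_poly_closed [IsAlgClosed K] {a b c : ℕ} (ha : 1 ≤ a) (hab : a ≤ b) (hbc : b ≤ c)
    (hchar : ∀ n : ℕ, 0 < n → n + 3 ≤ a + b → (n : K) ≠ 0)
    {f g h : S3 K} (H : RegSeq3 a b c f g h) (I : Ideal (S3 K)) (hI : I3 f g h ≤ I) (e : ℕ) :
    Shadow a b c e (finrank K (degPart I e) - finrank K (degPart (I3 f g h) e))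
      (finrank K (degPart I (e+1)) - finrank K (degPart (I3 f g h) (e+1))) := by
  rw [← finrank_image hI e, ← finrank_image hI (e+1)]
  set V : ℕ → Submodule K (S3 K ⧸ I3 f g h) := fun d =>
    (degPart I d).map (Ideal.Quotient.mkₐ K (I3 f g h)).toLinearMap with hVdef
  have hV : ∀ d, V d ≤ gr3 f g h d := fun d => Submodule.map_mono inf_le_right
  have hsh : sh (x3 f g h) (V e) ≤ V (e+1) := by
    refine sh_le fun i v hv => ?_
    obtain ⟨p, ⟨hp1, hp2⟩, rfl⟩ := hv
    refine ⟨X i * p, ⟨I.mul_mem_left _ hp1, ?_⟩, rfl⟩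
    have := (isHomogeneous_X K i).mul hp2
    rwa [add_comm] at this
  haveI := (H.isCI0 ha hab hbc).fin_of_le (hV (e+1))
  exact (growth_ci ha hab hbc hchar H e (V e) (hV e)).mono le_rfl (Submodule.finrank_mono hsh)

end Vale.Agent.P200
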