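import Vale.Agent.P200.FreeE

namespace Vale.Agent.P200

open MvPolynomial Module

variable {K : Type*} [Field K]

/-- growth for all subspaces of all graded pieces of a complete intersection -/
theorem growth_ci_free [IsAlgClosed K] {a b c : ℕ} (ha : 1 ≤ a) (hab : a ≤ b) (hbc : b ≤ c)
    {f g h : S3 K} (H : RegSeq3 a b c f g h) (e : ℕ)
    (V : Submodule K (S3 K ⧸ I3 f g h)) (hV : V ≤ gr3 f g h e) :
    Shadow a b c e (finrank K V) (finrank K (sh (x3 f g h) V)) := by
  rcases Nat.lt_or_ge (e + 1) c with h1 | h1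
  · exact growth_ci_low ha hab hbc H e (by omega) V hV
  rcases Nat.lt_or_ge (e + 2) (a + b) with h2 | h2
  · exact growth_mid_free ha hab hbc (H.isCI0 ha hab hbc)
      (high_end ha hab hbc (by omega) H) e h1 (by omega) V hV
  rcases Nat.lt_or_ge (a + b + c) (e + 4) with h3 | h3
  · intro i j l hb _
    obtain ⟨hi, hj, hl, hs⟩ := hb
    refine ⟨?_, ?_, ?_⟩
    · rintro ⟨hi', -, -, -⟩
      omega
    · rintro ⟨-, hj', -, -⟩
      omega
    · rintro ⟨-, -, hl', -⟩
      omega
  · exact growth_dual ha hab hbc (H.isCI0 ha hab hbc) e (a + b + c - 4 - e) (by omega)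
      (fun V' hV' => growth_ci_low ha hab hbc H _ (by omega) V' hV') V hV

/-- growth for ideals containing a complete intersection, `K` algebraically closed -/
theorem growth_poly_free [IsAlgClosed K] {a b c : ℕ} (ha : 1 ≤ a) (hab : a ≤ b) (hbc : b ≤ c)
    {f g h : S3 K} (H : RegSeq3 a b c f g h) (I : Ideal (S3 K)) (hI : I3 f g h ≤ I) (e : ℕ) :
    Shadow a b c e (finrank K (degPart I e) - finrank K (degPart (I3 f g h) e))
      (finrank K (degPart I (e+1)) - finrank K (degPart (I3 f g h) (e+1))) := by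
  rw [← finrank_image hI e, ← finrank_image hI (e+1)]
  set V : ℕ → Submodule K (S3 K ⧸ I3 f g h) := fun d =>
    (degPart I d).map (Ideal.Quotient.mkₐ K (I3 f g h)).toLinearMap with hVdef
  have hV : ∀ d, V d ≤ gr3 f g h d := fun d => Submodule.map_mono inf_le_right
  have hsh : sh (x3 f g h) (V e) ≤ V (e+1) := by
    refine sh_le fun i v hv => ?_
    obtain ⟨p, ⟨hp1, hp2⟩, rfl⟩ := hv
    refine ⟨X i * p, ⟨I.mul_mem_left _ hp1, ?_⟩, rfl⟩
    have := (isHomogeneous_X K i).mul hp2
    rwa [add_comm] at this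
  haveI := (H.isCI0 ha hab hbc).fin_of_le (hV (e+1))
  exact (growth_ci_free ha hab hbc H e (V e) (hV e)).mono le_rfl (Submodule.finrank_mono hsh)

end Vale.Agent.P200
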